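/-
Row 239 / MATCH / KumBoundAux.lean (owner helper108).  Abstract part of the eigenspace count `mat_kummer_eigen_bound`.
MATHLIB ONLY.  Prefix `mat_kb` / `MatKb`.

* `MatKbBdd Q H B`: finite subsets of `H`, pairwise incongruent modulo `Q`, have at most `B` elements;
  `mat_kb_bdd_step`: a map `Φ` into a finite type whose fibres are cosets of `H₁` multiplies the bound by `card F`.
* `mat_kb_orbit_reps`: representatives of the orbits of length `≥ e` of a permutation.
* `mat_kb_span_reps`, `mat_kb_eigen_span`: the `w`-eigenspace in a module spanned by a permuted family is spanned by one vector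
  for each representative.
* `mat_kb_stepA`: the resulting count in `G / G^q`.
-/
import Mathlib

set_option autoImplicit false

namespace Claimed.Agent.R239

open scoped BigOperators

/-! ### counting modulo a subgroup -/

/-- every finite subset of `H` whose elements are pairwise incongruent modulo `Q` has at most `B` elements. -/
def MatKbBdd {G : Type*} [CommGroup G] (Q : Subgroup G) (H : Set G) (B : ℕ) : Prop :=
  ∀ D : Finset G, (∀ d ∈ D, d ∈ H) → (∀ d ∈ D, ∀ d' ∈ D, d / d' ∈ Q → d = d') → D.card ≤ B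

theorem mat_kb_bdd_self {G : Type*} [CommGroup G] (Q : Subgroup G) : MatKbBdd Q (Q : Set G) 1 := by
  intro D hD hinj
  rw [Finset.card_le_one]
  intro a ha b hb
  exact hinj a ha b hb (Q.div_mem (hD a ha) (hD b hb))

theorem mat_kb_bdd_step {G F : Type*} [CommGroup G] [Fintype F] (Q : Subgroup G) {H₁ H₂ : Set G}
    {B : ℕ} (Φ : G → F) (h : ∀ x ∈ H₂, ∀ y ∈ H₂, Φ x = Φ y → x / y ∈ H₁) (hB : MatKbBdd Q H₁ B) :
    MatKbBdd Q H₂ (Fintype.card F * B) := by
  classical
  intro D hD hinj
  have h1 : D.card ≤ B * (D.image Φ).card := by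
    refine Finset.card_le_mul_card_image D B ?_
    intro a ha
    obtain ⟨d₀, hd₀, rfl⟩ := Finset.mem_image.1 ha
    have hinj' : Function.Injective (fun d : G => d / d₀) := fun x y hxy => by simpa using hxy
    rw [← Finset.card_image_of_injective _ hinj']
    apply hB
    · intro z hz
      obtain ⟨d, hd, rfl⟩ := Finset.mem_image.1 hz
      rw [Finset.mem_filter] at hd
      exact h d (hD d hd.1) d₀ (hD d₀ hd₀) hd.2
    · intro z hz z' hz' hzz
      obtain ⟨d, hd, rfl⟩ := Finset.mem_image.1 hz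
      obtain ⟨d', hd', rfl⟩ := Finset.mem_image.1 hz'
      rw [Finset.mem_filter] at hd hd'
      have : d / d' ∈ Q := by simpa using hzz
      rw [hinj d hd.1 d' hd'.1 this]
  calc D.card ≤ B * (D.image Φ).card := h1
    _ ≤ B * Fintype.card F := Nat.mul_le_mul_left _ (Finset.card_le_univ _)
    _ = Fintype.card F * B := Nat.mul_comm _ _

theorem MatKbBdd.mono {G : Type*} [CommGroup G] {Q : Subgroup G} {H₁ H₂ : Set G} {B : ℕ}
    (hB : MatKbBdd Q H₁ B) (h : H₂ ⊆ H₁) : MatKbBdd Q H₂ B :=
  fun D hD hinj => hB D (fun d hd => h (hD d hd)) hinj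

/-! ### orbit representatives -/

/-- the covering property of a set `R` of orbit representatives. -/
def MatKbCover {X : Type*} (σ : Equiv.Perm X) (e : ℕ) (R : Finset X) : Prop :=
  ∀ x, (∃ m, 0 < m ∧ m < e ∧ (σ ^ m) x = x) ∨ ∃ r ∈ R, ∃ i : ℕ, (σ ^ i) r = x

theorem mat_kb_orbit_reps {X : Type*} [Fintype X] (σ : Equiv.Perm X) (e : ℕ) :
    ∃ R : Finset X, R.card * e ≤ Fintype.card X ∧ MatKbCover σ e R := by
  classical
  let P : Finset X → Prop := fun R =>
    Set.InjOn (fun p : X × ℕ => (σ ^ p.2) p.1) (R ×ˢ Finset.range e : Finset (X × ℕ))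
  have hne : (Finset.univ.filter P).Nonempty := ⟨∅, by simp [P]⟩
  obtain ⟨R, hR⟩ := Finset.exists_maximal hne
  have hPR : P R := (Finset.mem_filter.1 hR.prop).2
  refine ⟨R, ?_, ?_⟩
  · rw [← Finset.card_range e, ← Finset.card_product, ← Finset.card_image_of_injOn hPR]
    exact Finset.card_le_univ _
  · intro x
    by_contra hx
    rw [not_or] at hx
    obtain ⟨hx1, hx2⟩ := hx
    have hfree : ∀ m, 0 < m → m < e → (σ ^ m) x ≠ x := fun m h0 h1 h2 => hx1 ⟨m, h0, h1, h2⟩
    have horb : ∀ r ∈ R, ¬ σ.SameCycle r x := by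
      intro r hr hs
      obtain ⟨i, hi⟩ := hs.exists_nat_pow_eq
      exact hx2 ⟨r, hr, i, hi⟩
    have hxR : x ∉ R := fun h => horb x h (Equiv.Perm.SameCycle.refl σ x)
    have hfree2 : ∀ i j, i ≤ j → j < e → (σ ^ i) x = (σ ^ j) x → i = j := by
      intro i j hij hj h
      by_contra hne
      have h1 : (σ ^ (j - i)) x = x := by
        have h2 : (σ ^ j) x = (σ ^ i) ((σ ^ (j - i)) x) := by
          rw [← Equiv.Perm.mul_apply, ← pow_add]
          congr 2
          omega
        rw [h2] at h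
        exact ((σ ^ i).injective h).symm
      exact hfree (j - i) (by omega) (by omega) h1
    have hmix : ∀ r ∈ R, ∀ i j : ℕ, (σ ^ i) x ≠ (σ ^ j) r := by
      intro r hr i j h
      apply horb r hr
      refine ⟨(j : ℤ) - i, ?_⟩
      rw [sub_eq_neg_add, zpow_add, Equiv.Perm.mul_apply, zpow_natCast, ← h, zpow_neg, zpow_natCast]
      simp
    have hP' : P (insert x R) := by
      rintro ⟨a, i⟩ ha ⟨b, j⟩ hb hab
      simp only [Finset.coe_product, Finset.coe_insert, Finset.coe_range, Set.mem_prod,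
        Set.mem_insert_iff, Finset.mem_coe, Set.mem_Iio] at ha hb
      simp only at hab
      obtain ⟨ha1, ha2⟩ := ha
      obtain ⟨hb1, hb2⟩ := hb
      rcases ha1 with rfl | ha1 <;> rcases hb1 with rfl | hb1
      · rcases le_total i j with hij | hij
        · rw [hfree2 i j hij hb2 hab]
        · rw [hfree2 j i hij ha2 hab.symm]
      · exact absurd hab (hmix b hb1 i j)
      · exact absurd hab.symm (hmix a ha1 j i)
      · exact hPR (by simp [ha1, ha2]) (by simp [hb1, hb2]) hab
    have hle := hR.le_of_ge (y := insert x R) (Finset.mem_filter.2 ⟨Finset.mem_univ _, hP'⟩)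
      (Finset.subset_insert x R)
    exact hxR (hle (Finset.mem_insert_self x R))

/-! ### linear algebra -/

section Lin

variable {A V X : Type*} [CommRing A] [AddCommGroup V] [Module A V]

theorem mat_kb_span_reps (σ : Equiv.Perm X) (e : ℕ) (w : A)
    (hm : ∀ m, 0 < m → m < e → IsUnit (w ^ m - 1)) (z : X → V) (hz : ∀ x, z (σ x) = w • z x)
    (R : Finset X) (hR : MatKbCover σ e R) (x : X) :
    z x ∈ Submodule.span A (z '' R) := by
  have hpow : ∀ (i : ℕ) (x : X), z ((σ ^ i) x) = w ^ i • z x := by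
    intro i
    induction i with
    | zero => intro x; simp
    | succ i ih =>
      intro x
      rw [pow_succ', Equiv.Perm.mul_apply, hz, ih, smul_smul, pow_succ']
  rcases hR x with ⟨m, hm0, hme, hx⟩ | ⟨r, hr, i, rfl⟩
  · have h1 : (w ^ m - 1) • z x = 0 := by rw [sub_smul, one_smul, ← hpow, hx, sub_self]
    have h2 : z x = 0 := by
      obtain ⟨u, hu⟩ := hm m hm0 hme
      rw [← hu] at h1
      have h3 : (↑u⁻¹ : A) • ((u : A) • z x) = 0 := by rw [h1, smul_zero]
      rwa [smul_smul, Units.inv_mul, one_smul] at h3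
    rw [h2]
    exact Submodule.zero_mem _
  · rw [hpow]
    exact Submodule.smul_mem _ _ (Submodule.subset_span ⟨r, hr, rfl⟩)

theorem mat_kb_eigen_span (f : V →ₗ[A] V) (e : ℕ) (hf : f ^ e = 1) (w : A) (hw : w ^ e = 1)
    (hg : IsUnit ((e : A) * w ^ (e - 1))) (hm : ∀ m, 0 < m → m < e → IsUnit (w ^ m - 1))
    (σ : Equiv.Perm X) (y : X → V) (hy : ∀ x, f (y x) = y (σ x)) (R : Finset X)
    (hR : MatKbCover σ e R) :
    ∃ z : X → V, ∀ d ∈ Submodule.span A (Set.range y), f d = w • d →
      d ∈ Submodule.span A (z '' R) := by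
  set W : Module.End A V := algebraMap A (Module.End A V) w with hW
  have hWapp : ∀ (i : ℕ) (v : V), (W ^ i) v = w ^ i • v := by
    intro i v
    rw [hW, ← map_pow, Module.algebraMap_end_apply]
  have hcomm : Commute f W := (Algebra.commutes w f).symm
  set P : Module.End A V := ∑ i ∈ Finset.range e, f ^ i * W ^ (e - 1 - i) with hP
  have h0 : (f - W) * P = 0 := by
    rw [hP, hcomm.mul_geom_sum₂, hf, hW, ← map_pow, hw, map_one, sub_self]
  have h1 : ∀ v, f (P v) = w • P v := by
    intro v
    have := LinearMap.congr_fun h0 v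
    rw [Module.End.mul_apply, LinearMap.sub_apply, LinearMap.zero_apply, sub_eq_zero] at this
    rw [this, hW, Module.algebraMap_end_apply]
  have h2 : Commute f P := by
    rw [hP]
    exact Commute.sum_right _ _ _ fun i _ =>
      ((Commute.refl f).pow_right i).mul_right (hcomm.pow_right _)
  have h3 : ∀ v, P (f v) = f (P v) := by
    intro v
    have := LinearMap.congr_fun h2.eq v
    rw [Module.End.mul_apply, Module.End.mul_apply] at this
    exact this.symm
  refine ⟨fun x => P (y x), ?_⟩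
  intro d hd hfd
  have hz : ∀ x, P (y (σ x)) = w • P (y x) := by
    intro x
    rw [← hy, h3, h1]
  have h4 : ∀ x, P (y x) ∈ Submodule.span A ((fun x => P (y x)) '' R) :=
    mat_kb_span_reps σ e w hm (fun x => P (y x)) hz R hR
  have h5 : P d ∈ Submodule.span A ((fun x => P (y x)) '' R) := by
    have h6 : Submodule.span A (Set.range y)
        ≤ (Submodule.span A ((fun x => P (y x)) '' R)).comap P := by
      rw [Submodule.span_le]
      rintro _ ⟨x, rfl⟩
      exact h4 x
    exact h6 hd
  have h7 : ∀ i : ℕ, (f ^ i) d = w ^ i • d := by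
    intro i
    induction i with
    | zero => simp
    | succ i ih => rw [pow_succ', Module.End.mul_apply, ih, map_smul, hfd, smul_smul, pow_succ]
  have h8 : P d = ((e : A) * w ^ (e - 1)) • d := by
    rw [hP, LinearMap.sum_apply]
    have : ∀ i ∈ Finset.range e, (f ^ i * W ^ (e - 1 - i)) d = w ^ (e - 1) • d := by
      intro i hi
      rw [Finset.mem_range] at hi
      rw [Module.End.mul_apply, hWapp, map_smul, h7, smul_smul, ← pow_add]
      congr 2
      omega
    rw [Finset.sum_congr rfl this, Finset.sum_const, Finset.card_range, mul_smul,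
      Nat.cast_smul_eq_nsmul]
  obtain ⟨u, hu⟩ := hg
  rw [h8, ← hu] at h5
  have h9 := Submodule.smul_mem _ (↑u⁻¹ : A) h5
  rwa [smul_smul, Units.inv_mul, one_smul] at h9

theorem mat_kb_exists_coord (z : X → V) (R : Finset X) :
    ∃ Φ : V → (R → A), ∀ a ∈ Submodule.span A (z '' R), ∀ b ∈ Submodule.span A (z '' R),
      Φ a = Φ b → a = b := by
  classical
  have hr : z '' R = Set.range (fun r : R => z r) := by
    ext v
    simp
  have key : ∀ a ∈ Submodule.span A (z '' R), ∃ c : R → A, ∑ i, c i • z i = a := by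
    intro a ha
    rw [hr] at ha
    exact (Submodule.mem_span_range_iff_exists_fun A).1 ha
  refine ⟨fun a => if h : ∃ c : R → A, ∑ i, c i • z i = a then h.choose else 0, ?_⟩
  intro a ha b hb hab
  have h1 := key a ha
  have h2 := key b hb
  simp only [dif_pos h1, dif_pos h2] at hab
  rw [← h1.choose_spec, ← h2.choose_spec, hab]

end Lin

/-! ### the count in `G / G^q` -/

section StepA

variable {G X : Type*} [CommGroup G]

/-- the subgroup of `q`-th powers. -/
abbrev matKbPow (G : Type*) [CommGroup G] (q : ℕ) : Subgroup G := (powMonoidHom q : G →* G).range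

theorem mat_kb_mem_pow {q : ℕ} {x : G} : x ∈ matKbPow G q ↔ ∃ t : G, t ^ q = x := by
  simp [matKbPow, MonoidHom.mem_range]

theorem mat_kb_stepA_aux {V : Type*} [AddCommGroup V] (q : ℕ) [NeZero q] [Module (ZMod q) V]
    (pi : Additive G →+ V) (hsurj : Function.Surjective pi)
    (hker : ∀ x y : G, pi (Additive.ofMul x) = pi (Additive.ofMul y) → x / y ∈ matKbPow G q)
    (sU : G →* G) (f : V →ₗ[ZMod q] V)
    (f_pi : ∀ g : G, f (pi (Additive.ofMul g)) = pi (Additive.ofMul (sU g)))
    (e : ℕ) (hs : ∀ x, sU^[e] x = x) (w : ℕ)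
    (hw : (w : ZMod q) ^ e = 1) (hg : IsUnit ((e : ZMod q) * (w : ZMod q) ^ (e - 1)))
    (hm : ∀ m, 0 < m → m < e → IsUnit ((w : ZMod q) ^ m - 1))
    (σ : Equiv.Perm X) (η : X → G) (hη : ∀ x, sU (η x) = η (σ x)) (R : Finset X)
    (hR : MatKbCover σ e R) :
    MatKbBdd (matKbPow G q)
      {d | (∃ t, sU d = d ^ w * t ^ q) ∧ ∃ l ∈ Subgroup.closure (Set.range η), ∃ t, d = l * t ^ q}
      (q ^ R.card) := by
  classical
  have pi_q : ∀ t : G, pi (Additive.ofMul (t ^ q)) = 0 := fun t => by
    rw [ofMul_pow, map_nsmul, ← Nat.cast_smul_eq_nsmul (ZMod q), ZMod.natCast_self, zero_smul]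
  have f_pow : ∀ (k : ℕ) (g : G), (f ^ k) (pi (Additive.ofMul g)) = pi (Additive.ofMul (sU^[k] g)) := by
    intro k
    induction k with
    | zero => intro g; simp
    | succ k ih =>
      intro g
      rw [pow_succ, Module.End.mul_apply, f_pi, ih, Function.iterate_succ_apply]
  have hf : f ^ e = 1 := by
    ext v
    obtain ⟨g, rfl⟩ := hsurj v
    have := f_pow e (Additive.toMul g)
    rw [hs] at this
    simpa using this
  obtain ⟨z, hz⟩ := mat_kb_eigen_span f e hf (w : ZMod q) hw hg hm σ
    (fun x => pi (Additive.ofMul (η x))) (fun x => by rw [f_pi, hη]) R hR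
  obtain ⟨Φ, hΦ⟩ := mat_kb_exists_coord (A := ZMod q) z R
  have hmem : ∀ d : G, (∃ t, sU d = d ^ w * t ^ q) →
      (∃ l ∈ Subgroup.closure (Set.range η), ∃ t, d = l * t ^ q) →
      pi (Additive.ofMul d) ∈ Submodule.span (ZMod q) (z '' R) := by
    rintro d ⟨t, ht⟩ ⟨l, hl, t', rfl⟩
    apply hz
    · rw [ofMul_mul, map_add, pi_q, add_zero]
      clear ht
      induction hl using Subgroup.closure_induction with
      | mem x hx =>
        obtain ⟨a, rfl⟩ := hx
        exact Submodule.subset_span ⟨a, rfl⟩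
      | one => rw [ofMul_one, map_zero]; exact Submodule.zero_mem _
      | mul a b _ _ ha hb => rw [ofMul_mul, map_add]; exact Submodule.add_mem _ ha hb
      | inv a _ ha => rw [ofMul_inv, map_neg]; exact Submodule.neg_mem _ ha
    · rw [f_pi, ht, ofMul_mul, map_add, pi_q, add_zero, ofMul_pow, map_nsmul,
        Nat.cast_smul_eq_nsmul]
  have hstep := mat_kb_bdd_step (matKbPow G q) (H₁ := (matKbPow G q : Set G))
    (H₂ := {d | (∃ t, sU d = d ^ w * t ^ q) ∧
      ∃ l ∈ Subgroup.closure (Set.range η), ∃ t, d = l * t ^ q})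
    (fun g => Φ (pi (Additive.ofMul g)))
    (by
      rintro x ⟨hx1, hx2⟩ y ⟨hy1, hy2⟩ hxy
      exact hker x y (hΦ _ (hmem x hx1 hx2) _ (hmem y hy1 hy2) hxy))
    (mat_kb_bdd_self _)
  have hcard : Fintype.card (R → ZMod q) * 1 = q ^ R.card := by
    simp [ZMod.card]
  rwa [hcard] at hstep

theorem mat_kb_stepA (sU : G →* G) (e : ℕ) (hs : ∀ x, sU^[e] x = x) (q : ℕ) [NeZero q] (w : ℕ)
    (hw : (w : ZMod q) ^ e = 1) (hg : IsUnit ((e : ZMod q) * (w : ZMod q) ^ (e - 1)))
    (hm : ∀ m, 0 < m → m < e → IsUnit ((w : ZMod q) ^ m - 1))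
    (σ : Equiv.Perm X) (η : X → G) (hη : ∀ x, sU (η x) = η (σ x)) (R : Finset X)
    (hR : MatKbCover σ e R) :
    MatKbBdd (matKbPow G q)
      {d | (∃ t, sU d = d ^ w * t ^ q) ∧ ∃ l ∈ Subgroup.closure (Set.range η), ∃ t, d = l * t ^ q}
      (q ^ R.card) := by
  have hq : ∀ x : Additive (G ⧸ matKbPow G q), q • x = 0 := by
    intro x
    have : (Additive.toMul x) ^ q = 1 := by
      obtain ⟨g, hg⟩ := QuotientGroup.mk_surjective (Additive.toMul x)
      rw [← hg, ← QuotientGroup.mk_pow, QuotientGroup.eq_one_iff]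
      exact ⟨g, rfl⟩
    exact congrArg Additive.ofMul this
  let _ : Module (ZMod q) (Additive (G ⧸ matKbPow G q)) := AddCommGroup.zmodModule hq
  have hcomap : matKbPow G q ≤ (matKbPow G q).comap sU := by
    rintro _ ⟨t, rfl⟩
    exact ⟨sU t, by simp⟩
  refine mat_kb_stepA_aux (V := Additive (G ⧸ matKbPow G q)) q
    (MonoidHom.toAdditive (QuotientGroup.mk' (matKbPow G q))) ?_ ?_ sU
    (AddMonoidHom.toZModLinearMap q
      (MonoidHom.toAdditive (QuotientGroup.map (matKbPow G q) (matKbPow G q) sU hcomap)))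
    (fun g => rfl) e hs w hw hg hm σ η hη R hR
  · intro v
    obtain ⟨g, hg⟩ := QuotientGroup.mk_surjective (Additive.toMul v)
    exact ⟨Additive.ofMul g, congrArg Additive.ofMul hg⟩
  · intro x y h
    have h2 : (QuotientGroup.mk x : G ⧸ matKbPow G q) = QuotientGroup.mk y :=
      Additive.ofMul.injective h
    exact QuotientGroup.eq_iff_div_mem.1 h2

end StepA

end Claimed.Agent.R239
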