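/-
Row 239 / MATCH / KumBoundNF.lean (owner helper108).  Number field part of the eigenspace count `mat_kummer_eigen_bound`.
Prefix `mat_kb` / `matKb` / `MatKb`.  Uses the `ord` / `dv` API of CFT/P0a, P0b.

* `matKbPl`, `mat_kb_ord`: action of an automorphism of `K` on the finite primes (no Galois hypothesis), `ord_{γ u}(γ b) = ord_u b`;
  `mat_kb_Sl_card`: at most `[K:ℚ]` primes above `ℓ`.
* `matKbEta`: equivariant Artin units; they generate a subgroup of finite index (`mat_kb_eta_finiteIndex`).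
* `mat_kb_exists_cl`: divisors modulo principal divisors inject into the class group.
* `mat_kb_stepB/C/D`: the counting steps.
-/
import Claimed.Agent.R239.MATCH.KumBoundAux
import Claimed.Agent.R239.CFT.P0b

set_option autoImplicit false

namespace Claimed.Agent.R239

open NumberField IsDedekindDomain
open scoped nonZeroDivisors

section Act

variable {K : Type*} [Field K] [NumberField K]

open Pointwise

/-- the action of an automorphism on the finite primes (no Galois hypothesis). -/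
noncomputable def matKbPl (γ : K ≃ₐ[ℚ] K) (u : CFT.Pl K) : CFT.Pl K :=
  ⟨γ • u.asIdeal, by
      have := u.isPrime
      exact Ideal.map_isPrime_of_equiv (MulSemiringAction.toRingEquiv (K ≃ₐ[ℚ] K) (𝓞 K) γ), by
      intro h
      apply u.ne_bot
      have : γ⁻¹ • (γ • u.asIdeal) = γ⁻¹ • (⊥ : Ideal (𝓞 K)) := by rw [h]
      simpa using this⟩

theorem mat_kb_pl_asIdeal (γ : K ≃ₐ[ℚ] K) (u : CFT.Pl K) : (matKbPl γ u).asIdeal = γ • u.asIdeal := rfl

theorem mat_kb_pl_one (u : CFT.Pl K) : matKbPl 1 u = u :=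
  HeightOneSpectrum.ext (one_smul _ _)

theorem mat_kb_pl_mul (γ δ : K ≃ₐ[ℚ] K) (u : CFT.Pl K) :
    matKbPl (γ * δ) u = matKbPl γ (matKbPl δ u) :=
  HeightOneSpectrum.ext (mul_smul _ _ _)

theorem mat_kb_intVal (γ : K ≃ₐ[ℚ] K) (u : CFT.Pl K) (b : 𝓞 K) :
    (matKbPl γ u).intValuation (γ • b) = u.intValuation b := by
  by_cases hb : b = 0
  · subst hb; simp
  have hb' : γ • b ≠ 0 := fun h => hb (by
    have := congrArg (fun z => γ⁻¹ • z) h
    simpa using this)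
  rw [HeightOneSpectrum.intValuation_eq_exp_neg_multiplicity _ hb,
    HeightOneSpectrum.intValuation_eq_exp_neg_multiplicity _ hb']
  have e1 : Ideal.span {γ • b} = γ • Ideal.span {b} := by
    rw [Ideal.pointwise_smul_def, Ideal.map_span, Set.image_singleton]
    rfl
  have e2 : emultiplicity (γ • u.asIdeal) (γ • Ideal.span {b}) =
      emultiplicity u.asIdeal (Ideal.span {b}) :=
    emultiplicity_map_eq (MulSemiringAction.toRingEquiv (K ≃ₐ[ℚ] K) (Ideal (𝓞 K)) γ)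
  have e3 : multiplicity (matKbPl γ u).asIdeal (Ideal.span {γ • b}) =
      multiplicity u.asIdeal (Ideal.span {b}) := by
    rw [e1]
    unfold multiplicity
    rw [mat_kb_pl_asIdeal, e2]
  rw [e3]

theorem mat_kb_val (γ : K ≃ₐ[ℚ] K) (u : CFT.Pl K) (b : K) :
    (matKbPl γ u).valuation K (γ b) = u.valuation K b := by
  obtain ⟨x, y, hy, rfl⟩ := IsFractionRing.div_surjective (A := 𝓞 K) b
  have e : ∀ z : 𝓞 K, γ (algebraMap (𝓞 K) K z) = algebraMap (𝓞 K) K (γ • z) := fun z => rfl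
  rw [map_div₀, map_div₀, map_div₀, e, e, HeightOneSpectrum.valuation_of_algebraMap,
    HeightOneSpectrum.valuation_of_algebraMap, HeightOneSpectrum.valuation_of_algebraMap,
    HeightOneSpectrum.valuation_of_algebraMap, mat_kb_intVal, mat_kb_intVal]

theorem mat_kb_ord (γ : K ≃ₐ[ℚ] K) (u : CFT.Pl K) (b : K) :
    CFT.ord (matKbPl γ u) (γ b) = CFT.ord u b := by
  rw [CFT.ord, CFT.ord, mat_kb_val]

/-- the primes above `ℓ`. -/
abbrev MatKbSl (K : Type*) [Field K] [NumberField K] (ℓ : ℕ) : Type _ :=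
  {u : CFT.Pl K // (ℓ : 𝓞 K) ∈ u.asIdeal}

theorem mat_kb_pl_mem (γ : K ≃ₐ[ℚ] K) (ℓ : ℕ) {u : CFT.Pl K} (hu : (ℓ : 𝓞 K) ∈ u.asIdeal) :
    (ℓ : 𝓞 K) ∈ (matKbPl γ u).asIdeal := by
  rw [mat_kb_pl_asIdeal]
  have h1 : γ • (ℓ : 𝓞 K) ∈ γ • u.asIdeal := Ideal.smul_mem_pointwise_smul _ _ _ hu
  have h2 : γ • (ℓ : 𝓞 K) = (ℓ : 𝓞 K) := by
    exact map_natCast (MulSemiringAction.toRingHom (K ≃ₐ[ℚ] K) (𝓞 K) γ) ℓ
  rwa [h2] at h1

/-- the permutation of the primes above `ℓ` induced by `γ`. -/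
noncomputable def matKbPerm (γ : K ≃ₐ[ℚ] K) (ℓ : ℕ) : Equiv.Perm (MatKbSl K ℓ) where
  toFun u := ⟨matKbPl γ u.1, mat_kb_pl_mem γ ℓ u.2⟩
  invFun u := ⟨matKbPl γ⁻¹ u.1, mat_kb_pl_mem γ⁻¹ ℓ u.2⟩
  left_inv u := by
    apply Subtype.ext
    simp only
    rw [← mat_kb_pl_mul, inv_mul_cancel, mat_kb_pl_one]
  right_inv u := by
    apply Subtype.ext
    simp only
    rw [← mat_kb_pl_mul, mul_inv_cancel, mat_kb_pl_one]

theorem mat_kb_Sl_card (ℓ : ℕ) [Fact ℓ.Prime] :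
    Finite (MatKbSl K ℓ) ∧ Nat.card (MatKbSl K ℓ) ≤ Module.finrank ℚ K := by
  classical
  set p : Ideal ℤ := Ideal.span {(ℓ : ℤ)} with hp
  have hpmax : p.IsMaximal := Int.ideal_span_isMaximal_of_prime ℓ
  have hpprime : p.IsPrime := hpmax.isPrime
  have hfin := IsDedekindDomain.primesOver_finite p (𝓞 K)
  let _ : Fintype (p.primesOver (𝓞 K)) := hfin.fintype
  have hsum := Ideal.sum_ramification_inertia_eq_finrank p (𝓞 K)
  rw [RingOfIntegers.rank] at hsum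
  have hmem : ∀ u : MatKbSl K ℓ, u.1.asIdeal ∈ p.primesOver (𝓞 K) := by
    intro u
    refine ⟨u.1.isPrime, ⟨?_⟩⟩
    have h1 : p ≤ u.1.asIdeal.under ℤ := by
      rw [hp, Ideal.span_le]
      intro x hx
      rw [Set.mem_singleton_iff] at hx
      subst hx
      show algebraMap ℤ (𝓞 K) (ℓ : ℤ) ∈ u.1.asIdeal
      simpa using u.2
    have h2 : u.1.asIdeal.under ℤ ≠ ⊤ := by
      have := u.1.isPrime
      exact (Ideal.IsPrime.under ℤ u.1.asIdeal).ne_top
    exact hpmax.eq_of_le h2 h1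
  let φ : MatKbSl K ℓ → p.primesOver (𝓞 K) := fun u => ⟨u.1.asIdeal, hmem u⟩
  have hφ : Function.Injective φ := by
    intro a b hab
    exact Subtype.ext (HeightOneSpectrum.ext (congrArg Subtype.val hab))
  have hF : Finite (MatKbSl K ℓ) := Finite.of_injective φ hφ
  refine ⟨hF, ?_⟩
  calc Nat.card (MatKbSl K ℓ) ≤ Nat.card (p.primesOver (𝓞 K)) := Nat.card_le_card_of_injective φ hφ
    _ = ∑ _q : p.primesOver (𝓞 K), 1 := by simp
    _ ≤ ∑ q : p.primesOver (𝓞 K), q.1.ramificationIdx ℤ * q.1.inertiaDeg ℤ := by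
        refine Finset.sum_le_sum fun q _ => ?_
        have := q.2.1
        have h1 : 0 < q.1.ramificationIdx ℤ := Ideal.ramificationIdx_pos _ _
        have h2 : 0 < q.1.inertiaDeg ℤ := Ideal.inertiaDeg_pos _ _
        exact Nat.mul_pos h1 h2
    _ = Module.finrank ℚ K := hsum

end Act

section Artin

variable {K : Type*} [Field K] [NumberField K]

open NumberField.Units NumberField.Units.dirichletUnitTheorem NumberField.InfinitePlace Finset Module

/-- the action of an automorphism on the units of the ring of integers. -/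
noncomputable def matKbActU (γ : K ≃ₐ[ℚ] K) : (𝓞 K)ˣ →* (𝓞 K)ˣ :=
  Units.map (RingOfIntegers.mapRingHom (γ : K →+* K) : 𝓞 K →* 𝓞 K)

theorem mat_kb_actU_coe (γ : K ≃ₐ[ℚ] K) (u : (𝓞 K)ˣ) :
    ((matKbActU γ u : 𝓞 K) : K) = γ ((u : 𝓞 K) : K) := rfl

theorem mat_kb_actU_mul (γ δ : K ≃ₐ[ℚ] K) (u : (𝓞 K)ˣ) :
    matKbActU (γ * δ) u = matKbActU γ (matKbActU δ u) := by
  apply Units.ext
  apply RingOfIntegers.ext
  rfl

/-- Artin units. -/
noncomputable def matKbArt (v : InfinitePlace K) : (𝓞 K)ˣ := (exists_unit K v).choose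

theorem mat_kb_art_spec (v w : InfinitePlace K) (h : w ≠ v) :
    Real.log (w (algebraMap (𝓞 K) K (matKbArt v))) < 0 := (exists_unit K v).choose_spec w h

/-- equivariant Artin units. -/
noncomputable def matKbEta (v : InfinitePlace K) : (𝓞 K)ˣ :=
  ∏ γ : K ≃ₐ[ℚ] K, matKbActU γ (matKbArt (γ⁻¹ • v))

theorem mat_kb_eta_equiv (s : K ≃ₐ[ℚ] K) (v : InfinitePlace K) :
    matKbActU s (matKbEta v) = matKbEta (s • v) := by
  unfold matKbEta
  rw [map_prod]
  refine Fintype.prod_equiv (Equiv.mulLeft s) _ _ (fun γ => ?_)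
  rw [Equiv.coe_mulLeft, mat_kb_actU_mul, mul_inv_rev, mul_smul, inv_smul_smul]

theorem mat_kb_eta_log (v v' : InfinitePlace K) (h : v' ≠ v) :
    Real.log (v' ((matKbEta v : 𝓞 K) : K)) < 0 := by
  unfold matKbEta
  rw [Units.coe_prod]
  show Real.log (v' (algebraMap (𝓞 K) K _)) < 0
  rw [map_prod, map_prod, Real.log_prod]
  · refine Finset.sum_neg (fun γ _ => ?_) ⟨1, Finset.mem_univ _⟩
    have h1 := mat_kb_art_spec (γ⁻¹ • v) (γ⁻¹ • v') ((MulAction.injective γ⁻¹).ne h)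
    rw [InfinitePlace.smul_apply] at h1
    exact h1
  · intro γ _
    exact (pos_at_place _ v').ne'

set_option backward.isDefEq.respectTransparency.types false in
theorem mat_kb_isMaxRank (η : InfinitePlace K → (𝓞 K)ˣ)
    (h : ∀ v v' : InfinitePlace K, v' ≠ v → Real.log (v' ((η v : 𝓞 K) : K)) < 0) :
    IsMaxRank (fun i => η (equivFinRank K i).1) := by
  classical
  let B := Pi.basisFun ℝ {w : InfinitePlace K // w ≠ w₀}
  let v := fun w : { w : InfinitePlace K // w ≠ w₀ } ↦ logEmbedding K (Additive.ofMul (η w.1))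
  suffices B.det v ≠ 0 by
    rw [← isUnit_iff_ne_zero, ← Basis.is_basis_iff_det] at this
    exact (linearIndependent_equiv (equivFinRank K)).2 this.1
  rw [Basis.det_apply]
  refine det_ne_zero_of_sum_col_lt_diag (fun w ↦ ?_)
  simp_rw [Real.norm_eq_abs, B, Basis.coePiBasisFun.toMatrix_eq_transpose, Matrix.transpose_apply]
  rw [← sub_pos, sum_congr rfl (fun x hx ↦ abs_of_neg ?_), sum_neg_distrib, sub_neg_eq_add,
    sum_erase_eq_sub (mem_univ _), ← add_comm_sub]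
  · refine add_pos_of_nonneg_of_pos ?_ ?_
    · rw [sub_nonneg]
      exact le_abs_self _
    · rw [sum_logEmbedding_component (η w.1)]
      refine mul_pos_of_neg_of_neg ?_ (h _ _ w.prop.symm)
      rw [mult]; split_ifs <;> norm_num
  · refine mul_neg_of_pos_of_neg ?_ (h _ x ?_)
    · rw [mult]; split_ifs <;> norm_num
    · exact Subtype.ext_iff.not.mp (ne_of_mem_erase hx)

theorem mat_kb_eta_finiteIndex :
    (Subgroup.closure (Set.range (matKbEta (K := K)))).FiniteIndex := by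
  have h1 := isMaxRank_iff_closure_finiteIndex.1 (mat_kb_isMaxRank (matKbEta (K := K)) mat_kb_eta_log)
  refine Subgroup.finiteIndex_of_le (H := Subgroup.closure
    (Set.range (fun i => matKbEta (K := K) (equivFinRank K i).1))) ?_
  apply Subgroup.closure_mono
  rintro _ ⟨i, rfl⟩
  exact ⟨_, rfl⟩

end Artin

section Cl

variable {K : Type*} [Field K] [NumberField K]

/-- the fractional ideal of a divisor. -/
noncomputable def matKbIdeal (D : CFT.Div K) : FractionalIdeal (𝓞 K)⁰ K :=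
  D.prod (fun v n => (v.asIdeal : FractionalIdeal (𝓞 K)⁰ K) ^ n)

theorem mat_kb_ideal_ne_zero (D : CFT.Div K) : matKbIdeal D ≠ 0 := by
  unfold matKbIdeal Finsupp.prod
  rw [Finset.prod_ne_zero_iff]
  intro v _
  exact zpow_ne_zero _ (FractionalIdeal.coeIdeal_ne_zero.mpr v.ne_bot)

theorem mat_kb_ideal_count (D : CFT.Div K) (v : CFT.Pl K) :
    FractionalIdeal.count K v (matKbIdeal D) = D v :=
  FractionalIdeal.count_finsuppProd K v D

theorem mat_kb_exists_cl : ∃ cl : CFT.Div K → ClassGroup (𝓞 K),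
    ∀ D D', cl D = cl D' → ∃ y : Kˣ, D - D' = CFT.dv (y : K) := by
  refine ⟨fun D => ClassGroup.mk K (Units.mk0 (matKbIdeal D) (mat_kb_ideal_ne_zero D)), ?_⟩
  intro D D' h
  simp only at h
  have h1 : ClassGroup.mk K (Units.mk0 (matKbIdeal D) (mat_kb_ideal_ne_zero D)
      / Units.mk0 (matKbIdeal D') (mat_kb_ideal_ne_zero D')) = 1 := by
    rw [map_div, h, div_self']
  rw [ClassGroup.mk_eq_one_iff, FractionalIdeal.isPrincipal_iff] at h1
  obtain ⟨y, hy⟩ := h1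
  rw [Units.val_div_eq_div_val, Units.val_mk0, Units.val_mk0] at hy
  have hy0 : y ≠ 0 := by
    rintro rfl
    rw [FractionalIdeal.spanSingleton_zero] at hy
    exact div_ne_zero (mat_kb_ideal_ne_zero D) (mat_kb_ideal_ne_zero D') hy
  refine ⟨Units.mk0 y hy0, ?_⟩
  ext v
  have h2 := congrArg (FractionalIdeal.count K v) hy
  rw [div_eq_mul_inv, FractionalIdeal.count_mul K v (mat_kb_ideal_ne_zero D)
    (inv_ne_zero (mat_kb_ideal_ne_zero D')), FractionalIdeal.count_inv, mat_kb_ideal_count,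
    mat_kb_ideal_count, CFT.count_spanSingleton v hy0] at h2
  rw [Finsupp.sub_apply, Units.val_mk0, CFT.dv_apply, ← h2]
  ring

/-- units of `𝓞 K` inside `Kˣ`. -/
noncomputable abbrev matKbIota (K : Type*) [Field K] [NumberField K] : (𝓞 K)ˣ →* Kˣ :=
  Units.map (algebraMap (𝓞 K) K : 𝓞 K →* K)

theorem mat_kb_exists_unit (r : Kˣ) (h : ∀ v : CFT.Pl K, CFT.ord v (r : K) = 0) :
    ∃ u : (𝓞 K)ˣ, matKbIota K u = r := by
  obtain ⟨a, ha⟩ := CFT.exists_integer_of_ord_nonneg (r : K) (fun v => (h v).ge)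
  obtain ⟨b, hb⟩ := CFT.exists_integer_of_ord_nonneg ((r : K)⁻¹) (fun v => by
    rw [CFT.ord_inv, h v, neg_zero])
  have hab : a * b = 1 := by
    apply RingOfIntegers.ext
    show (a : K) * (b : K) = 1
    rw [ha, hb, mul_inv_cancel₀ r.ne_zero]
  refine ⟨⟨a, b, hab, by rw [mul_comm, hab]⟩, ?_⟩
  apply Units.ext
  exact ha

theorem mat_kb_dvd_ord_of_val {q : ℕ} (u : CFT.Pl K) (d : K)
    (h : ∃ y : WithZero (Multiplicative ℤ), u.valuation K d = y ^ q) : (q : ℤ) ∣ CFT.ord u d := by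
  obtain ⟨y, hy⟩ := h
  rw [CFT.ord, hy, WithZero.log_pow]
  exact ⟨-y.log, by simp⟩

theorem mat_kb_exists_div {q : ℕ} (d : K) (h : ∀ v : CFT.Pl K, (q : ℤ) ∣ CFT.ord v d) :
    ∃ D : CFT.Div K, q • D = CFT.dv d := by
  refine ⟨Finsupp.mapRange (fun n : ℤ => n / q) (by simp) (CFT.dv d), ?_⟩
  ext v
  rw [Finsupp.smul_apply, Finsupp.mapRange_apply, CFT.dv_apply, nsmul_eq_mul]
  exact Int.mul_ediv_cancel' (h v)

end Cl

section Arith

theorem mat_kb_zmod_units (ℓ : ℕ) [Fact ℓ.Prime] (e : ℕ) (he0 : 0 < e) (hel : e ∣ ℓ - 1) (n w : ℕ)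
    (hw1 : orderOf (w : ZMod ℓ) = e) (hw2 : (w : ZMod (ℓ ^ n)) ^ e = 1) :
    IsUnit ((e : ZMod (ℓ ^ n)) * (w : ZMod (ℓ ^ n)) ^ (e - 1)) ∧
      ∀ m, 0 < m → m < e → IsUnit ((w : ZMod (ℓ ^ n)) ^ m - 1) := by
  have hℓ : ℓ.Prime := Fact.out
  have hwu : IsUnit (w : ZMod (ℓ ^ n)) := IsUnit.of_pow_eq_one hw2 he0.ne'
  have hcop : ∀ k : ℕ, ¬ ℓ ∣ k → IsUnit (k : ZMod (ℓ ^ n)) := by
    intro k hk
    rw [ZMod.isUnit_iff_coprime]
    exact Nat.Coprime.pow_right n ((Nat.Prime.coprime_iff_not_dvd hℓ).2 hk).symm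
  refine ⟨(hcop e ?_).mul (hwu.pow _), ?_⟩
  · intro h
    have h1 : ℓ ≤ e := Nat.le_of_dvd he0 h
    have h2 : e ≤ ℓ - 1 := Nat.le_of_dvd (by have := hℓ.two_le; omega) hel
    have := hℓ.two_le
    omega
  · intro m hm0 hme
    have hw0 : 0 < w := by
      rcases Nat.eq_zero_or_pos w with rfl | h
      · rw [Nat.cast_zero, orderOf_zero] at hw1
        omega
      · exact h
    have h1 : 1 ≤ w ^ m := Nat.one_le_pow _ _ hw0
    have h2 : ((w ^ m - 1 : ℕ) : ZMod (ℓ ^ n)) = (w : ZMod (ℓ ^ n)) ^ m - 1 := by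
      rw [Nat.cast_sub h1]
      push_cast
      rfl
    rw [← h2]
    apply hcop
    intro h
    have h3 : ((w ^ m - 1 : ℕ) : ZMod ℓ) = 0 := (ZMod.natCast_eq_zero_iff _ _).2 h
    rw [Nat.cast_sub h1] at h3
    push_cast at h3
    have h4 : (w : ZMod ℓ) ^ m = 1 := sub_eq_zero.1 h3
    have h5 := orderOf_dvd_of_pow_eq_one h4
    rw [hw1] at h5
    have := Nat.le_of_dvd hm0 h5
    omega

end Arith

section Steps

variable {K : Type*} [Field K] [NumberField K]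

/-- the action of `s` on `Kˣ`. -/
noncomputable abbrev matKbS (s : K ≃ₐ[ℚ] K) : Kˣ →* Kˣ := Units.map (s : K →* K)

/-- `s d ≡ d ^ w` modulo `q`-th powers. -/
def MatKbEig (s : K ≃ₐ[ℚ] K) (q w : ℕ) (d : Kˣ) : Prop := ∃ t : Kˣ, matKbS s d = d ^ w * t ^ q

theorem MatKbEig.div {s : K ≃ₐ[ℚ] K} {q w : ℕ} {x y : Kˣ} (hx : MatKbEig s q w x)
    (hy : MatKbEig s q w y) : MatKbEig s q w (x / y) := by
  obtain ⟨t, ht⟩ := hx
  obtain ⟨t', ht'⟩ := hy
  exact ⟨t / t', by rw [map_div, ht, ht', div_pow, div_pow, mul_div_mul_comm]⟩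

theorem mat_kb_S_iterate (s : K ≃ₐ[ℚ] K) (k : ℕ) (x : Kˣ) :
    (((matKbS s)^[k] x : Kˣ) : K) = (s ^ k) (x : K) := by
  induction k with
  | zero => simp
  | succ k ih =>
    rw [Function.iterate_succ_apply', pow_succ', AlgEquiv.mul_apply, ← ih]
    rfl

theorem mat_kb_S_iota (s : K ≃ₐ[ℚ] K) (u : (𝓞 K)ˣ) :
    matKbS s (matKbIota K u) = matKbIota K (matKbActU s u) := by
  apply Units.ext
  rfl

theorem mat_kb_stepB (s : K ≃ₐ[ℚ] K) (q w B : ℕ)
    (hA : MatKbBdd (matKbPow Kˣ q) {d | MatKbEig s q w d ∧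
      ∃ l ∈ Subgroup.closure (Set.range (fun v => matKbIota K (matKbEta v))), ∃ t, d = l * t ^ q} B) :
    MatKbBdd (matKbPow Kˣ q)
      {d | MatKbEig s q w d ∧ ∃ u : (𝓞 K)ˣ, ∃ t, d = matKbIota K u * t ^ q}
      (Nat.card ((𝓞 K)ˣ ⧸ Subgroup.closure (Set.range (matKbEta (K := K)))) * B) := by
  classical
  have := mat_kb_eta_finiteIndex (K := K)
  let _ := Fintype.ofFinite ((𝓞 K)ˣ ⧸ Subgroup.closure (Set.range (matKbEta (K := K))))
  rw [Nat.card_eq_fintype_card]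
  refine mat_kb_bdd_step _ (fun d : Kˣ => if h : ∃ u : (𝓞 K)ˣ, ∃ t, d = matKbIota K u * t ^ q
    then (QuotientGroup.mk h.choose : (𝓞 K)ˣ ⧸ Subgroup.closure (Set.range (matKbEta (K := K))))
    else 1) ?_ hA
  rintro x ⟨hx1, hx2⟩ y ⟨hy1, hy2⟩ hxy
  simp only [dif_pos hx2, dif_pos hy2] at hxy
  refine ⟨hx1.div hy1, ?_⟩
  obtain ⟨t, ht⟩ := hx2.choose_spec
  obtain ⟨t', ht'⟩ := hy2.choose_spec
  have h1 := QuotientGroup.eq_iff_div_mem.1 hxy
  refine ⟨matKbIota K (hx2.choose / hy2.choose), ?_, t / t', ?_⟩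
  · have h2 : Set.range (fun v => matKbIota K (matKbEta v))
        = matKbIota K '' Set.range (matKbEta (K := K)) := by
      rw [← Set.range_comp]
      rfl
    rw [h2, ← MonoidHom.map_closure]
    exact Subgroup.mem_map_of_mem _ h1
  · conv_lhs => rw [ht, ht']
    rw [map_div, div_pow, mul_div_mul_comm]

theorem mat_kb_stepC (s : K ≃ₐ[ℚ] K) (q w B : ℕ)
    (hB : MatKbBdd (matKbPow Kˣ q)
      {d | MatKbEig s q w d ∧ ∃ u : (𝓞 K)ˣ, ∃ t, d = matKbIota K u * t ^ q} B) :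
    MatKbBdd (matKbPow Kˣ q)
      {d | MatKbEig s q w d ∧ ∀ v : CFT.Pl K, (q : ℤ) ∣ CFT.ord v (d : K)}
      (Nat.card (ClassGroup (𝓞 K)) * B) := by
  classical
  rw [Nat.card_eq_fintype_card]
  obtain ⟨cl, hcl⟩ := mat_kb_exists_cl (K := K)
  refine mat_kb_bdd_step _ (fun d : Kˣ => if h : ∃ D : CFT.Div K, q • D = CFT.dv (d : K)
    then cl h.choose else 1) ?_ hB
  rintro x ⟨hx1, hx2⟩ y ⟨hy1, hy2⟩ hxy
  have hx3 := mat_kb_exists_div (x : K) hx2
  have hy3 := mat_kb_exists_div (y : K) hy2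
  simp only [dif_pos hx3, dif_pos hy3] at hxy
  refine ⟨hx1.div hy1, ?_⟩
  obtain ⟨z, hz⟩ := hcl _ _ hxy
  have h1 : ∀ v : CFT.Pl K, CFT.ord v ((x / (y * z ^ q) : Kˣ) : K) = 0 := by
    intro v
    have e1 := DFunLike.congr_fun hx3.choose_spec v
    have e2 := DFunLike.congr_fun hy3.choose_spec v
    have e3 := DFunLike.congr_fun hz v
    rw [Finsupp.smul_apply, CFT.dv_apply] at e1 e2
    rw [Finsupp.sub_apply, CFT.dv_apply] at e3
    rw [Units.val_div_eq_div_val, Units.val_mul, Units.val_pow_eq_pow_val,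
      CFT.ord_div v x.ne_zero (mul_ne_zero y.ne_zero (pow_ne_zero _ z.ne_zero)),
      CFT.ord_mul v y.ne_zero (pow_ne_zero _ z.ne_zero), CFT.ord_pow, ← e1, ← e2, ← e3]
    simp only [nsmul_eq_mul]
    ring
  obtain ⟨u, hu⟩ := mat_kb_exists_unit _ h1
  refine ⟨u, z, ?_⟩
  rw [hu, div_mul_eq_div_div, div_mul_cancel]

theorem mat_kb_stepD (s : K ≃ₐ[ℚ] K) (ℓ e q w B : ℕ) [NeZero q]
    (hm : ∀ m, 0 < m → m < e → IsUnit ((w : ZMod q) ^ m - 1))
    (R : Finset (MatKbSl K ℓ)) (hR : MatKbCover (matKbPerm s⁻¹ ℓ) e R)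
    (hC : MatKbBdd (matKbPow Kˣ q)
      {d | MatKbEig s q w d ∧ ∀ v : CFT.Pl K, (q : ℤ) ∣ CFT.ord v (d : K)} B) :
    MatKbBdd (matKbPow Kˣ q)
      {d | MatKbEig s q w d ∧ ∀ v : CFT.Pl K, (ℓ : 𝓞 K) ∉ v.asIdeal → (q : ℤ) ∣ CFT.ord v (d : K)}
      (q ^ R.card * B) := by
  classical
  have hcard : Fintype.card (R → ZMod q) = q ^ R.card := by simp [ZMod.card]
  rw [← hcard]
  refine mat_kb_bdd_step _ (fun d : Kˣ => fun r : R => ((CFT.ord r.1.1 (d : K) : ℤ) : ZMod q)) ?_ hC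
  rintro x ⟨hx1, hx2⟩ y ⟨hy1, hy2⟩ hxy
  have hz := hx1.div hy1
  refine ⟨hz, ?_⟩
  have hord : ∀ v : CFT.Pl K, CFT.ord v ((x / y : Kˣ) : K) = CFT.ord v (x : K) - CFT.ord v (y : K) := by
    intro v
    rw [Units.val_div_eq_div_val, CFT.ord_div v x.ne_zero y.ne_zero]
  intro v
  by_cases hv : (ℓ : 𝓞 K) ∈ v.asIdeal
  · let φ : MatKbSl K ℓ → ZMod q := fun u => ((CFT.ord u.1 ((x / y : Kˣ) : K) : ℤ) : ZMod q)
    have hφ : ∀ u, φ (matKbPerm s⁻¹ ℓ u) = (w : ZMod q) • φ u := by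
      intro u
      obtain ⟨t, ht⟩ := hz
      have e1 : CFT.ord u.1 (s ((x / y : Kˣ) : K))
          = CFT.ord (matKbPl s⁻¹ u.1) ((x / y : Kˣ) : K) := by
        have := mat_kb_ord s (matKbPl s⁻¹ u.1) ((x / y : Kˣ) : K)
        rwa [← mat_kb_pl_mul, mul_inv_cancel, mat_kb_pl_one] at this
      have e2 : s ((x / y : Kˣ) : K) = ((x / y : Kˣ) : K) ^ w * (t : K) ^ q := by
        have := congrArg (fun a : Kˣ => (a : K)) ht
        simpa using this
      rw [e2, CFT.ord_mul _ (pow_ne_zero _ (Units.ne_zero _)) (pow_ne_zero _ t.ne_zero), CFT.ord_pow,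
        CFT.ord_pow] at e1
      show ((CFT.ord (matKbPl s⁻¹ u.1) ((x / y : Kˣ) : K) : ℤ) : ZMod q) = _
      rw [← e1, Int.cast_add, Int.cast_mul, Int.cast_mul, Int.cast_natCast, Int.cast_natCast,
        ZMod.natCast_self, zero_mul, add_zero, smul_eq_mul]
    have h1 := mat_kb_span_reps (matKbPerm s⁻¹ ℓ) e (w : ZMod q) hm φ hφ R hR ⟨v, hv⟩
    have h2 : Submodule.span (ZMod q) (φ '' R) ≤ ⊥ := by
      rw [Submodule.span_le]
      rintro _ ⟨r, hr, rfl⟩
      have := congrFun hxy ⟨r, hr⟩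
      simp only at this
      show φ r = 0
      simp only [φ]
      rw [hord]
      push_cast
      rw [this, sub_self]
    have h3 : φ ⟨v, hv⟩ = 0 := by simpa using h2 h1
    exact (ZMod.intCast_zmod_eq_zero_iff_dvd _ q).1 h3
  · rw [hord]
    exact dvd_sub (hx2 v hv) (hy2 v hv)

end Steps

end Claimed.Agent.R239
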