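/-
Row 239 / MATCH (owner helper92).  Part C: active pairs and small facts derived from `Iface`
(HIL / TAME / SPL / LC).  Every lemma here should be SHORT given `Iface.lean`.
-/
import Claimed.Agent.R239.Iface

set_option autoImplicit false
set_option linter.unusedSectionVars false

namespace Claimed.Agent.R239

open NumberField Claims.C0403
open scoped Pointwise

/-- trivial. -/
theorem mat_solvablyClosed_of_isAlgClosed {Ω : Type} [Field Ω] (hΩ : IsAlgClosed Ω) :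
    SolvablyClosed Ω := fun f _ => IsAlgClosed.splits f

section General

variable {F E : Type} [Field F] [NumberField F] [Field E] [Algebra F E] [IsGalois F E]

/-- KUM-1 (elementary).  Inertia at `Q` fixes `α` if `α^m` is a `Q`-unit fixed by the group, `m ∉ Q`.
Sketch: `(g α)^m = α^m`, `α ≠ 0`, so `g α = ζ α` with `ζ^m = 1`, `ζ ∈ 𝓞 E`; `g α - α ∈ Q` gives
`(ζ-1) α ∈ Q`, `α ∉ Q`, so `ζ ≡ 1`; if `ζ ≠ 1` then `0 = 1 + ζ + … + ζ^(m-1) ≡ m mod Q`. -/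
theorem mat_inertia_fixes_root (Q : Ideal (𝓞 E)) (hQ : Q.IsMaximal) (m : ℕ) (hm : (m : 𝓞 E) ∉ Q)
    (α : 𝓞 E) (hα : α ^ m ∉ Q) (g : Gal(E/F)) (hfix : g • (α ^ m) = α ^ m)
    (hg : g ∈ inert F Q) : g • α = α := by
  have hQp : Q.IsPrime := hQ.isPrime
  set β : 𝓞 E := g • α with hβ
  have hβm : β ^ m = α ^ m := by rw [hβ, ← smul_pow', hfix]
  have hmem : β - α ∈ Q := hg α
  have hαQ : α ∉ Q := fun h => hα (by
    rcases Nat.eq_zero_or_pos m with rfl | hm0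
    · exact absurd (by simp) hm
    · exact Ideal.pow_mem_of_mem Q h m hm0)
  -- (β - α) * ∑ β^i α^(m-1-i) = 0
  have hgeom : (∑ i ∈ Finset.range m, β ^ i * α ^ (m - 1 - i)) * (β - α) = 0 := by
    rw [(Commute.all β α).geom_sum₂_mul, hβm, sub_self]
  by_contra hne
  have hsum : ∑ i ∈ Finset.range m, β ^ i * α ^ (m - 1 - i) = 0 := by
    rcases mul_eq_zero.1 hgeom with h | h
    · exact h
    · exact absurd (sub_eq_zero.1 h) hne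
  -- modulo Q the sum is m α^(m-1)
  have hcong : (∑ i ∈ Finset.range m, β ^ i * α ^ (m - 1 - i)) - (m : 𝓞 E) * α ^ (m - 1) ∈ Q := by
    have : (m : 𝓞 E) * α ^ (m - 1) = ∑ i ∈ Finset.range m, α ^ i * α ^ (m - 1 - i) := by
      rw [Finset.sum_congr rfl (fun i hi => by
        rw [← pow_add, show i + (m - 1 - i) = m - 1 by have := Finset.mem_range.1 hi; omega])]
      simp
    rw [this, ← Finset.sum_sub_distrib]
    refine Q.sum_mem fun i _ => ?_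
    rw [← sub_mul]
    refine Q.mul_mem_right _ ?_
    exact (sub_dvd_pow_sub_pow β α i).elim fun c hc => hc ▸ Q.mul_mem_right _ hmem
  rw [hsum, zero_sub, neg_mem_iff] at hcong
  rcases hQp.mem_or_mem hcong with h | h
  · exact hm h
  · exact hαQ (hQp.mem_of_pow_mem _ h)

theorem mat_toZMod_of_toZModPow_one (ℓ : ℕ) [Fact ℓ.Prime] (a : ℤ_[ℓ]) (n : ℕ)
    (h : PadicInt.toZModPow 1 a = (n : ZMod (ℓ ^ 1))) : PadicInt.toZMod a = (n : ZMod ℓ) := by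
  have h1 : a - (n : ℤ_[ℓ]) ∈ RingHom.ker (PadicInt.toZModPow (p := ℓ) 1) := by
    rw [RingHom.mem_ker, map_sub, map_natCast, h, sub_self]
  rw [PadicInt.ker_toZModPow, pow_one, ← PadicInt.maximalIdeal_eq_span_p, ← PadicInt.ker_toZMod,
    RingHom.mem_ker, map_sub, map_natCast, sub_eq_zero] at h1
  exact h1

/-- `χ_ℓ(D(Q)) mod ℓ ⊆ ⟨q mod ℓ⟩` for `Q | q ≠ ℓ`.  From `chi_decomp` (`U = ⊤`, `n = 1`) and
`hil_normAt` (`normAt ⊤ Q = q^f`); `toZModPow 1` versus `toZMod` is the only glue. -/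
theorem mat_chi_decomp (hE : SolvablyClosed E) (ℓ : ℕ) [Fact ℓ.Prime] (Q : Ideal (𝓞 E))
    (hQ : Q.IsMaximal) (q : ℕ) (hq : q.Prime) (hQq : Over Q q) (hql : q ≠ ℓ) (g : Gal(E/F))
    (hg : g ∈ decomp F Q) :
    ∃ e : ℕ, PadicInt.toZMod ((chi ℓ F E g : ℤ_[ℓ]ˣ) : ℤ_[ℓ]) = (q : ZMod ℓ) ^ e := by
  have hQl : ¬ Over Q ℓ := fun h => hql (hil_over_unique Q hq Fact.out hQq h)
  obtain ⟨k, hk⟩ := chi_decomp (ℓ := ℓ) hE (U := (⊤ : Subgroup Gal(E/F))) isOpen_univ hQl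
    (g := g) ⟨hg, trivial⟩ 1
  obtain ⟨f, -, -, hf⟩ := hil_normAt (⊤ : Subgroup Gal(E/F)) isOpen_univ Q hq hQq
  refine ⟨f * k, ?_⟩
  have := mat_toZMod_of_toZModPow_one ℓ _ ((q ^ f) ^ k) (by rw [hk, hf]; push_cast; rfl)
  rw [this]
  push_cast
  rw [pow_mul]

/-- `Over Q ℓ` fails if `Q` lies over a prime `q ≠ ℓ` (`hil_over_unique`). -/
theorem mat_not_over (Q : Ideal (𝓞 E)) (hQ : Q.IsMaximal) (q ℓ : ℕ) (hq : q.Prime) (hℓ : ℓ.Prime)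
    (hQq : Over Q q) (hql : q ≠ ℓ) : ¬ Over Q ℓ := fun h =>
  hql (hil_over_unique Q hq hℓ hQq h)

/-- `log_r q ≠ 0` for an integer `q > 1` (from `lg_eq_zero_iff`: `q^n = 1` in `ℤ_r` is impossible,
`Nat.cast` into `ℤ_[r]` is injective). -/
theorem mat_Lg_ne_zero (r : ℕ) [Fact r.Prime] (u : ℤ_[r]ˣ) (q : ℕ) (hq : 1 < q)
    (hu : (u : ℤ_[r]) = (q : ℤ_[r])) : Lg r u ≠ 0 := by
  intro h
  obtain ⟨n, hn, hun⟩ := (lg_eq_zero_iff u).1 h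
  have h1 : ((u ^ n : ℤ_[r]ˣ) : ℤ_[r]) = 1 := by rw [hun]; rfl
  rw [Units.val_pow_eq_pow_val, hu] at h1
  have h2 : ((q ^ n : ℕ) : ℤ_[r]) = ((1 : ℕ) : ℤ_[r]) := by push_cast; exact h1
  have h3 : q ^ n = 1 := Nat.cast_injective h2
  have := Nat.one_lt_pow hn.ne' hq
  omega

/-- SPL1.  A homomorphism `ε` from `U` to a finite group, with open kernel, which kills SOME Frobenius lift at
`P` for all `P` outside finitely many characteristics, is trivial.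
Sketch: `V = ker ε` (as a subgroup of `Gal(E/F)`).  If `γ ∈ U ∖ V`, `spl_cyclic U V γ` gives `q ∉ bad`,
`P | q`, `σ` with `UnramIn U V P`, `⟨σ⟩V = ⟨γ⟩V`, so `σ ∉ V`.  The hypothesis gives `σ'` with
`ε σ' = 1`; `σ⁻¹σ' ∈ I(P) ⊓ U ≤ V` (`hil_frob_unique`), so `ε σ = 1`: contradiction. -/
theorem mat_spl1 {A : Type*} [Group A] (U : Subgroup Gal(E/F)) (hU : IsOpen (U : Set Gal(E/F)))
    (ε : U →* A) (hε : IsOpen ((ε.ker : Subgroup U) : Set U)) (bad : Finset ℕ)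
    (h : ∀ (P : Ideal (𝓞 E)) (p : ℕ), P.IsMaximal → p.Prime → Over P p → p ∉ bad →
      ∃ σ : U, IsFrob U P σ.1 ∧ ε σ = 1) : ε = 1 := by
  set V : Subgroup Gal(E/F) := ε.ker.map U.subtype with hVdef
  have hmemV : ∀ x : Gal(E/F), x ∈ V ↔ ∃ hx : x ∈ U, ε ⟨x, hx⟩ = 1 := by
    intro x
    constructor
    · rintro ⟨s, hs, rfl⟩
      exact ⟨s.2, hs⟩
    · rintro ⟨hx, h1⟩
      exact ⟨⟨x, hx⟩, h1, rfl⟩
  have hV : IsOpen (V : Set Gal(E/F)) := hU.isOpenMap_subtype_val _ hε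
  have hVU : V ≤ U := fun x hx => ((hmemV x).1 hx).1
  have hn : ∀ u ∈ U, ∀ v ∈ V, u * v * u⁻¹ ∈ V := by
    intro u hu v hv
    obtain ⟨hvU, hv1⟩ := (hmemV v).1 hv
    refine (hmemV _).2 ⟨U.mul_mem (U.mul_mem hu hvU) (U.inv_mem hu), ?_⟩
    have : (⟨u * v * u⁻¹, U.mul_mem (U.mul_mem hu hvU) (U.inv_mem hu)⟩ : U)
        = ⟨u, hu⟩ * ⟨v, hvU⟩ * ⟨u, hu⟩⁻¹ := rfl
    rw [this, map_mul, map_mul, hv1, mul_one, map_inv, mul_inv_cancel]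
  by_contra hne
  obtain ⟨γ, hγ⟩ : ∃ γ : U, ε γ ≠ 1 := by
    by_contra hall
    push Not at hall
    exact hne (MonoidHom.ext hall)
  obtain ⟨q, ⟨hq, P, σ, hP, hPq, -, hunr, hσ, hgen⟩, hqbad⟩ :=
    (spl_cyclic U V hV hVU hn γ.1 γ.2).exists_notMem_finset bad
  obtain ⟨σ', hσ', hε'⟩ := h P q hP hq hPq hqbad
  have h1 : σ⁻¹ * σ'.1 ∈ V :=
    hunr ⟨hil_frob_unique hσ hσ', U.mul_mem (U.inv_mem hσ.1) σ'.2⟩
  obtain ⟨h2, h3⟩ := (hmemV _).1 h1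
  have h4 : ε ⟨σ, hσ.1⟩ = 1 := by
    have : (⟨σ⁻¹ * σ'.1, h2⟩ : U) = ⟨σ, hσ.1⟩⁻¹ * σ' := rfl
    rw [this, map_mul, hε', mul_one, map_inv, inv_eq_one] at h3
    exact h3
  have hσV : σ ∈ V := (hmemV _).2 ⟨hσ.1, h4⟩
  have hγV : γ.1 ∈ V := by
    have h5 : Subgroup.zpowers σ ⊔ V = V := sup_eq_right.2 ((Subgroup.zpowers_le).2 hσV)
    have h6 : γ.1 ∈ Subgroup.zpowers γ.1 ⊔ V :=
      (le_sup_left : Subgroup.zpowers γ.1 ≤ _) (Subgroup.mem_zpowers _)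
    rwa [← hgen, h5] at h6
  exact hγ ((hmemV _).1 hγV).2

end General

theorem mat_intCast_mem_iff {E : Type*} [Field E] (P : Ideal (𝓞 E)) (hP : P.IsMaximal) (q : ℕ)
    (hq : q.Prime) (hPq : Over P q) (n : ℤ) : (n : 𝓞 E) ∈ P ↔ (q : ℤ) ∣ n := by
  constructor
  · intro hn
    by_contra hdvd
    obtain ⟨a, b, hab⟩ := ((Nat.prime_iff_prime_int.1 hq).irreducible.coprime_iff_not_dvd).2 hdvd
    have h1 : ((a * (q : ℤ) + b * n : ℤ) : 𝓞 E) = 1 := by rw [hab]; simp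
    apply hP.ne_top
    rw [Ideal.eq_top_iff_one, ← h1]
    push_cast
    exact P.add_mem (P.mul_mem_left _ hPq) (P.mul_mem_left _ hn)
  · rintro ⟨c, rfl⟩
    push_cast
    exact P.mul_mem_right _ hPq

section OverQ

variable {E : Type} [Field E] [Algebra ℚ E] [IsGalois ℚ E]

/-- All primes over `q` are conjugate. -/
theorem mat_transitive_over (P P' : Ideal (𝓞 E)) (hP : P.IsMaximal) (hP' : P'.IsMaximal) (q : ℕ)
    (hq : q.Prime) (hPq : Over P q) (hPq' : Over P' q) : ∃ g : Gal(E/ℚ), P' = g • P := by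
  have := hP.isPrime
  have := hP'.isPrime
  refine hilb_transitive ℚ P P' ?_
  ext x
  obtain ⟨n, rfl⟩ : ∃ n : ℤ, (n : 𝓞 ℚ) = x :=
    ⟨Rat.ringOfIntegersEquiv x, by
      rw [← map_intCast Rat.ringOfIntegersEquiv.symm, Int.cast_id, RingEquiv.symm_apply_apply]⟩
  rw [Ideal.mem_comap, Ideal.mem_comap, map_intCast, mat_intCast_mem_iff P hP q hq hPq,
    mat_intCast_mem_iff P' hP' q hq hPq']

theorem mat_normAt_top (P : Ideal (𝓞 E)) (hP : P.IsMaximal) (q : ℕ) (hq : q.Prime)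
    (hPq : Over P q) : normAt (⊤ : Subgroup Gal(E/ℚ)) P = q := by
  obtain ⟨f, hf0, hf1, hf⟩ := hil_normAt (⊤ : Subgroup Gal(E/ℚ)) isOpen_univ P hq hPq
  have h1 : Module.finrank ℚ (fld (⊤ : Subgroup Gal(E/ℚ))) = 1 := by
    have : fld (⊤ : Subgroup Gal(E/ℚ)) = ⊥ := InfiniteGalois.fixedField_bot
    rw [this]
    exact IntermediateField.finrank_bot
  have h2 : f = 1 := by
    have : f ≤ 1 := by
      rw [← h1]
      convert hf1 using 2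
      exact Subsingleton.elim _ _
    omega
  rw [hf, h2, pow_one]

/-- If `D(P) ≤ U` then `N v = q`.  From `hil_tower` with `(⊤, U)`: a Frobenius lift `σ` for `⊤` lies
in `D(P) ≤ U`, so `f = 1`; and `normAt ⊤ P = q` (`fld ⊤ = ⊥ ≃ ℚ`, `hil_normAt` with
`finrank ℚ (fld ⊤) = 1`). -/
theorem mat_normAt_of_decomp_le (U : Subgroup Gal(E/ℚ)) (hU : IsOpen (U : Set Gal(E/ℚ)))
    (P : Ideal (𝓞 E)) (hP : P.IsMaximal) (q : ℕ) (hq : q.Prime) (hPq : Over P q)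
    (hD : decomp ℚ P ≤ U) : normAt U P = q := by
  obtain ⟨σ, hσ⟩ := hil_exists_frob (⊤ : Subgroup Gal(E/ℚ)) isOpen_univ P
  obtain ⟨f, hf0, hf, -, hmin⟩ := hil_tower hU le_top hσ
  have h1 : f ∣ 1 := hmin 1 one_pos ⟨1, Subgroup.one_mem _, by
    rw [pow_one, mul_one]; exact hD (hil_frob_mem_decomp hσ)⟩
  rw [hf, Nat.dvd_one.1 h1, pow_one, mat_normAt_top P hP q hq hPq]

/-- If `D(P) ≤ U' ≤ U`, a Frobenius lift for `U` is one for `U'` (`hil_frob_mem_decomp`,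
`mat_normAt_of_decomp_le` twice). -/
theorem mat_frob_split (U U' : Subgroup Gal(E/ℚ)) (hU' : IsOpen (U' : Set Gal(E/ℚ)))
    (hUU : U' ≤ U) (P : Ideal (𝓞 E)) (hP : P.IsMaximal) (q : ℕ) (hq : q.Prime) (hPq : Over P q)
    (hD : decomp ℚ P ≤ U') (σ : Gal(E/ℚ)) (hσ : IsFrob U P σ) : IsFrob U' P σ := by
  have hU : IsOpen (U : Set Gal(E/ℚ)) := Subgroup.isOpen_mono hUU hU'
  refine ⟨hD (hil_frob_mem_decomp hσ), ?_⟩
  rw [mat_normAt_of_decomp_le U' hU' P hP q hq hPq hD,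
    ← mat_normAt_of_decomp_le U hU P hP q hq hPq (hD.trans hUU)]
  exact hσ.2

/-- Infinitely many rational primes split completely at a normal level `U'`.
From `spl_cyclic ⊤ U' 1`: `σ ∈ U'`, `I(P) ≤ U'`, so `D(P) ≤ U'` (`hil_decomp_closure`, `U'` closed);
all other primes over `q` are conjugate (`hil_transitive` at `⊤`, `hil_decomp_conj`, `U'` normal). -/
theorem mat_split_infinite (U' : Subgroup Gal(E/ℚ)) [U'.Normal]
    (hU' : IsOpen (U' : Set Gal(E/ℚ))) :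
    {q : ℕ | q.Prime ∧ ∀ P : Ideal (𝓞 E), P.IsMaximal → Over P q → decomp ℚ P ≤ U'}.Infinite := by
  refine (spl_cyclic (⊤ : Subgroup Gal(E/ℚ)) U' hU' le_top
    (fun u _ v hv => ‹U'.Normal›.conj_mem v hv u) 1 trivial).mono ?_
  rintro q ⟨hq, P, σ, hP, hPq, -, hunr, hσ, hgen⟩
  refine ⟨hq, fun P' hP' hPq' => ?_⟩
  have hσU : σ ∈ U' := by
    have h1 : σ ∈ Subgroup.zpowers σ ⊔ U' :=
      (le_sup_left : Subgroup.zpowers σ ≤ _) (Subgroup.mem_zpowers _)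
    rw [hgen, Subgroup.zpowers_one_eq_bot, bot_sup_eq] at h1
    exact h1
  have hD : decomp ℚ P ≤ U' := by
    intro g hg
    have h1 := hil_decomp_closure (U := (⊤ : Subgroup Gal(E/ℚ))) isOpen_univ hσ (g := g)
      ⟨hg, trivial⟩
    have hcl : IsClosed (U' : Set Gal(E/ℚ)) := Subgroup.isClosed_of_isOpen _ hU'
    refine (hcl.closure_subset_iff.2 ?_) h1
    have : Subgroup.zpowers σ ⊔ (inert ℚ P ⊓ ⊤) ≤ U' :=
      sup_le ((Subgroup.zpowers_le).2 hσU) hunr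
    exact this
  obtain ⟨g, rfl⟩ := mat_transitive_over P P' hP hP' q hq hPq hPq'
  rw [hil_decomp_conj, ← Subgroup.Normal.conj_smul_eq_self g U']
  exact Subgroup.pointwise_smul_le_pointwise_smul_iff.2 hD

end OverQ

/-! ### `χ_ℓ` is continuous; `ε = (χ_ℓ∘φ)/χ_ℓ` and its reduction mod `ℓ`; primes over `q` exist.  (proved) -/

section ChiMod

theorem mat_chi_continuous (ℓ : ℕ) [Fact ℓ.Prime] (F E : Type*) [Field F] [Field E] [Algebra F E] :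
    Continuous (chi ℓ F E) := cyclotomicCharacter.continuous ℓ F E

theorem mat_isOpen_toZMod_eq_one (ℓ : ℕ) [Fact ℓ.Prime] :
    IsOpen {u : ℤ_[ℓ]ˣ | PadicInt.toZMod (u : ℤ_[ℓ]) = 1} := by
  have : {u : ℤ_[ℓ]ˣ | PadicInt.toZMod (u : ℤ_[ℓ]) = 1}
      = (fun u : ℤ_[ℓ]ˣ => ‖(u : ℤ_[ℓ]) - 1‖) ⁻¹' Set.Iio 1 := by
    ext u
    simp only [Set.mem_ofPred_eq, Set.mem_preimage, Set.mem_Iio]
    rw [← PadicInt.mem_nonunits, ← IsLocalRing.mem_maximalIdeal, ← PadicInt.ker_toZMod,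
      RingHom.mem_ker, map_sub, map_one, sub_eq_zero]
  rw [this]
  exact isOpen_Iio.preimage ((Units.continuous_val.sub continuous_const).norm)

variable {Ω : Type} [Field Ω] [Algebra ℚ Ω]
variable {F₂ E₂ : Type} [Field F₂] [Field E₂] [Algebra F₂ E₂]

/-- `ε = (χ_ℓ∘φ)/χ_ℓ`. -/
noncomputable def mat_eps (ℓ : ℕ) [Fact ℓ.Prime] (U : Subgroup Gal(Ω/ℚ)) (φ : U →* Gal(E₂/F₂)) :
    U →* ℤ_[ℓ]ˣ :=
  ((chi ℓ F₂ E₂).comp φ) * ((chi ℓ ℚ Ω).comp U.subtype)⁻¹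

theorem mat_eps_apply (ℓ : ℕ) [Fact ℓ.Prime] (U : Subgroup Gal(Ω/ℚ)) (φ : U →* Gal(E₂/F₂))
    (g : U) : mat_eps ℓ U φ g = chi ℓ F₂ E₂ (φ g) * (chi ℓ ℚ Ω g.1)⁻¹ := rfl

theorem mat_eps_eq_one_iff (ℓ : ℕ) [Fact ℓ.Prime] (U : Subgroup Gal(Ω/ℚ))
    (φ : U →* Gal(E₂/F₂)) (g : U) :
    mat_eps ℓ U φ g = 1 ↔ chi ℓ F₂ E₂ (φ g) = chi ℓ ℚ Ω g.1 := by
  rw [mat_eps_apply, mul_inv_eq_one]

theorem mat_eps_continuous (ℓ : ℕ) [Fact ℓ.Prime] (U : Subgroup Gal(Ω/ℚ))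
    (φ : U →* Gal(E₂/F₂)) (hφ : Continuous φ) : Continuous (mat_eps ℓ U φ) := by
  have h1 : Continuous fun g : U => chi ℓ F₂ E₂ (φ g) := (mat_chi_continuous ℓ F₂ E₂).comp hφ
  have h2 : Continuous fun g : U => (chi ℓ ℚ Ω g.1)⁻¹ :=
    ((mat_chi_continuous ℓ ℚ Ω).comp continuous_subtype_val).inv
  exact h1.mul h2

/-- `ε mod ℓ`. -/
noncomputable def mat_epsMod (ℓ : ℕ) [Fact ℓ.Prime] (U : Subgroup Gal(Ω/ℚ))
    (φ : U →* Gal(E₂/F₂)) : U →* (ZMod ℓ)ˣ :=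
  (Units.map ((PadicInt.toZMod (p := ℓ)) : ℤ_[ℓ] →* ZMod ℓ)).comp (mat_eps ℓ U φ)

theorem mat_epsMod_eq_one_iff (ℓ : ℕ) [Fact ℓ.Prime] (U : Subgroup Gal(Ω/ℚ))
    (φ : U →* Gal(E₂/F₂)) (g : U) :
    mat_epsMod ℓ U φ g = 1 ↔ PadicInt.toZMod ((chi ℓ F₂ E₂ (φ g) : ℤ_[ℓ]ˣ) : ℤ_[ℓ])
      = PadicInt.toZMod ((chi ℓ ℚ Ω g.1 : ℤ_[ℓ]ˣ) : ℤ_[ℓ]) := by
  have h : mat_epsMod ℓ U φ g
      = Units.map ((PadicInt.toZMod (p := ℓ)) : ℤ_[ℓ] →* ZMod ℓ) (chi ℓ F₂ E₂ (φ g))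
        * (Units.map ((PadicInt.toZMod (p := ℓ)) : ℤ_[ℓ] →* ZMod ℓ) (chi ℓ ℚ Ω g.1))⁻¹ := by
    simp [mat_epsMod, mat_eps_apply]
  rw [h, mul_inv_eq_one, Units.ext_iff]
  rfl

theorem mat_epsMod_ker_isOpen (ℓ : ℕ) [Fact ℓ.Prime] (U : Subgroup Gal(Ω/ℚ))
    (φ : U →* Gal(E₂/F₂)) (hφ : Continuous φ) :
    IsOpen (((mat_epsMod ℓ U φ).ker : Subgroup U) : Set U) := by
  have : (((mat_epsMod ℓ U φ).ker : Subgroup U) : Set U)
      = (mat_eps ℓ U φ) ⁻¹' {u : ℤ_[ℓ]ˣ | PadicInt.toZMod (u : ℤ_[ℓ]) = 1} := by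
    ext g
    simp only [SetLike.mem_coe, MonoidHom.mem_ker, Set.mem_preimage, Set.mem_ofPred_eq]
    rw [Units.ext_iff]
    rfl
  rw [this]
  exact (mat_isOpen_toZMod_eq_one ℓ).preimage (mat_eps_continuous ℓ U φ hφ)

end ChiMod

/-- every rational prime lies below a prime of `E`. -/
theorem mat_exists_over {E : Type*} [Field E] [CharZero E] (q : ℕ) (hq : q.Prime) :
    ∃ P : Ideal (𝓞 E), P.IsMaximal ∧ Over P q := by
  have hnu : ¬ IsUnit ((q : 𝓞 E)) := by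
    intro hu
    obtain ⟨y, hy⟩ := hu.exists_right_inv
    have hy' : (q : E) * (y : E) = 1 := by
      have := congrArg (fun z : 𝓞 E => (z : E)) hy
      simpa using this
    have hq0 : (q : E) ≠ 0 := Nat.cast_ne_zero.2 hq.ne_zero
    have hyE : (y : E) = algebraMap ℚ E ((q : ℚ)⁻¹) := by
      rw [map_inv₀, map_natCast]
      exact eq_inv_of_mul_eq_one_right hy'
    have hint : IsIntegral ℤ ((q : ℚ)⁻¹) := by
      have h1 : IsIntegral ℤ (y : E) := y.2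
      rw [hyE] at h1
      exact (isIntegral_algebraMap_iff (algebraMap ℚ E).injective).1 h1
    obtain ⟨n, hn⟩ := IsIntegrallyClosed.isIntegral_iff.1 hint
    have hn' : (n : ℚ) * q = 1 := by
      have : (algebraMap ℤ ℚ n) = (n : ℚ) := rfl
      rw [← this, hn]
      exact inv_mul_cancel₀ (Nat.cast_ne_zero.2 hq.ne_zero)
    have hn'' : n * (q : ℤ) = 1 := by exact_mod_cast hn'
    have := Int.isUnit_iff.1 (IsUnit.of_mul_eq_one _ ((mul_comm _ _).trans hn''))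
    rcases this with h | h
    · exact hq.one_lt.ne' (by exact_mod_cast h)
    · have : (0 : ℤ) ≤ q := Int.natCast_nonneg q
      omega
  obtain ⟨P, hP, hle⟩ := Ideal.exists_le_maximal (Ideal.span {(q : 𝓞 E)})
    (by rwa [Ne, Ideal.span_singleton_eq_top])
  exact ⟨P, hP, hle (Ideal.mem_span_singleton_self _)⟩

section Active

variable {Ω : Type} [Field Ω] [Algebra ℚ Ω] [IsGalois ℚ Ω]
variable {F₂ E₂ : Type} [Field F₂] [NumberField F₂] [Field E₂] [Algebra F₂ E₂] [IsGalois F₂ E₂]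

/-- `(P, Q)` is an active pair at `ℓ` for `φ : G_{M_U} → Gal(E₂/F₂)`: EXACTLY what Sections 5-6 use of
Theorem 2.4' + Lemma 2.5: one Frobenius lift goes to `D(Q)` and satisfies the norm identity.
(No `τ` in the definition: this makes "missed" stronger, which is harmless, see `Same.lean`.) -/
structure mat_Active (ℓ : ℕ) [Fact ℓ.Prime] (U : Subgroup Gal(Ω/ℚ)) (φ : U →* Gal(E₂/F₂))
    (P : Ideal (𝓞 Ω)) (Q : Ideal (𝓞 E₂)) : Prop where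
  Pmax : P.IsMaximal
  Qmax : Q.IsMaximal
  Pl : ¬ Over P ℓ
  Ql : ¬ Over Q ℓ
  wit : ∃ σ : U, IsFrob U P σ.1 ∧ φ σ ∈ decomp F₂ Q ∧ chi ℓ F₂ E₂ (φ σ) = chi ℓ ℚ Ω σ.1

/-- `Act ℓ p q`: some active pair at `ℓ` has source characteristic `p`, target characteristic `q`. -/
def mat_Act (ℓ : ℕ) [Fact ℓ.Prime] (U : Subgroup Gal(Ω/ℚ)) (φ : U →* Gal(E₂/F₂)) (p q : ℕ) : Prop :=
  p.Prime ∧ q.Prime ∧
    ∃ (P : Ideal (𝓞 Ω)) (Q : Ideal (𝓞 E₂)), Over P p ∧ Over Q q ∧ mat_Active ℓ U φ P Q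

/-- `hil_normAt` over `ℚ`, with the `Module ℚ (fld U)` instance that elaboration finds in MATCH files. -/
theorem mat_normAt_pow (U : Subgroup Gal(Ω/ℚ)) (hU : IsOpen (U : Set Gal(Ω/ℚ)))
    (P : Ideal (𝓞 Ω)) (hP : P.IsMaximal) (p : ℕ) (hp : p.Prime) (h : Over P p) :
    ∃ f : ℕ, 0 < f ∧ f ≤ Module.finrank ℚ (fld U) ∧ normAt U P = p ^ f := by
  obtain ⟨f, hf0, hf1, hf⟩ := hil_normAt U hU P hp h
  refine ⟨f, hf0, ?_, hf⟩
  convert hf1 using 2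
  exact Subsingleton.elim _ _

/-- Partner of an active prime (ONE-LEVEL form).  From `lc_main` (`V = T = U`) and `tame_exists_frob` (`V = U`):
`σ` Frobenius lift for `U` with `σ τ σ⁻¹ = τ^N ∈ closure ⟨τ⟩`, `σ ∈ D(P)` (`hil_frob_mem_decomp`). -/
theorem mat_lc (hΩ : IsAlgClosed Ω) (hE₂ : SolvablyClosed E₂) (ℓ : ℕ) [Fact ℓ.Prime] (hℓ : ℓ ≠ 2)
    (U : Subgroup Gal(Ω/ℚ)) (hU : IsOpen (U : Set Gal(Ω/ℚ))) (φ : U →* Gal(E₂/F₂))
    (hφ : Continuous φ)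
    (P : Ideal (𝓞 Ω)) (hP : P.IsMaximal) (hPl : ¬ Over P ℓ) (τ : Gal(Ω/ℚ))
    (hτ : IsTameGen ℓ U P τ) (hact : φ ⟨τ, hτ.mem.2⟩ ≠ 1) :
    ∃ Q : Ideal (𝓞 E₂), mat_Active ℓ U φ P Q ∧ φ ⟨τ, hτ.mem.2⟩ ∈ inert F₂ Q := by
  have hΩs : SolvablyClosed Ω := mat_solvablyClosed_of_isAlgClosed hΩ
  obtain ⟨σ, hσ, hrel⟩ := tame_exists_frob hΩs hU le_rfl
    (fun u hu v hv => U.mul_mem (U.mul_mem hu hv) (U.inv_mem hu)) hPl hτ
  obtain ⟨Q, hQ, hQl, hin, hall⟩ := lc_main hΩs hE₂ U hU φ hφ hℓ P hPl U hU le_rfl τ hτ hact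
  obtain ⟨h1, h2⟩ := hall σ hσ.1 (hil_frob_mem_decomp hσ) (by
    rw [hrel]
    exact subset_closure (Subgroup.npow_mem_zpowers τ _))
  exact ⟨Q, ⟨hP, hQ, hPl, hQl, ⟨σ, hσ.1⟩, hσ, h1, h2⟩, hin⟩

/-- The norm congruence used in Prop 5.5 and in `mat_allactive_H1H2`: for an active pair over `(p,q)`,
`N v = p^f` is a power of `q` modulo `ℓ`.  (`chi_frob` on the source, `mat_chi_decomp` on the
target, `hil_normAt`.) -/
theorem mat_active_norm (hΩ : IsAlgClosed Ω) (hE₂ : SolvablyClosed E₂) (ℓ : ℕ) [Fact ℓ.Prime]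
    (U : Subgroup Gal(Ω/ℚ)) (hU : IsOpen (U : Set Gal(Ω/ℚ))) (φ : U →* Gal(E₂/F₂)) (p q : ℕ)
    (h : mat_Act ℓ U φ p q) :
    ∃ f e : ℕ, 1 ≤ f ∧ f ≤ Module.finrank ℚ (fld U) ∧ (p : ZMod ℓ) ^ f = (q : ZMod ℓ) ^ e := by
  have hΩs : SolvablyClosed Ω := mat_solvablyClosed_of_isAlgClosed hΩ
  obtain ⟨hp, hq, P, Q, hPp, hQq, hact⟩ := h
  obtain ⟨σ, hσ, hD, hchi⟩ := hact.wit
  have := hact.Pmax
  obtain ⟨f, hf0, hf1, hf⟩ := mat_normAt_pow U hU P hact.Pmax p hp hPp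
  have hql : q ≠ ℓ := fun h => hact.Ql (h ▸ hQq)
  obtain ⟨e, he⟩ := mat_chi_decomp hE₂ ℓ Q hact.Qmax q hq hQq hql (φ σ) hD
  refine ⟨f, e, hf0, hf1, ?_⟩
  rw [← he, hchi, chi_frob hΩs hact.Pl hσ, hf]
  simp

end Active

end Claimed.Agent.R239
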