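/-
Row 239 / MATCH (owner helper92).  Part A: the ENGINE, abstract (group-theoretic) half.
No number theory: only `XChar` from `Defs`.  SORRY-FREE.
A1 `mat_engine_level`      "from characters to the finite group"
A2 `mat_engine_pigeonhole` "pigeonhole + detection"
A3 `mat_engine_compact`    "one conjugation for all finite quotients"
-/
import Claimed.Agent.R239.Defs

set_option autoImplicit false

namespace Claimed.Agent.R239

def mat_res {G G₂ : Type*} [Group G] [Group G₂] {S U : Subgroup G} {V : Subgroup G₂}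
    (f : S →* G₂) (hU : U ≤ S) (hV : ∀ h : U, f ⟨h.1, hU h.2⟩ ∈ V) : U →* V :=
  (f.comp (Subgroup.inclusion hU)).codRestrict V hV

@[simp] theorem mat_res_coe {G G₂ : Type*} [Group G] [Group G₂] {S U : Subgroup G}
    {V : Subgroup G₂} (f : S →* G₂) (hU : U ≤ S) (hV : ∀ h : U, f ⟨h.1, hU h.2⟩ ∈ V) (h : U) :
    ((mat_res f hU hV h : V) : G₂) = f ⟨h.1, hU h.2⟩ := rfl

theorem mat_res_continuous {G G₂ : Type*} [Group G] [Group G₂] [TopologicalSpace G]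
    [TopologicalSpace G₂] {S U : Subgroup G}
    {V : Subgroup G₂} (f : S →* G₂) (hf : Continuous f) (hU : U ≤ S)
    (hV : ∀ h : U, f ⟨h.1, hU h.2⟩ ∈ V) : Continuous (mat_res f hU hV) :=
  Continuous.subtype_mk (hf.comp (continuous_inclusion hU)) _

theorem mat_conjNormal_continuous {G : Type*} [Group G] [TopologicalSpace G]
    [IsTopologicalGroup G] (U : Subgroup G) [U.Normal] (g : G) :
    Continuous (MulAut.conjNormal g : U ≃* U) := by
  refine Continuous.subtype_mk ?_ _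
  exact (continuous_const.mul continuous_subtype_val).mul continuous_const

variable (r : ℕ) [Fact r.Prime]
variable {GG G₂ : Type*} [Group GG] [TopologicalSpace GG] [IsTopologicalGroup GG]
  [Group G₂] [TopologicalSpace G₂] [IsTopologicalGroup G₂]

omit [TopologicalSpace GG] [IsTopologicalGroup GG] in
/-- A1.  `i_γ(x)(h) = x(ρ(γ⁻¹hγ))`, `i_φ(x)(h) = x(φ h)` on `U'`.  If `i_φ = i_γ` and `ρ` is faithful on
characters, then `φ t ≡ ρ(γ⁻¹tγ) mod V` for all `t ∈ T`. -/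
theorem mat_engine_level
    (S₂ T U' : Subgroup GG) [U'.Normal] (hUS : U' ≤ S₂) (hUT : U' ≤ T)
    (ρ : S₂ →* G₂) (hρ : Function.Surjective ρ) (φ : T →* G₂)
    (V : Subgroup G₂) [V.Normal]
    (hρV : ∀ h : U', ρ ⟨h.1, hUS h.2⟩ ∈ V) (hφV : ∀ h : U', φ ⟨h.1, hUT h.2⟩ ∈ V)
    (faith : ∀ b : GG, (∀ (x : XChar r V) (h : U'),
        x.1 (mat_res ρ hUS hρV h) = x.1 (mat_res ρ hUS hρV (MulAut.conjNormal b⁻¹ h))) →
        ∃ hb : b ∈ S₂, ρ ⟨b, hb⟩ ∈ V)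
    (γ : GG) (mtch : ∀ (x : XChar r V) (h : U'),
        x.1 (mat_res φ hUT hφV h) = x.1 (mat_res ρ hUS hρV (MulAut.conjNormal γ⁻¹ h))) :
    ∀ t : T, ∃ ht : γ⁻¹ * t.1 * γ ∈ S₂, (ρ ⟨_, ht⟩)⁻¹ * φ t ∈ V := by
  intro t
  obtain ⟨a, ha⟩ := hρ (φ t)
  have key : ∀ (x : XChar r V) (h : U'), x.1 (mat_res ρ hUS hρV h)
      = x.1 (mat_res ρ hUS hρV (MulAut.conjNormal (a.1⁻¹ * (γ⁻¹ * t.1 * γ))⁻¹ h)) := by
    intro x h
    set h' : U' := MulAut.conjNormal a.1 h with hh'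
    set h₀ : U' := MulAut.conjNormal γ h' with hh₀
    set ht : U' := MulAut.conjNormal t.1⁻¹ h₀ with hht
    have E1 := mtch x ht
    have E2 := mtch (XChar.conj V (φ t) x) h₀
    rw [XChar.conj_apply, XChar.conj_apply] at E2
    have e1 : (MulAut.conjNormal γ⁻¹ ht : U')
        = MulAut.conjNormal (a.1⁻¹ * (γ⁻¹ * t.1 * γ))⁻¹ h := by
      apply Subtype.ext
      simp only [hht, hh₀, hh', MulAut.conjNormal_apply]
      group
    have e2 : ∀ pf, x.1 (⟨(φ t)⁻¹ * (mat_res φ hUT hφV h₀ : V).1 * φ t, pf⟩ : V)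
        = x.1 (mat_res φ hUT hφV ht) := by
      intro pf
      refine congrArg x.1 (Subtype.ext ?_)
      simp only [mat_res_coe]
      have : (⟨ht.1, hUT ht.2⟩ : T) = t⁻¹ * ⟨h₀.1, hUT h₀.2⟩ * t := by
        apply Subtype.ext
        simp [hht]
      rw [this, map_mul, map_mul, map_inv φ t]
    have e3 : ∀ pf, x.1 (⟨(φ t)⁻¹ * (mat_res ρ hUS hρV (MulAut.conjNormal γ⁻¹ h₀) : V).1 * φ t,
        pf⟩ : V) = x.1 (mat_res ρ hUS hρV h) := by
      intro pf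
      refine congrArg x.1 (Subtype.ext ?_)
      simp only [mat_res_coe]
      have : (⟨h.1, hUS h.2⟩ : S₂) = a⁻¹ * ⟨(MulAut.conjNormal γ⁻¹ h₀ : U').1,
          hUS (MulAut.conjNormal γ⁻¹ h₀ : U').2⟩ * a := by
        apply Subtype.ext
        simp only [hh₀, hh', MulAut.conjNormal_apply, Subgroup.coe_mul, Subgroup.coe_inv]
        group
      rw [this, map_mul, map_mul, map_inv ρ a, ha]
    rw [e2, e3] at E2
    rw [← E2, E1, e1]
  obtain ⟨hb, hbV⟩ := faith _ key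
  have hg : γ⁻¹ * t.1 * γ ∈ S₂ := by
    have := S₂.mul_mem a.2 hb
    simpa [mul_assoc] using this
  refine ⟨hg, ?_⟩
  have : (⟨γ⁻¹ * t.1 * γ, hg⟩ : S₂) = a * ⟨a.1⁻¹ * (γ⁻¹ * t.1 * γ), hb⟩ := by
    apply Subtype.ext
    simp [mul_assoc]
  rw [this, map_mul, ha, mul_inv_rev, inv_mul_cancel_right]
  exact V.inv_mem hbV

omit [IsTopologicalGroup G₂] in
/-- A2.  `i_γ` only depends on `γ W`, `W = ρ⁻¹ V` of finite index; so one `γ₀` serves infinitely many `q`;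
then `i_φ x - i_γ₀ x ∈ XChar r U'` vanishes at infinitely many `σ q`, hence is `0` by `det`. -/
theorem mat_engine_pigeonhole
    (S₂ T U' : Subgroup GG) [U'.Normal] (hUS : U' ≤ S₂) (hUT : U' ≤ T)
    (ρ : S₂ →* G₂) (hρc : Continuous ρ) (φ : T →* G₂) (hφc : Continuous φ)
    (V : Subgroup G₂) [V.Normal]
    (hρV : ∀ h : U', ρ ⟨h.1, hUS h.2⟩ ∈ V) (hφV : ∀ h : U', φ ⟨h.1, hUT h.2⟩ ∈ V)
    (hfin : ((V.comap ρ).map S₂.subtype).FiniteIndex)
    (QQ : Set ℕ) (hQQ : QQ.Infinite) (σ : ℕ → U') (γ : ℕ → GG)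
    (hev : ∀ q ∈ QQ, ∀ x : XChar r V, x.1 (mat_res φ hUT hφV (σ q))
        = x.1 (mat_res ρ hUS hρV (MulAut.conjNormal (γ q)⁻¹ (σ q))))
    (det : ∀ y : XChar r U', ∀ QQ' ⊆ QQ, QQ'.Infinite → (∀ q ∈ QQ', y.1 (σ q) = 0) → y = 0) :
    ∃ γ₀ : GG, ∀ (x : XChar r V) (h : U'),
        x.1 (mat_res φ hUT hφV h) = x.1 (mat_res ρ hUS hρV (MulAut.conjNormal γ₀⁻¹ h)) := by
  classical
  set W : Subgroup GG := (V.comap ρ).map S₂.subtype with hW
  have : Infinite QQ := hQQ.to_subtype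
  have : Finite (GG ⧸ W) := Subgroup.finite_quotient_of_finiteIndex
  obtain ⟨c, hc⟩ := Finite.exists_infinite_fiber (fun q : QQ => (QuotientGroup.mk (γ q.1) : GG ⧸ W))
  obtain ⟨γ₀, rfl⟩ := QuotientGroup.mk_surjective c
  -- independence of the representative
  have hind : ∀ (g : GG), (QuotientGroup.mk g : GG ⧸ W) = QuotientGroup.mk γ₀ →
      ∀ (x : XChar r V) (h : U'), x.1 (mat_res ρ hUS hρV (MulAut.conjNormal g⁻¹ h))
        = x.1 (mat_res ρ hUS hρV (MulAut.conjNormal γ₀⁻¹ h)) := by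
    intro g hg x h
    have hw : γ₀⁻¹ * g ∈ W := QuotientGroup.eq.1 hg.symm
    obtain ⟨w, hwV, hw'⟩ := hw
    have hwV' : ρ w ∈ V := hwV
    have : mat_res ρ hUS hρV (MulAut.conjNormal g⁻¹ h)
        = (⟨ρ w, hwV'⟩ : V)⁻¹ * mat_res ρ hUS hρV (MulAut.conjNormal γ₀⁻¹ h) * (⟨ρ w, hwV'⟩ : V)⁻¹⁻¹ := by
      apply Subtype.ext
      simp only [mat_res_coe, Subgroup.coe_mul, Subgroup.coe_inv, inv_inv]
      rw [← map_inv, ← map_mul, ← map_mul]
      congr 1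
      apply Subtype.ext
      have hg' : g = γ₀ * w.1 := by
        have : (w : GG) = γ₀⁻¹ * g := hw'
        rw [this]; group
      simp only [MulAut.conjNormal_apply, Subgroup.coe_mul, Subgroup.coe_inv, hg']
      group
    rw [this, XChar.map_conj x]
  refine ⟨γ₀, fun x h => ?_⟩
  let y : XChar r U' := XChar.comap (mat_res φ hUT hφV) (mat_res_continuous φ hφc hUT hφV) x
    - XChar.comap ((mat_res ρ hUS hρV).comp (MulAut.conjNormal γ₀⁻¹ : U' ≃* U').toMonoidHom)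
      ((mat_res_continuous ρ hρc hUS hρV).comp (mat_conjNormal_continuous U' γ₀⁻¹)) x
  have hy : ∀ h : U', y.1 h = x.1 (mat_res φ hUT hφV h)
      - x.1 (mat_res ρ hUS hρV (MulAut.conjNormal γ₀⁻¹ h)) := fun h => rfl
  have hy0 : y = 0 := by
    refine det y (Subtype.val '' ((fun q : QQ => (QuotientGroup.mk (γ q.1) : GG ⧸ W)) ⁻¹'
      {QuotientGroup.mk γ₀})) ?_ ?_ ?_
    · rintro _ ⟨q, -, rfl⟩
      exact q.2
    · exact (Set.infinite_coe_iff.1 hc).image Subtype.val_injective.injOn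
    · rintro _ ⟨q, hq, rfl⟩
      rw [hy, hev q.1 q.2 x, hind _ hq x, sub_self]
  have := hy h
  rw [hy0] at this
  have h0 : ((0 : XChar r U') : U' → ℚ_[r]) h = 0 := rfl
  rw [h0] at this
  exact (sub_eq_zero.1 this.symm)

/-- A3.  Compactness of `GG`: the closed sets `C_V = {γ | ∀ t, γ⁻¹tγ ∈ S₂ ∧ ρ(γ⁻¹tγ)⁻¹ φ t ∈ V}` are non-empty and
directed. -/
theorem mat_engine_compact [CompactSpace GG]
    (S₂ T : Subgroup GG) (hS₂ : IsOpen (S₂ : Set GG)) (ρ : S₂ →* G₂) (hρ : Continuous ρ)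
    (φ : T →* G₂) (VV : Set (Subgroup G₂)) (hne : VV.Nonempty)
    (hVo : ∀ V ∈ VV, IsOpen (V : Set G₂))
    (hdir : ∀ V₁ ∈ VV, ∀ V₂ ∈ VV, ∃ V ∈ VV, V ≤ V₁ ⊓ V₂)
    (hsep : ∀ g : G₂, (∀ V ∈ VV, g ∈ V) → g = 1)
    (hlev : ∀ V ∈ VV, ∃ γ : GG, ∀ t : T, ∃ ht : γ⁻¹ * t.1 * γ ∈ S₂, (ρ ⟨_, ht⟩)⁻¹ * φ t ∈ V) :
    ∃ γ : GG, ∀ t : T, ∃ ht : γ⁻¹ * t.1 * γ ∈ S₂, ρ ⟨_, ht⟩ = φ t := by
  classical
  let C : VV → Set GG := fun V =>
    {γ | ∀ t : T, ∃ ht : γ⁻¹ * t.1 * γ ∈ S₂, (ρ ⟨_, ht⟩)⁻¹ * φ t ∈ V.1}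
  have : Nonempty VV := hne.to_subtype
  have hclosed : ∀ V : VV, IsClosed (C V) := by
    intro V
    have hVc : IsClosed ((V.1 : Subgroup G₂) : Set G₂) :=
      Subgroup.isClosed_of_isOpen _ (hVo V.1 V.2)
    have hSc : IsClosed (S₂ : Set GG) := Subgroup.isClosed_of_isOpen _ hS₂
    have : C V = ⋂ t : T, (fun γ : GG => γ⁻¹ * t.1 * γ) ⁻¹'
        (Subtype.val '' {s : S₂ | (ρ s)⁻¹ * φ t ∈ V.1}) := by
      ext γ
      simp only [C, Set.mem_ofPred_eq, Set.mem_iInter, Set.mem_preimage, Set.mem_image]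
      refine forall_congr' fun t => ?_
      constructor
      · rintro ⟨ht, h⟩
        exact ⟨⟨_, ht⟩, h, rfl⟩
      · rintro ⟨s, h, hs⟩
        refine ⟨hs ▸ s.2, ?_⟩
        have : (⟨γ⁻¹ * t.1 * γ, hs ▸ s.2⟩ : S₂) = s := Subtype.ext hs.symm
        rw [this]
        exact h
    rw [this]
    refine isClosed_iInter fun t => IsClosed.preimage ?_ ?_
    · exact (continuous_inv.mul continuous_const).mul continuous_id
    · refine hSc.isClosedMap_subtype_val _ ?_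
      exact hVc.preimage ((continuous_inv.comp hρ).mul continuous_const)
  have hmono : ∀ V V' : VV, V.1 ≤ V'.1 → C V ⊆ C V' := by
    intro V V' h γ hγ t
    obtain ⟨ht, h'⟩ := hγ t
    exact ⟨ht, h h'⟩
  have hdirected : Directed (· ⊇ ·) C := by
    intro V₁ V₂
    obtain ⟨V, hV, hle⟩ := hdir V₁.1 V₁.2 V₂.1 V₂.2
    exact ⟨⟨V, hV⟩, hmono _ _ (hle.trans inf_le_left), hmono _ _ (hle.trans inf_le_right)⟩
  obtain ⟨γ, hγ⟩ := IsCompact.nonempty_iInter_of_directed_nonempty_isCompact_isClosed C hdirected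
    (fun V => hlev V.1 V.2) (fun V => (hclosed V).isCompact) hclosed
  refine ⟨γ, fun t => ?_⟩
  rw [Set.mem_iInter] at hγ
  obtain ⟨V₀, hV₀⟩ := hne
  obtain ⟨ht, -⟩ := hγ ⟨V₀, hV₀⟩ t
  refine ⟨ht, ?_⟩
  have : (ρ ⟨_, ht⟩)⁻¹ * φ t = 1 := hsep _ fun V hV => by
    obtain ⟨_, h⟩ := hγ ⟨V, hV⟩ t
    exact h
  exact (inv_mul_eq_one.1 this)

/-! ### Toolbox: levels -/

section Toolbox

variable {G G₂ : Type*} [Group G] [TopologicalSpace G] [Group G₂] [TopologicalSpace G₂]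

/-- A subgroup with open carrier of a compact group contains a normal one. -/
theorem mat_exists_normal_le [IsTopologicalGroup G] [CompactSpace G] (A : Subgroup G)
    (hA : IsOpen (A : Set G)) : ∃ N : Subgroup G, N.Normal ∧ IsOpen (N : Set G) ∧ N ≤ A := by
  have hc : IsClosed (A : Set G) := A.isClosed_of_isOpen hA
  obtain ⟨H, hH⟩ :=
    IsTopologicalGroup.exist_openNormalSubgroup_sub_clopen_nhds_of_one ⟨hc, hA⟩ A.one_mem
  exact ⟨H.toSubgroup, H.isNormal', H.isOpen', hH⟩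

omit [TopologicalSpace G] [TopologicalSpace G₂] in
theorem mat_mem_lvl {S : Subgroup G} {f : S →* G₂} {V : Subgroup G₂} {h : G} :
    h ∈ (V.comap f).map S.subtype ↔ ∃ hS : h ∈ S, f ⟨h, hS⟩ ∈ V := by
  constructor
  · rintro ⟨s, hs, rfl⟩
    exact ⟨s.2, hs⟩
  · rintro ⟨hS, hV⟩
    exact ⟨⟨h, hS⟩, hV, rfl⟩

theorem mat_isOpen_lvl (S : Subgroup G) (hS : IsOpen (S : Set G)) (f : S →* G₂)
    (hf : Continuous f) (V : Subgroup G₂) (hV : IsOpen (V : Set G₂)) :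
    IsOpen (((V.comap f).map S.subtype : Subgroup G) : Set G) := by
  have : (((V.comap f).map S.subtype : Subgroup G) : Set G)
      = Subtype.val '' (f ⁻¹' (V : Set G₂)) := rfl
  rw [this]
  exact hS.isOpenMap_subtype_val _ (hV.preimage hf)

theorem mat_finiteIndex_of_isOpen [IsTopologicalGroup G] [CompactSpace G] (A : Subgroup G)
    (hA : IsOpen (A : Set G)) : A.FiniteIndex := by
  have := A.quotient_finite_of_isOpen hA
  exact A.finiteIndex_of_finite_quotient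

end Toolbox

end Claimed.Agent.R239
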