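/-
Row 239 / MATCH (owner helper92).  Part B (first half): ordinary restriction `ρ : G_{ιF₂} → Gal(E₂/F₂)`
attached to an embedding `ι : E₂ → Ω`, and transport of primes / Frobenius lifts / tame generators
along it.
-/
import Claimed.Agent.R239.MATCH.EngineAbs
import Claimed.Agent.R239.MATCH.Basic
import Claimed.Agent.R239.Tame.HilProf
import Claimed.Agent.R239.Tame.HilBasic
import Claimed.Agent.R239.Glue.BaseChange

set_option autoImplicit false
set_option linter.unusedSectionVars false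

namespace Claimed.Agent.R239

open NumberField Claims.C0403
open scoped Pointwise

/-- "Ordinary restriction" `G_{ιF₂} → Gal(E₂/F₂)` attached to an embedding `ι : E₂ → Ω`. -/
structure mat_StdRes (Ω F₂ E₂ : Type) [Field Ω] [Algebra ℚ Ω] [Field F₂] [Field E₂]
    [Algebra F₂ E₂] where
  ι : E₂ →+* Ω
  S₂ : Subgroup Gal(Ω/ℚ)
  ρ : S₂ →* Gal(E₂/F₂)
  isOpen : IsOpen (S₂ : Set Gal(Ω/ℚ))
  cont : Continuous ρ
  surj : Function.Surjective ρ
  spec : ∀ (h : S₂) (x : E₂), h.1 (ι x) = ι (ρ h x)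
  /-- `S₂` is the full stabiliser of `ι F₂`. -/
  mem : ∀ h : Gal(Ω/ℚ), (∀ x : F₂, h (ι (algebraMap F₂ E₂ x)) = ι (algebraMap F₂ E₂ x)) → h ∈ S₂

/-! ### auxiliary: fields of characteristic zero mapping to `Ω` -/

section aux

variable {Ω : Type} [Field Ω] [Algebra ℚ Ω]

/-- `Ω` is algebraic over any field mapping to it. -/
theorem mat_sr_isAlgebraic [Algebra.IsAlgebraic ℚ Ω] (K : Type) [Field K] [Algebra K Ω] :
    Algebra.IsAlgebraic K Ω := by
  have : CharZero Ω := algebraRat.charZero Ω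
  have : CharZero K := ((algebraMap K Ω).charZero_iff (algebraMap K Ω).injective).mpr inferInstance
  have : IsScalarTower ℚ K Ω := IsScalarTower.of_algebraMap_eq (fun q => by simp)
  exact Algebra.IsAlgebraic.tower_top (K := ℚ) K

/-- the subgroup of `Gal(Ω/ℚ)` fixing the image of `K`. -/
def mat_srFix (K : Type) [Field K] [Algebra K Ω] : Subgroup Gal(Ω/ℚ) where
  carrier := {h | ∀ x : K, h (algebraMap K Ω x) = algebraMap K Ω x}
  mul_mem' := by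
    intro a b ha hb x
    rw [AlgEquiv.mul_apply, hb x, ha x]
  one_mem' := fun x => rfl
  inv_mem' := by
    intro a ha x
    change a⁻¹ • (algebraMap K Ω x) = algebraMap K Ω x
    rw [inv_smul_eq_iff]
    exact (ha x).symm

/-- `mat_srFix K → Gal(Ω/K)`. -/
def mat_srToGal (K : Type) [Field K] [Algebra K Ω] : mat_srFix (Ω := Ω) K →* Gal(Ω/K) where
  toFun h := { (h.1 : Ω ≃+* Ω) with commutes' := h.2 }
  map_one' := by ext x; rfl
  map_mul' := by intro a b; ext x; rfl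

@[simp] theorem mat_srToGal_apply (K : Type) [Field K] [Algebra K Ω] (h : mat_srFix (Ω := Ω) K)
    (x : Ω) : mat_srToGal K h x = h.1 x := rfl

/-- `Gal(Ω/K) → Gal(Ω/ℚ)` -/
def mat_srOfGal (K : Type) [Field K] [Algebra K Ω] (g : Gal(Ω/K)) : Gal(Ω/ℚ) :=
  AlgEquiv.ofRingEquiv (f := (g : Ω ≃+* Ω)) (fun q => by simp)

@[simp] theorem mat_srOfGal_apply (K : Type) [Field K] [Algebra K Ω] (g : Gal(Ω/K)) (x : Ω) :
    mat_srOfGal K g x = g x := rfl

theorem mat_srOfGal_mem (K : Type) [Field K] [Algebra K Ω] (g : Gal(Ω/K)) :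
    mat_srOfGal K g ∈ mat_srFix (Ω := Ω) K := fun x => g.commutes x

theorem mat_srToGal_surjective (K : Type) [Field K] [Algebra K Ω] :
    Function.Surjective (mat_srToGal (Ω := Ω) K) := fun g =>
  ⟨⟨mat_srOfGal K g, mat_srOfGal_mem K g⟩, by ext x; rfl⟩

theorem mat_srFix_isOpen (K : Type) [Field K] [NumberField K] [Algebra K Ω] :
    IsOpen (mat_srFix (Ω := Ω) K : Set Gal(Ω/ℚ)) := by
  have : IsScalarTower ℚ K Ω := IsScalarTower.of_algebraMap_eq (fun q => by simp)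
  let f : K →ₐ[ℚ] Ω := IsScalarTower.toAlgHom ℚ K Ω
  have hfd : FiniteDimensional ℚ f.fieldRange :=
    LinearEquiv.finiteDimensional (AlgEquiv.ofInjectiveField f).toLinearEquiv
  have h := IntermediateField.fixingSubgroup_isOpen f.fieldRange
  convert h using 2
  ext g
  rw [IntermediateField.mem_fixingSubgroup_iff]
  constructor
  · rintro hg _ ⟨x, rfl⟩
    exact hg x
  · intro hg x
    exact hg _ ⟨x, rfl⟩

end aux

variable {Ω : Type} [Field Ω] [Algebra ℚ Ω] [IsGalois ℚ Ω]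
variable {F₂ E₂ : Type} [Field F₂] [NumberField F₂] [Field E₂] [Algebra F₂ E₂] [IsGalois F₂ E₂]

omit [NumberField F₂] [IsGalois F₂ E₂] in
/-- continuity of a restriction map follows from its defining property -/
theorem mat_sr_cont (ι : E₂ →+* Ω) (S : Subgroup Gal(Ω/ℚ)) (ρ : S →* Gal(E₂/F₂))
    (spec : ∀ (h : S) (x : E₂), h.1 (ι x) = ι (ρ h x)) : Continuous ρ := by
  apply bc_continuous_of_stab
  intro x
  have h := (stabilizer_isOpen_of_isIntegral (K := ℚ) (L := Ω) (ι x)).preimage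
    (continuous_subtype_val (p := fun g => g ∈ S))
  convert h using 1
  ext g
  simp only [Set.mem_ofPred_eq, Set.mem_preimage, SetLike.mem_coe, MulAction.mem_stabilizer_iff]
  constructor
  · intro hg
    change g.1 (ι x) = ι x
    rw [spec, hg]
  · intro hg
    apply ι.injective
    rw [← spec]
    exact hg

/-- the standard restriction attached to an embedding -/
noncomputable def mat_srMk (hΩ : IsAlgClosed Ω) (ι : E₂ →+* Ω) : mat_StdRes Ω F₂ E₂ :=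
  letI : Algebra E₂ Ω := ι.toAlgebra
  letI : Algebra F₂ Ω := (ι.comp (algebraMap F₂ E₂)).toAlgebra
  haveI : IsScalarTower F₂ E₂ Ω := IsScalarTower.of_algebraMap_eq (fun _ => rfl)
  haveI : Algebra.IsAlgebraic F₂ Ω := mat_sr_isAlgebraic F₂
  haveI : IsAlgClosure F₂ Ω := ⟨hΩ, inferInstance⟩
  haveI : Normal F₂ Ω := IsAlgClosure.normal F₂ Ω
  { ι := ι
    S₂ := mat_srFix F₂
    ρ := (AlgEquiv.restrictNormalHom E₂).comp (mat_srToGal F₂)
    isOpen := mat_srFix_isOpen F₂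
    cont := mat_sr_cont ι _ _
      (fun h x => (AlgEquiv.restrictNormal_commutes (mat_srToGal F₂ h) E₂ x).symm)
    surj := (AlgEquiv.restrictNormalHom_surjective Ω).comp (mat_srToGal_surjective F₂)
    spec := fun h x => (AlgEquiv.restrictNormal_commutes (mat_srToGal F₂ h) E₂ x).symm
    mem := fun _ hh => hh }

theorem mat_sr_exists_embedding {Ω : Type} [Field Ω] [Algebra ℚ Ω] (F₂ E₂ : Type) [Field F₂]
    [NumberField F₂] [Field E₂] [Algebra F₂ E₂] [Algebra.IsAlgebraic F₂ E₂] (hΩ : IsAlgClosed Ω) :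
    Nonempty (E₂ →+* Ω) := by
  have : CharZero E₂ := charZero_of_injective_algebraMap (algebraMap F₂ E₂).injective
  have : CharZero Ω := algebraRat.charZero Ω
  have : IsScalarTower ℚ F₂ E₂ := IsScalarTower.of_algebraMap_eq (fun q => by simp)
  have : Algebra.IsAlgebraic ℚ E₂ := Algebra.IsAlgebraic.trans ℚ F₂ E₂
  exact ⟨(IsAlgClosed.lift (M := Ω) (R := ℚ) (S := E₂)).toRingHom⟩

theorem mat_stdRes_exists (hΩ : IsAlgClosed Ω) : Nonempty (mat_StdRes Ω F₂ E₂) := by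
  obtain ⟨ι⟩ := mat_sr_exists_embedding F₂ E₂ hΩ
  exact ⟨mat_srMk hΩ ι⟩

theorem mat_embedding_eq (hΩ : IsAlgClosed Ω) (D : mat_StdRes Ω F₂ E₂) (j : E₂ →+* Ω) :
    ∃ γ : Gal(Ω/ℚ), ∀ x, j x = γ (D.ι x) := by
  let a1 : Algebra E₂ Ω := D.ι.toAlgebra
  let a2 : Algebra E₂ Ω := j.toAlgebra
  have c1 : @IsAlgClosure E₂ Ω _ _ a1 _ := @IsAlgClosure.mk E₂ Ω _ _ a1 _ hΩ (@mat_sr_isAlgebraic Ω _ _ _ E₂ _ a1)
  have c2 : @IsAlgClosure E₂ Ω _ _ a2 _ := @IsAlgClosure.mk E₂ Ω _ _ a2 _ hΩ (@mat_sr_isAlgebraic Ω _ _ _ E₂ _ a2)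
  let e := @IsAlgClosure.equiv E₂ _ _ Ω Ω _ _ a2 _ c2 a1 _ c1
  refine ⟨AlgEquiv.ofRingEquiv (f := @AlgEquiv.toRingEquiv E₂ Ω Ω _ _ _ a1 a2 e) (fun q => by simp), fun x => ?_⟩
  exact (@AlgEquiv.commutes E₂ Ω Ω _ _ _ a1 a2 e x).symm

/-- The prime `ι⁻¹ P` of `E₂` below a prime `P` of `Ω`. -/
def mat_pull (D : mat_StdRes Ω F₂ E₂) (P : Ideal (𝓞 Ω)) : Ideal (𝓞 E₂) :=
  P.comap (RingOfIntegers.mapRingHom D.ι)

theorem mat_sr_mem_pull (D : mat_StdRes Ω F₂ E₂) (P : Ideal (𝓞 Ω)) (x : 𝓞 E₂) :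
    x ∈ mat_pull D P ↔ RingOfIntegers.mapRingHom D.ι x ∈ P := Iff.rfl

theorem mat_pull_isMaximal (D : mat_StdRes Ω F₂ E₂) (P : Ideal (𝓞 Ω)) (hP : P.IsMaximal) :
    (mat_pull D P).IsMaximal := by
  let _ : Algebra E₂ Ω := D.ι.toAlgebra
  exact hilb_under_isMaximal E₂ P

theorem mat_pull_over (D : mat_StdRes Ω F₂ E₂) (P : Ideal (𝓞 Ω)) (q : ℕ) :
    Over (mat_pull D P) q ↔ Over P q := by
  unfold Over
  rw [mat_sr_mem_pull, map_natCast]

theorem mat_pull_surjective (D : mat_StdRes Ω F₂ E₂) (Q : Ideal (𝓞 E₂)) (hQ : Q.IsMaximal) :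
    ∃ P : Ideal (𝓞 Ω), P.IsMaximal ∧ mat_pull D P = Q := by
  let _ : Algebra E₂ Ω := D.ι.toAlgebra
  obtain ⟨P, hPm, hP⟩ := Ideal.exists_maximal_ideal_liesOver_of_isIntegral (S := 𝓞 Ω) Q
  exact ⟨P, hPm, hP.over.symm⟩

/-- equivariance of `𝓞 E₂ → 𝓞 Ω` -/
theorem mat_sr_map_smul (D : mat_StdRes Ω F₂ E₂) (h : D.S₂) (x : 𝓞 E₂) :
    RingOfIntegers.mapRingHom D.ι (D.ρ h • x) = h.1 • RingOfIntegers.mapRingHom D.ι x := by
  apply RingOfIntegers.ext
  exact (D.spec h (x : E₂)).symm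

theorem mat_sr_pull_smul (D : mat_StdRes Ω F₂ E₂) (h : D.S₂) (P : Ideal (𝓞 Ω)) :
    mat_pull D (h.1 • P) = D.ρ h • mat_pull D P := by
  ext x
  rw [Ideal.mem_pointwise_smul_iff_inv_smul_mem, mat_sr_mem_pull, mat_sr_mem_pull,
    Ideal.mem_pointwise_smul_iff_inv_smul_mem, ← map_inv, mat_sr_map_smul]
  rfl

theorem mat_rho_decomp (D : mat_StdRes Ω F₂ E₂) (P : Ideal (𝓞 Ω)) (h : D.S₂)
    (hh : h.1 ∈ decomp ℚ P) : D.ρ h ∈ decomp F₂ (mat_pull D P) := by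
  rw [MulAction.mem_stabilizer_iff] at hh ⊢
  rw [← mat_sr_pull_smul, hh]

theorem mat_rho_inert (D : mat_StdRes Ω F₂ E₂) (P : Ideal (𝓞 Ω)) (h : D.S₂)
    (hh : h.1 ∈ inert ℚ P) : D.ρ h ∈ inert F₂ (mat_pull D P) := by
  intro x
  change D.ρ h • x - x ∈ mat_pull D P
  rw [mat_sr_mem_pull, map_sub, mat_sr_map_smul]
  exact hh _

section overE

variable {Ω : Type} [Field Ω] [Algebra ℚ Ω]

theorem mat_srOfGal_smul (K : Type) [Field K] [Algebra K Ω] (g : Gal(Ω/K)) (y : 𝓞 Ω) :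
    mat_srOfGal K g • y = g • y := rfl

theorem mat_srOfGal_inv (K : Type) [Field K] [Algebra K Ω] (g : Gal(Ω/K)) :
    (mat_srOfGal K g)⁻¹ = mat_srOfGal K g⁻¹ := by
  ext x
  rfl

theorem mat_srOfGal_smul_ideal (K : Type) [Field K] [Algebra K Ω] (g : Gal(Ω/K))
    (P : Ideal (𝓞 Ω)) : mat_srOfGal K g • P = g • P := by
  ext y
  rw [Ideal.mem_pointwise_smul_iff_inv_smul_mem, Ideal.mem_pointwise_smul_iff_inv_smul_mem,
    mat_srOfGal_inv, mat_srOfGal_smul]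

theorem mat_sr_isGalois [Algebra.IsAlgebraic ℚ Ω] (hΩ : IsAlgClosed Ω) (K : Type) [Field K]
    [Algebra K Ω] : IsGalois K Ω := by
  have : CharZero Ω := algebraRat.charZero Ω
  have : CharZero K := ((algebraMap K Ω).charZero_iff (algebraMap K Ω).injective).mpr inferInstance
  have : Algebra.IsAlgebraic K Ω := mat_sr_isAlgebraic K
  have : IsAlgClosure K Ω := ⟨hΩ, inferInstance⟩
  have : Normal K Ω := IsAlgClosure.normal K Ω
  exact { }

end overE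

/-- elements of `Gal(Ω/ι E₂)` lie in `S₂` -/
theorem mat_sr_ofGal_mem (D : mat_StdRes Ω F₂ E₂) :
    letI : Algebra E₂ Ω := D.ι.toAlgebra
    ∀ k : Gal(Ω/E₂), mat_srOfGal E₂ k ∈ D.S₂ := by
  let _ : Algebra E₂ Ω := D.ι.toAlgebra
  intro k
  apply D.mem
  intro x
  exact k.commutes _

theorem mat_sr_rho_ofGal (D : mat_StdRes Ω F₂ E₂) :
    letI : Algebra E₂ Ω := D.ι.toAlgebra
    ∀ k : Gal(Ω/E₂), D.ρ ⟨mat_srOfGal E₂ k, mat_sr_ofGal_mem D k⟩ = 1 := by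
  let _ : Algebra E₂ Ω := D.ι.toAlgebra
  intro k
  ext x
  apply D.ι.injective
  rw [← D.spec]
  exact k.commutes x

theorem mat_rho_inert_surj (hΩ : IsAlgClosed Ω) (D : mat_StdRes Ω F₂ E₂) (P : Ideal (𝓞 Ω))
    (hP : P.IsMaximal) (g : Gal(E₂/F₂)) (hg : g ∈ inert F₂ (mat_pull D P)) :
    ∃ h : D.S₂, h.1 ∈ inert ℚ P ∧ D.ρ h = g := by
  let _ : Algebra E₂ Ω := D.ι.toAlgebra
  have hgal : IsGalois E₂ Ω := mat_sr_isGalois hΩ E₂
  have hPp : P.IsPrime := hP.isPrime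
  obtain ⟨g0, hg0⟩ := D.surj g
  have hgD : g • mat_pull D P = mat_pull D P :=
    MulAction.mem_stabilizer_iff.mp (hbas_inert_le_decomp (F := F₂) _ hg)
  have h1 : (g0.1 • P).under (𝓞 E₂) = P.under (𝓞 E₂) := by
    change mat_pull D (g0.1 • P) = mat_pull D P
    rw [mat_sr_pull_smul, hg0, hgD]
  obtain ⟨k, hk⟩ := hilb_transitive E₂ (g0.1 • P) P h1
  -- `g1 = k g0` fixes `P`
  set k' : D.S₂ := ⟨mat_srOfGal E₂ k, mat_sr_ofGal_mem D k⟩ with hk'
  set g1 : D.S₂ := k' * g0 with hg1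
  have hg1P : g1.1 • P = P := by
    rw [hg1, Subgroup.coe_mul, mul_smul, hk', mat_srOfGal_smul_ideal]
    exact hk.symm
  have hg1ρ : D.ρ g1 = g := by
    rw [hg1, map_mul, hk', mat_sr_rho_ofGal, one_mul, hg0]
  have htriv : ∀ x : 𝓞 E₂, g1.1 • algebraMap (𝓞 E₂) (𝓞 Ω) x - algebraMap (𝓞 E₂) (𝓞 Ω) x ∈ P := by
    intro x
    have h2 : g • x - x ∈ mat_pull D P := hg x
    rw [mat_sr_mem_pull, map_sub, ← hg1ρ, mat_sr_map_smul] at h2
    exact h2
  obtain ⟨k2, hk2P, hk2⟩ := hilb_key E₂ P (MulSemiringAction.toRingEquiv Gal(Ω/ℚ) (𝓞 Ω) g1.1)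
    hg1P.symm htriv
  set k2' : D.S₂ := ⟨mat_srOfGal E₂ k2, mat_sr_ofGal_mem D k2⟩ with hk2'
  refine ⟨g1 * k2'⁻¹, ?_, ?_⟩
  · intro y
    have := hk2 (k2'.1⁻¹ • y)
    have e : k2 • (k2'.1⁻¹ • y) = y := smul_inv_smul k2'.1 y
    rw [e] at this
    rw [Subgroup.coe_mul, Subgroup.coe_inv, mul_smul]
    exact this
  · rw [map_mul, map_inv, hk2', mat_sr_rho_ofGal, inv_one, mul_one, hg1ρ]

theorem mat_sr_mem_map_comap (D : mat_StdRes Ω F₂ E₂) (V : Subgroup Gal(E₂/F₂)) (h : D.S₂) :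
    h.1 ∈ (V.comap D.ρ).map D.S₂.subtype ↔ D.ρ h ∈ V := by
  constructor
  · rintro ⟨t, ht, hth⟩
    have : t = h := Subtype.ext hth
    rw [← this]
    exact ht
  · intro hh
    exact ⟨h, hh, rfl⟩

theorem mat_sr_isOpen_map_comap (D : mat_StdRes Ω F₂ E₂) (V : Subgroup Gal(E₂/F₂))
    (hV : IsOpen (V : Set Gal(E₂/F₂))) :
    IsOpen (((V.comap D.ρ).map D.S₂.subtype : Subgroup Gal(Ω/ℚ)) : Set Gal(Ω/ℚ)) := by
  rw [Subgroup.coe_map]
  exact D.isOpen.isOpenEmbedding_subtypeVal.isOpenMap _ (hV.preimage D.cont)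

theorem mat_tame_push (hΩ : IsAlgClosed Ω) (D : mat_StdRes Ω F₂ E₂) (ℓ : ℕ) [Fact ℓ.Prime]
    (V : Subgroup Gal(E₂/F₂)) (hV : IsOpen (V : Set Gal(E₂/F₂)))
    (P : Ideal (𝓞 Ω)) (hP : P.IsMaximal) (τ : D.S₂)
    (hτ : IsTameGen ℓ ((V.comap D.ρ).map D.S₂.subtype) P τ.1) :
    IsTameGen ℓ V (mat_pull D P) (D.ρ τ) := by
  have hmem : D.ρ τ ∈ inert F₂ (mat_pull D P) ⊓ V :=
    ⟨mat_rho_inert D P τ hτ.mem.1, (mat_sr_mem_map_comap D V τ).mp hτ.mem.2⟩
  refine ⟨hmem, ?_, ?_⟩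
  · intro W hW
    obtain ⟨k, hk⟩ := hτ.proL _ (mat_sr_isOpen_map_comap D W hW)
    refine ⟨k, ?_⟩
    have h1 : (τ ^ ℓ ^ k : D.S₂).1 ∈ (W.comap D.ρ).map D.S₂.subtype := hk
    rw [mat_sr_mem_map_comap, map_pow] at h1
    exact h1
  · intro c hc hcτ
    have hle : inert ℚ P ⊓ (V.comap D.ρ).map D.S₂.subtype ≤ D.S₂ :=
      inf_le_right.trans (Subgroup.map_subtype_le _)
    let r : ↥(inert ℚ P ⊓ (V.comap D.ρ).map D.S₂.subtype) →* ↥(inert F₂ (mat_pull D P) ⊓ V) :=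
      (D.ρ.comp (Subgroup.inclusion hle)).codRestrict _ (fun h =>
        ⟨mat_rho_inert D P ⟨h.1, hle h.2⟩ h.2.1,
          (mat_sr_mem_map_comap D V ⟨h.1, hle h.2⟩).mp h.2.2⟩)
    have hr : Continuous r := Continuous.subtype_mk (D.cont.comp (continuous_inclusion hle)) _
    have h1 := hτ.gen (c.comp r) (hc.comp hr) hcτ
    ext g
    obtain ⟨h, hh1, hh2⟩ := mat_rho_inert_surj hΩ D P hP g.1 g.2.1
    have hh3 : h.1 ∈ (V.comap D.ρ).map D.S₂.subtype := by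
      rw [mat_sr_mem_map_comap, hh2]
      exact g.2.2
    have h2 := DFunLike.congr_fun h1 ⟨h.1, hh1, hh3⟩
    have e : r ⟨h.1, hh1, hh3⟩ = g := Subtype.ext hh2
    rw [MonoidHom.comp_apply, e] at h2
    rw [h2]
    rfl

section ratl

variable {Ω : Type} [Field Ω] [Algebra ℚ Ω]

theorem mat_sr_under_int (P : Ideal (𝓞 Ω)) (hP : P.IsMaximal) {q : ℕ} (hq : q.Prime)
    (h : Over P q) : P.under ℤ = Ideal.span {(q : ℤ)} := by
  have hmax : (Ideal.span {(q : ℤ)}).IsMaximal :=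
    PrincipalIdealRing.isMaximal_of_irreducible (Nat.prime_iff_prime_int.mp hq).irreducible
  have hPp : P.IsPrime := hP.isPrime
  have hne : P.under ℤ ≠ ⊤ := (Ideal.IsPrime.under ℤ P).ne_top
  refine (hmax.eq_of_le hne ?_).symm
  rw [Ideal.span_singleton_le_iff_mem, Ideal.mem_under]
  have h' : (q : 𝓞 Ω) ∈ P := h
  simpa using h'

theorem mat_sr_under_rat_eq (P P' : Ideal (𝓞 Ω)) (hP : P.IsMaximal) (hP' : P'.IsMaximal) {q : ℕ}
    (hq : q.Prime) (h : Over P q) (h' : Over P' q) : P.under (𝓞 ℚ) = P'.under (𝓞 ℚ) := by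
  have key : ∀ (R : Ideal (𝓞 Ω)) (x : 𝓞 ℚ),
      x ∈ R.under (𝓞 ℚ) ↔ Rat.ringOfIntegersEquiv x ∈ R.under ℤ := by
    intro R x
    have hx : x = ((Rat.ringOfIntegersEquiv x : ℤ) : 𝓞 ℚ) := by
      conv_lhs => rw [← Rat.ringOfIntegersEquiv.symm_apply_apply x]
      exact map_intCast Rat.ringOfIntegersEquiv.symm _
    rw [Ideal.mem_under, Ideal.mem_under]
    conv_lhs => rw [hx]
    simp
  ext x
  rw [key, key, mat_sr_under_int P hP hq h, mat_sr_under_int P' hP' hq h']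

end ratl

/-- a finite field of characteristic-free description: all elements satisfy `z^q = z` ⟹ at most `q` elements -/
theorem mat_sr_card_le {K : Type*} [CommRing K] [IsDomain K] [Finite K] {q : ℕ} (hq : 1 < q)
    (h : ∀ z : K, z ^ q = z) : Nat.card K ≤ q := by
  classical
  have : Fintype K := Fintype.ofFinite K
  have hdeg : (Polynomial.X ^ q - Polynomial.X : Polynomial K).natDegree = q := by
    have h1 : (Polynomial.X : Polynomial K).degree < (Polynomial.X ^ q : Polynomial K).degree := by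
      rw [Polynomial.degree_X_pow, Polynomial.degree_X]
      exact mod_cast hq
    rw [Polynomial.natDegree_eq_of_degree_eq (Polynomial.degree_sub_eq_left_of_degree_lt h1),
      Polynomial.natDegree_X_pow]
  have hne : (Polynomial.X ^ q - Polynomial.X : Polynomial K) ≠ 0 :=
    Polynomial.ne_zero_of_natDegree_gt (n := 1) (by rw [hdeg]; exact hq)
  have h1 := Polynomial.card_le_degree_of_subset_roots
    (p := (Polynomial.X ^ q - Polynomial.X : Polynomial K)) (Z := Finset.univ) (by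
      intro z _
      rw [Polynomial.mem_roots hne]
      simp [h z])
  rw [hdeg] at h1
  rw [Nat.card_eq_fintype_card]
  exact h1

theorem mat_frob_transport (hΩ : IsAlgClosed Ω) (D : mat_StdRes Ω F₂ E₂)
    (V : Subgroup Gal(E₂/F₂)) (hV : IsOpen (V : Set Gal(E₂/F₂)))
    (U' : Subgroup Gal(Ω/ℚ)) [U'.Normal] (hU' : IsOpen (U' : Set Gal(Ω/ℚ))) (hUS : U' ≤ D.S₂)
    (hρV : ∀ h : U', D.ρ ⟨h.1, hUS h.2⟩ ∈ V)
    (q : ℕ) (hq : q.Prime) (P : Ideal (𝓞 Ω)) (hP : P.IsMaximal) (hPq : Over P q)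
    (hN : normAt U' P = q) (σ : U') (hσ : IsFrob U' P σ.1)
    (Q : Ideal (𝓞 E₂)) (hQ : Q.IsMaximal) (hQq : Over Q q) :
    ∃ γ : Gal(Ω/ℚ), IsFrob V Q (mat_res D.ρ hUS hρV (MulAut.conjNormal γ⁻¹ σ)).1 ∧
      normAt V Q = q := by
  obtain ⟨P', hP', hP'Q⟩ := mat_pull_surjective D Q hQ
  have hP'q : Over P' q := (mat_pull_over D P' q).mp (hP'Q ▸ hQq)
  have hPp : P.IsPrime := hP.isPrime
  have hP'p : P'.IsPrime := hP'.isPrime
  obtain ⟨g, hg⟩ := hilb_transitive ℚ P P' (mat_sr_under_rat_eq P P' hP hP' hq hPq hP'q)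
  refine ⟨g⁻¹, ?_⟩
  rw [inv_inv]
  set σ' : U' := MulAut.conjNormal g σ with hσ'
  have hσ'1 : σ'.1 = g * σ.1 * g⁻¹ := by rw [hσ', MulAut.conjNormal_apply]
  -- Frobenius property at `P'`
  have hfr : ∀ y : 𝓞 Ω, σ'.1 • y - y ^ q ∈ P' := by
    intro y
    rw [hg, Ideal.mem_pointwise_smul_iff_inv_smul_mem, smul_sub, smul_pow', hσ'1, mul_smul,
      mul_smul, inv_smul_smul]
    have := hσ.2 (g⁻¹ • y)
    rwa [hN] at this
  set τ : Gal(E₂/F₂) := D.ρ ⟨σ'.1, hUS σ'.2⟩ with hτ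
  have hτV : τ ∈ V := hρV σ'
  have hfrQ : ∀ x : 𝓞 E₂, τ • x - x ^ q ∈ Q := by
    intro x
    rw [← hP'Q, mat_sr_mem_pull, map_sub, map_pow, hτ, mat_sr_map_smul]
    exact hfr _
  have hnorm : normAt V Q = q := by
    obtain ⟨f, hf0, -, hf⟩ := hbas_normAt V hV Q hq hQq
    have hfin : Finite (𝓞 (fld V) ⧸ below V Q) := by
      apply Nat.finite_of_card_ne_zero
      change normAt V Q ≠ 0
      rw [hf]
      exact pow_ne_zero _ hq.ne_zero
    have hmax : (below V Q).IsMaximal := hbas_below_isMaximal V Q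
    have hdom : IsDomain (𝓞 (fld V) ⧸ below V Q) := Ideal.Quotient.isDomain _
    have hz : ∀ z : 𝓞 (fld V) ⧸ below V Q, z ^ q = z := by
      intro z
      obtain ⟨a, rfl⟩ := Ideal.Quotient.mk_surjective z
      rw [← map_pow, eq_comm, Ideal.Quotient.eq, Ideal.mem_under, map_sub, map_pow]
      have h1 := hfrQ (algebraMap (𝓞 (fld V)) (𝓞 E₂) a)
      have h2 : τ • algebraMap (𝓞 (fld V)) (𝓞 E₂) a = algebraMap (𝓞 (fld V)) (𝓞 E₂) a := by
        apply RingOfIntegers.ext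
        exact (a : fld V).2 ⟨τ, hτV⟩
      rwa [h2] at h1
    have hle := mat_sr_card_le hq.one_lt hz
    change normAt V Q ≤ q at hle
    rw [hf] at hle ⊢
    have : f ≤ 1 := by
      by_contra hlt
      have h2 : q ^ 2 ≤ q ^ f := Nat.pow_le_pow_right hq.pos (by omega)
      have h3 : q < q ^ 2 := by nlinarith [hq.one_lt]
      omega
    have : f = 1 := by omega
    rw [this, pow_one]
  refine ⟨⟨hτV, fun y => ?_⟩, hnorm⟩
  rw [hnorm]
  exact hfrQ y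

end Claimed.Agent.R239
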