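/-
Row 239 / MATCH (owner helper92; proofs helper110).  Faithfulness of the action on character spaces
(generalises the last sentence of Prop 3.3), the centraliser lemma (Lemma 2.3) and the sign character of
`ℚ(i)`.  All from XL (I1)-(I3) of `Iface` (`xl_finite`, `xl_finrank_diff`, `xchar_res_injective`,
`xchar_res_range`) by dimension counts in the style of helper28(e).  No sorry of its own.
-/
import Claimed.Agent.R239.MATCH.StdRes
import Claimed.Agent.R239.Solv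

set_option autoImplicit false

namespace Claimed.Agent.R239

open NumberField Claims.C0403
open scoped Pointwise

section Intrinsic

variable {F E : Type} [Field F] [NumberField F] [Field E] [Algebra F E] [IsGalois F E]

/-- a number field containing a square root of `-1` has no real place. -/
theorem mat_nrReal_eq_zero (K : Type*) [Field K] [NumberField K] (hi : ∃ x : K, x * x = -1) :
    InfinitePlace.nrRealPlaces K = 0 := by
  obtain ⟨x, hx⟩ := hi
  classical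
  rw [InfinitePlace.nrRealPlaces]
  apply Fintype.card_eq_zero_iff.2
  constructor
  rintro ⟨w, hw⟩
  have h1 : (InfinitePlace.embedding_of_isReal hw x) * (InfinitePlace.embedding_of_isReal hw x)
      = -1 := by
    rw [← map_mul, hx, map_neg, map_one]
  nlinarith [mul_self_nonneg (InfinitePlace.embedding_of_isReal hw x)]

omit [NumberField F] in
theorem mat_fld_lt (W W' : Subgroup Gal(E/F)) (hW : IsOpen (W : Set Gal(E/F))) (hlt : W < W') :
    fld W' < fld W := by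
  have hW' : IsOpen (W' : Set Gal(E/F)) := Subgroup.isOpen_mono hlt.le hW
  have hle : fld W' ≤ fld W := fun x hx g => hx ⟨g.1, hlt.le g.2⟩
  refine lt_of_le_of_ne hle fun h => ?_
  have h1 : (fld W).fixingSubgroup = W := InfiniteGalois.fixingSubgroup_fixedField
    (⟨W, Subgroup.isClosed_of_isOpen W hW⟩ : ClosedSubgroup Gal(E/F))
  have h2 : (fld W').fixingSubgroup = W' := InfiniteGalois.fixingSubgroup_fixedField
    (⟨W', Subgroup.isClosed_of_isOpen W' hW'⟩ : ClosedSubgroup Gal(E/F))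
  rw [h, h1] at h2
  exact hlt.ne h2

theorem mat_r2_lt (W W' : Subgroup Gal(E/F)) (hW : IsOpen (W : Set Gal(E/F))) (hlt : W < W')
    (hi : ∃ x ∈ fld W, x * x = -1) [NumberField (fld W)] [NumberField (fld W')] :
    InfinitePlace.nrComplexPlaces (fld W') < InfinitePlace.nrComplexPlaces (fld W) := by
  have hlt' := mat_fld_lt W W' hW hlt
  have h0 : InfinitePlace.nrRealPlaces (fld W) = 0 := by
    obtain ⟨x, hx, hxx⟩ := hi
    exact mat_nrReal_eq_zero _ ⟨⟨x, hx⟩, Subtype.ext hxx⟩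
  have h1 := InfinitePlace.card_add_two_mul_card_eq_rank (fld W)
  have h2 := InfinitePlace.card_add_two_mul_card_eq_rank (fld W')
  have h3 := IntermediateField.finrank_bot_mul_relfinrank hlt'.le
  have h4 : Module.finrank ℚ F * Module.finrank F (fld W) = Module.finrank ℚ (fld W) :=
    Module.finrank_mul_finrank ℚ F (fld W)
  have h5 : Module.finrank ℚ F * Module.finrank F (fld W') = Module.finrank ℚ (fld W') :=
    Module.finrank_mul_finrank ℚ F (fld W')
  have h6 : (fld W').relfinrank (fld W) ≠ 1 := fun h =>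
    hlt'.not_ge (IntermediateField.relfinrank_eq_one_iff.1 h)
  have h7 : 0 < Module.finrank ℚ (fld W) := Module.finrank_pos
  have h8 : (fld W').relfinrank (fld W) ≠ 0 := by
    intro h
    rw [h, mul_zero] at h3
    rw [← h3, mul_zero] at h4
    omega
  have h9 : 2 ≤ (fld W').relfinrank (fld W) := by omega
  have h10 : Module.finrank ℚ (fld W) = Module.finrank ℚ (fld W') * (fld W').relfinrank (fld W) := by
    rw [← h4, ← h3, ← h5, mul_assoc]
  have h11 : 2 * Module.finrank ℚ (fld W') ≤ Module.finrank ℚ (fld W) := by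
    rw [h10, mul_comm]
    exact Nat.mul_le_mul_left _ h9
  simp only [InfinitePlace.nrRealPlaces, InfinitePlace.nrComplexPlaces] at *
  omega

theorem mat_faith_intrinsic (hE : SolvablyClosed E) (r : ℕ) [Fact r.Prime] (hr : r ≠ 2)
    (W N : Subgroup Gal(E/F)) [N.Normal] (hN : IsOpen (N : Set Gal(E/F))) (hNW : N ≤ W)
    (hi : ∃ x ∈ fld W, x * x = -1) (b : Gal(E/F))
    (hb : ∀ (x : XChar r W) (h : N), x.1 ⟨h.1, hNW h.2⟩ =
      x.1 ⟨(MulAut.conjNormal b⁻¹ h : N).1, hNW (MulAut.conjNormal b⁻¹ h : N).2⟩) : b ∈ W := by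
  by_contra hbW
  have hW : IsOpen (W : Set Gal(E/F)) := Subgroup.isOpen_mono hNW hN
  set W' : Subgroup Gal(E/F) := W ⊔ Subgroup.zpowers b with hW'def
  have hWW' : W ≤ W' := le_sup_left
  have hbW' : b ∈ W' := (le_sup_right : Subgroup.zpowers b ≤ W') (Subgroup.mem_zpowers b)
  have hlt : W < W' := lt_of_le_of_ne hWW' fun h => hbW (h ▸ hbW')
  have hW' : IsOpen (W' : Set Gal(E/F)) := Subgroup.isOpen_mono hWW' hW
  have := hil_numberField W hW
  have := hil_numberField W' hW'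
  have hsurj : Function.Surjective (XChar.res (ℓ := r) hWW') := by
    intro y
    have hinv : ∀ u ∈ W', XChar.conj N u (XChar.res hNW y) = XChar.res hNW y := by
      have h1 : W ≤ genStab N (XChar.res hNW y) := fun u hu => gen_res_mem_xinv N W hNW y u hu
      have h2 : Subgroup.zpowers b ≤ genStab N (XChar.res hNW y) := by
        rw [Subgroup.zpowers_le]
        show XChar.conj N b (XChar.res hNW y) = XChar.res hNW y
        ext h
        rw [XChar.conj_apply, XChar.res_apply, XChar.res_apply, hb y h]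
        congr 2
      exact fun u hu => (sup_le h1 h2) hu
    obtain ⟨z, hz⟩ := (xchar_res_range hN (hNW.trans hWW') (XChar.res hNW y)).2 hinv
    refine ⟨z, xchar_res_injective hN hNW ?_⟩
    rw [← hz]
    rfl
  have := xl_finite hE hr W' hW'
  have := xl_finite hE hr W hW
  have h1 : Module.finrank ℚ_[r] (XChar r W) ≤ Module.finrank ℚ_[r] (XChar r W') :=
    LinearMap.finrank_le_finrank_of_surjective hsurj
  have h2 := xl_finrank_diff hE hr W' W hW hWW'
  have h3 := mat_r2_lt W W' hW hlt hi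
  omega

end Intrinsic
/-- A solvably closed field has no closed normal subgroup with abelian quotient in any of its Galois groups. -/
theorem mat_closed_normal_eq_top {E Ω : Type} [Field E] [Field Ω] [Algebra E Ω] [IsGalois E Ω]
    (hE : SolvablyClosed E) (H : Subgroup Gal(Ω/E)) (hH : IsClosed (H : Set Gal(Ω/E))) [H.Normal]
    (hab : ∀ a b : Gal(Ω/E), a * b * a⁻¹ * b⁻¹ ∈ H) : H = ⊤ := by
  have hfix : (IntermediateField.fixedField H).fixingSubgroup = H :=
    InfiniteGalois.fixingSubgroup_fixedField (⟨H, hH⟩ : ClosedSubgroup Gal(Ω/E))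
  have hn : (IntermediateField.fixedField H).fixingSubgroup.Normal := by rw [hfix]; infer_instance
  have hgal : IsGalois E (IntermediateField.fixedField H) :=
    (InfiniteGalois.normal_iff_isGalois _).1 hn
  have hcomm : IsAbelianGalois E (IntermediateField.fixedField H) :=
    { is_comm.comm := fun x y => by
        obtain ⟨x, rfl⟩ := AlgEquiv.restrictNormalHom_surjective Ω x
        obtain ⟨y, rfl⟩ := AlgEquiv.restrictNormalHom_surjective Ω y
        have h1 : x * y * x⁻¹ * y⁻¹ ∈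
            (AlgEquiv.restrictNormalHom (IntermediateField.fixedField H) : Gal(Ω/E) →* _).ker := by
          rw [IntermediateField.restrictNormalHom_ker, hfix]
          exact hab x y
        rw [MonoidHom.mem_ker, map_mul, map_mul, map_mul, map_inv, map_inv] at h1
        have h2 := congrArg (fun z => z * AlgEquiv.restrictNormalHom _ y
          * AlgEquiv.restrictNormalHom _ x) h1
        simpa [mul_assoc] using h2 }
  have hs := solv_no_abelian hE (IntermediateField.fixedField H)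
  have hbot : IntermediateField.fixedField H = ⊥ := by
    rw [eq_bot_iff]
    intro z hz
    obtain ⟨e, he⟩ := hs ⟨z, hz⟩
    rw [IntermediateField.mem_bot]
    exact ⟨e, congrArg Subtype.val he⟩
  rw [← hfix, hbot, IntermediateField.fixingSubgroup_bot]

/-- additive characters of a Galois group over a solvably closed field vanish. -/
theorem mat_xchar_eq_zero {E Ω : Type} [Field E] [Field Ω] [Algebra E Ω] [IsGalois E Ω]
    (hE : SolvablyClosed E) (r : ℕ) [Fact r.Prime] (y : XChar r Gal(Ω/E)) : y = 0 := by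
  ext g
  show y.1 g = 0
  by_contra hne
  have hpos : 0 < ‖y.1 g‖ := norm_pos_iff.2 hne
  let H : Subgroup Gal(Ω/E) :=
    { carrier := {h | ‖y.1 h‖ < ‖y.1 g‖}
      one_mem' := by simpa [XChar.map_one y] using hpos
      mul_mem' := fun {a b} ha hb => by
        simp only [Set.mem_ofPred_eq] at ha hb ⊢
        rw [XChar.map_mul y]
        exact lt_of_le_of_lt (Padic.nonarchimedean _ _) (max_lt ha hb)
      inv_mem' := fun {a} ha => by
        simp only [Set.mem_ofPred_eq] at ha ⊢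
        rwa [XChar.map_inv y, norm_neg] }
  have hopen : IsOpen (H : Set Gal(Ω/E)) :=
    isOpen_lt ((XChar.continuous y).norm) continuous_const
  have hnorm : H.Normal := ⟨fun n hn a => by
    show ‖y.1 (a * n * a⁻¹)‖ < ‖y.1 g‖
    rw [XChar.map_conj y]
    exact hn⟩
  have htop := mat_closed_normal_eq_top hE H (Subgroup.isClosed_of_isOpen H hopen) (fun a b => by
    show ‖y.1 (a * b * a⁻¹ * b⁻¹)‖ < ‖y.1 g‖
    rw [XChar.map_mul y, XChar.map_conj y, XChar.map_inv y, add_neg_cancel, norm_zero]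
    exact hpos)
  have : g ∈ H := htop ▸ Subgroup.mem_top g
  exact lt_irrefl ‖y.1 g‖ this

variable {Ω : Type} [Field Ω] [Algebra ℚ Ω] [IsGalois ℚ Ω]
variable {F₂ E₂ : Type} [Field F₂] [NumberField F₂] [Field E₂] [Algebra F₂ E₂] [IsGalois F₂ E₂]

omit [IsGalois F₂ E₂] in
/-- additive characters kill `ker ρ`. -/
theorem mat_char_kills_ker (hΩ : IsAlgClosed Ω) (hE₂ : SolvablyClosed E₂) (D : mat_StdRes Ω F₂ E₂)
    (r : ℕ) [Fact r.Prime] (W : Subgroup Gal(Ω/ℚ)) (x : XChar r W)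
    (hW : ∀ h : D.S₂, D.ρ h = 1 → h.1 ∈ W) (h : D.S₂) (hh : D.ρ h = 1) :
    x.1 ⟨h.1, hW h hh⟩ = 0 := by
  have : CharZero E₂ := charZero_of_injective_algebraMap (algebraMap F₂ E₂).injective
  let _ : Algebra E₂ Ω := D.ι.toAlgebra
  have hst : IsScalarTower ℚ E₂ Ω := IsScalarTower.of_algebraMap_eq' (Subsingleton.elim _ _)
  have : Algebra.IsAlgebraic E₂ Ω := Algebra.IsAlgebraic.tower_top (K := ℚ) E₂
  have : IsAlgClosure E₂ Ω := ⟨hΩ, inferInstance⟩
  have : IsGalois E₂ Ω := inferInstance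
  let j : Gal(Ω/E₂) →* Gal(Ω/ℚ) := AlgEquiv.restrictScalarsHom ℚ
  have hj : ∀ (γ : Gal(Ω/E₂)) (z : Ω), j γ z = γ z := fun _ _ => rfl
  have hjc : Continuous j := by
    apply bc_continuous_of_stab
    intro z
    have := stabilizer_isOpen_of_isIntegral (K := E₂) (L := Ω) z
    convert this using 1
    ext g
    rfl
  have hfix : ∀ (γ : Gal(Ω/E₂)) (e : E₂), j γ (D.ι e) = D.ι e := fun γ e => γ.commutes e
  have hS : ∀ γ : Gal(Ω/E₂), j γ ∈ D.S₂ := fun γ => D.mem _ fun e => hfix γ _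
  have hρ : ∀ γ : Gal(Ω/E₂), D.ρ ⟨j γ, hS γ⟩ = 1 := fun γ => by
    ext e
    apply D.ι.injective
    rw [← D.spec ⟨j γ, hS γ⟩ e]
    exact hfix γ e
  let J : Gal(Ω/E₂) →* W := j.codRestrict W fun γ => hW ⟨j γ, hS γ⟩ (hρ γ)
  have hJc : Continuous J := hjc.subtype_mk _
  have hy := mat_xchar_eq_zero hE₂ r (XChar.comap J hJc x)
  have hcomm : ∀ e : E₂, h.1 (D.ι e) = D.ι e := fun e => by
    have := D.spec h e
    rw [hh] at this
    exact this
  let γ : Gal(Ω/E₂) := { h.1 with commutes' := hcomm }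
  have h1 : J γ = ⟨h.1, hW h hh⟩ := by
    apply Subtype.ext
    ext z
    rfl
  have h2 := congrArg (fun f => f.1 γ) hy
  simp only [XChar.comap_apply, h1] at h2
  exact h2

theorem mat_char_factors (hΩ : IsAlgClosed Ω) (hE₂ : SolvablyClosed E₂) (D : mat_StdRes Ω F₂ E₂)
    (r : ℕ) [Fact r.Prime] (V : Subgroup Gal(E₂/F₂)) (hV : IsOpen (V : Set Gal(E₂/F₂)))
    (x : XChar r ((V.comap D.ρ).map D.S₂.subtype : Subgroup Gal(Ω/ℚ))) :
    ∃ x' : XChar r V, ∀ (h : D.S₂) (hV' : D.ρ h ∈ V)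
      (hW : h.1 ∈ ((V.comap D.ρ).map D.S₂.subtype : Subgroup Gal(Ω/ℚ))),
      x.1 ⟨h.1, hW⟩ = x'.1 ⟨D.ρ h, hV'⟩ := by
  have hmem : ∀ h : D.S₂, D.ρ h ∈ V →
      h.1 ∈ ((V.comap D.ρ).map D.S₂.subtype : Subgroup Gal(Ω/ℚ)) := fun h hh =>
    Subgroup.mem_map.2 ⟨h, hh, rfl⟩
  have hker := mat_char_kills_ker hΩ hE₂ D r _ x (fun h hh => hmem h (hh ▸ V.one_mem))
  choose s hs using D.surj
  have hsV : ∀ v : V, D.ρ (s v.1) ∈ V := fun v => (hs v.1).symm ▸ v.2
  -- the key property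
  have key : ∀ (h h' : D.S₂) (hh : D.ρ h ∈ V) (hh' : D.ρ h' ∈ V), D.ρ h = D.ρ h' →
      x.1 ⟨h.1, hmem h hh⟩ = x.1 ⟨h'.1, hmem h' hh'⟩ := by
    intro h h' hh hh' heq
    have hk : D.ρ (h'⁻¹ * h) = 1 := by rw [map_mul, map_inv, heq, inv_mul_cancel]
    have h1 := hker (h'⁻¹ * h) hk
    have h2 : (⟨h.1, hmem h hh⟩ : ((V.comap D.ρ).map D.S₂.subtype : Subgroup Gal(Ω/ℚ)))
        = ⟨h'.1, hmem h' hh'⟩ * ⟨(h'⁻¹ * h).1, hmem _ (hk ▸ V.one_mem)⟩ := by
      apply Subtype.ext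
      simp
    rw [h2, XChar.map_mul x, h1, add_zero]
  let f : V → ℚ_[r] := fun v => x.1 ⟨(s v.1).1, hmem _ (hsV v)⟩
  have hf : ∀ (h : D.S₂) (hV' : D.ρ h ∈ V), x.1 ⟨h.1, hmem h hV'⟩ = f ⟨D.ρ h, hV'⟩ :=
    fun h hV' => key h (s (D.ρ h)) hV' (hsV ⟨D.ρ h, hV'⟩) (hs _).symm
  have hadd : ∀ v w : V, f (v * w) = f v + f w := by
    intro v w
    have h1 : D.ρ (s v.1 * s w.1) ∈ V := by rw [map_mul, hs, hs]; exact V.mul_mem v.2 w.2
    have h2 : f (v * w) = x.1 ⟨(s v.1 * s w.1).1, hmem _ h1⟩ :=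
      key (s (v * w).1) (s v.1 * s w.1) (hsV (v * w)) h1 (by rw [map_mul, hs, hs, hs]; rfl)
    rw [h2]
    exact XChar.map_mul x ⟨(s v.1).1, hmem _ (hsV v)⟩ ⟨(s w.1).1, hmem _ (hsV w)⟩
  -- continuity
  have hS₂c : IsClosed (D.S₂ : Set Gal(Ω/ℚ)) := Subgroup.isClosed_of_isOpen _ D.isOpen
  have : CompactSpace D.S₂ := isCompact_iff_compactSpace.1 hS₂c.isCompact
  have hW₀o : IsOpen ((V.comap D.ρ : Subgroup D.S₂) : Set D.S₂) := hV.preimage D.cont
  have : CompactSpace ↥(V.comap D.ρ : Subgroup D.S₂) :=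
    isCompact_iff_compactSpace.1 (Subgroup.isClosed_of_isOpen _ hW₀o).isCompact
  let ρW : ↥(V.comap D.ρ : Subgroup D.S₂) → V := fun h => ⟨D.ρ h.1, h.2⟩
  have hρWc : Continuous ρW := (D.cont.comp continuous_subtype_val).subtype_mk _
  have hρWs : Function.Surjective ρW := fun v => ⟨⟨s v.1, hsV v⟩, Subtype.ext (hs v.1)⟩
  have hq : Topology.IsQuotientMap ρW := hρWc.isClosedMap.isQuotientMap hρWc hρWs
  have hfc : Continuous f := by
    rw [hq.continuous_iff]
    have : f ∘ ρW = fun h : ↥(V.comap D.ρ : Subgroup D.S₂) => x.1 ⟨h.1.1, hmem h.1 h.2⟩ := by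
      funext h
      exact (hf h.1 h.2).symm
    rw [this]
    exact (XChar.continuous x).comp
      ((continuous_subtype_val.comp continuous_subtype_val).subtype_mk _)
  exact ⟨⟨f, hfc, hadd⟩, fun h hV' _ => hf h hV'⟩

theorem mat_faith (hΩ : IsAlgClosed Ω) (hE₂ : SolvablyClosed E₂) (D : mat_StdRes Ω F₂ E₂)
    (r : ℕ) [Fact r.Prime] (hr : r ≠ 2)
    (V : Subgroup Gal(E₂/F₂)) [V.Normal] (hV : IsOpen (V : Set Gal(E₂/F₂)))
    (hi : ∃ x ∈ fld V, x * x = -1)
    (U' : Subgroup Gal(Ω/ℚ)) [U'.Normal] (hU' : IsOpen (U' : Set Gal(Ω/ℚ))) (hUS : U' ≤ D.S₂)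
    (hρV : ∀ h : U', D.ρ ⟨h.1, hUS h.2⟩ ∈ V) (b : Gal(Ω/ℚ))
    (hb : ∀ (x : XChar r V) (h : U'),
        x.1 (mat_res D.ρ hUS hρV h) = x.1 (mat_res D.ρ hUS hρV (MulAut.conjNormal b⁻¹ h))) :
    ∃ hb : b ∈ D.S₂, D.ρ ⟨b, hb⟩ ∈ V := by
  have hNW : U' ≤ ((V.comap D.ρ).map D.S₂.subtype : Subgroup Gal(Ω/ℚ)) := fun h hh =>
    Subgroup.mem_map.2 ⟨⟨h, hUS hh⟩, hρV ⟨h, hh⟩, rfl⟩
  have hi' : ∃ x ∈ fld ((V.comap D.ρ).map D.S₂.subtype : Subgroup Gal(Ω/ℚ)), x * x = -1 := by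
    obtain ⟨x₀, hx₀, hxx⟩ := hi
    refine ⟨D.ι x₀, ?_, by rw [← map_mul, hxx, map_neg, map_one]⟩
    rintro ⟨g, hg⟩
    obtain ⟨h, hh, rfl⟩ := Subgroup.mem_map.1 hg
    show h.1 (D.ι x₀) = D.ι x₀
    rw [D.spec h x₀]
    congr 1
    exact hx₀ ⟨D.ρ h, hh⟩
  have hbW := mat_faith_intrinsic (mat_solvablyClosed_of_isAlgClosed hΩ) r hr
    ((V.comap D.ρ).map D.S₂.subtype : Subgroup Gal(Ω/ℚ)) U' hU' hNW hi' b (by
      intro x h
      obtain ⟨x', hx'⟩ := mat_char_factors hΩ hE₂ D r V hV x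
      rw [hx' ⟨h.1, hUS h.2⟩ (hρV h) (hNW h.2),
        hx' ⟨(MulAut.conjNormal b⁻¹ h : U').1, hUS (MulAut.conjNormal b⁻¹ h : U').2⟩
          (hρV (MulAut.conjNormal b⁻¹ h)) (hNW (MulAut.conjNormal b⁻¹ h : U').2)]
      exact hb x' h)
  obtain ⟨h, hh, rfl⟩ := Subgroup.mem_map.1 hbW
  exact ⟨h.2, hh⟩

/-- The family `VV` of levels used by the engine: normal subgroups with open carrier whose field contains `i`.
It is non-empty, directed and separating (Krull topology; `i ∈ E₂` because `X^2+1` has commutative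
Galois group, so it splits in the solvably closed `E₂`). -/
def mat_VV (F₂ E₂ : Type) [Field F₂] [Field E₂] [Algebra F₂ E₂] : Set (Subgroup Gal(E₂/F₂)) :=
  {V | V.Normal ∧ IsOpen (V : Set Gal(E₂/F₂)) ∧ ∃ x ∈ fld V, x * x = -1}

omit [NumberField F₂] in
theorem mat_VV_exists_le (hE₂ : SolvablyClosed E₂) (A : Subgroup Gal(E₂/F₂))
    (hA : IsOpen (A : Set Gal(E₂/F₂))) : ∃ V ∈ mat_VV F₂ E₂, V ≤ A := by
  obtain ⟨y, hy⟩ := solv_exists_root hE₂ (n := 2) (by norm_num) (-1 : E₂)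
  have hS := stabilizer_isOpen_of_isIntegral (K := F₂) (L := E₂) y
  have hAS : IsOpen ((A : Set Gal(E₂/F₂)) ∩ (MulAction.stabilizer Gal(E₂/F₂) y : Set Gal(E₂/F₂))) :=
    hA.inter hS
  obtain ⟨H, hH⟩ := ProfiniteGrp.exist_openNormalSubgroup_sub_open_nhds_of_one hAS
    ⟨A.one_mem, (MulAction.stabilizer Gal(E₂/F₂) y).one_mem⟩
  refine ⟨H.toSubgroup, ⟨H.isNormal', H.isOpen', y, ?_, by rw [← sq, hy]⟩, fun g hg => (hH hg).1⟩
  rintro ⟨g, hg⟩
  exact (hH hg).2

omit [NumberField F₂] in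
theorem mat_VV_spec (hE₂ : SolvablyClosed E₂) :
    (mat_VV F₂ E₂).Nonempty ∧
    (∀ V₁ ∈ mat_VV F₂ E₂, ∀ V₂ ∈ mat_VV F₂ E₂, ∃ V ∈ mat_VV F₂ E₂, V ≤ V₁ ⊓ V₂) ∧
    (∀ A : Subgroup Gal(E₂/F₂), IsOpen (A : Set Gal(E₂/F₂)) → ∃ V ∈ mat_VV F₂ E₂, V ≤ A) ∧
    (∀ g : Gal(E₂/F₂), (∀ V ∈ mat_VV F₂ E₂, g ∈ V) → g = 1) := by
  refine ⟨?_, ?_, mat_VV_exists_le hE₂, ?_⟩
  · obtain ⟨V, hV, -⟩ := mat_VV_exists_le (F₂ := F₂) hE₂ ⊤ isOpen_univ
    exact ⟨V, hV⟩
  · intro V₁ h₁ V₂ h₂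
    apply mat_VV_exists_le hE₂
    rw [Subgroup.coe_inf]
    exact h₁.2.1.inter h₂.2.1
  · intro g hg
    ext x
    obtain ⟨V, hV, hle⟩ := mat_VV_exists_le hE₂ (MulAction.stabilizer Gal(E₂/F₂) x)
      (stabilizer_isOpen_of_isIntegral (K := F₂) (L := E₂) x)
    exact hle (hg V hV)

/-- D1 = Lemma 2.3 (general solvably closed pair).  For `V ∈ VV`, `V ≤ A`: `a` centralises `V`, so
`mat_faith_intrinsic` (`W = N = V`, `b = a`) gives `a ∈ V`; `VV` is separating. -/
theorem mat_centralizer (hE₂ : SolvablyClosed E₂) (A : Subgroup Gal(E₂/F₂))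
    (hA : IsOpen (A : Set Gal(E₂/F₂))) (a : Gal(E₂/F₂)) (ha : ∀ g ∈ A, a * g = g * a) : a = 1 := by
  apply (mat_VV_spec hE₂).2.2.2
  intro V₀ hV₀
  have hAV : IsOpen ((A ⊓ V₀ : Subgroup Gal(E₂/F₂)) : Set Gal(E₂/F₂)) := by
    rw [Subgroup.coe_inf]
    exact hA.inter hV₀.2.1
  obtain ⟨V, hV, hle⟩ := mat_VV_exists_le hE₂ (A ⊓ V₀) hAV
  have := hV.1
  have : Fact (Nat.Prime 3) := ⟨by norm_num⟩
  refine (hle (mat_faith_intrinsic hE₂ 3 (by norm_num) V V hV.2.1 le_rfl hV.2.2 a ?_)).2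
  intro x h
  have h1 := ha h.1 (hle h.2).1
  have h2 : (MulAut.conjNormal a⁻¹ h : V) = h := by
    apply Subtype.ext
    rw [MulAut.conjNormal_apply, inv_inv, mul_assoc, ← h1, inv_mul_cancel_left]
  rw [h2]

section Sign

variable {Qs : Type} [Field Qs] [Algebra ℚ Qs] [IsGalois ℚ Qs]

/-- `P_B`, `B = ℚ(i)`. -/
def mat_VB (Qs : Type) [Field Qs] [Algebra ℚ Qs] : Subgroup Gal(Qs/ℚ) :=
  (IntermediateField.adjoin ℚ {x : Qs | x * x = -1}).fixingSubgroup

omit [Algebra ℚ Qs] [IsGalois ℚ Qs] in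
theorem mat_sq_eq {i x : Qs} (hi : i * i = -1) (hx : x * x = -1) : x = i ∨ x = -i := by
  have : (x - i) * (x + i) = 0 := by linear_combination hx - hi
  rcases mul_eq_zero.1 this with h | h
  · left; linear_combination h
  · right; linear_combination h

omit [IsGalois ℚ Qs] in
theorem mat_VB_mem_iff {i : Qs} (hi : i * i = -1) (g : Gal(Qs/ℚ)) : g ∈ mat_VB Qs ↔ g i = i := by
  unfold mat_VB
  rw [IntermediateField.mem_fixingSubgroup_iff]
  constructor
  · intro h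
    exact h i (IntermediateField.subset_adjoin _ _ hi)
  · intro h
    have := (IntermediateField.forall_mem_adjoin_smul_eq_self_iff ℚ
      (S := {x : Qs | x * x = -1}) g).2 (by
        intro x hx
        rcases mat_sq_eq hi hx with rfl | rfl
        · exact h
        · show g (-i) = -i
          rw [map_neg, h])
    exact this

omit [IsGalois ℚ Qs] in
theorem mat_VB_notMem {i : Qs} (hi : i * i = -1) {g : Gal(Qs/ℚ)} (hg : g ∉ mat_VB Qs) :
    g i = -i := by
  have h1 : g i * g i = -1 := by rw [← map_mul, hi, map_neg, map_one]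
  rcases mat_sq_eq hi h1 with h | h
  · exact absurd ((mat_VB_mem_iff hi g).2 h) hg
  · exact h

omit [IsGalois ℚ Qs] in
theorem mat_i_ne {i : Qs} (hi : i * i = -1) : -i ≠ i := by
  intro h
  have : CharZero Qs := charZero_of_injective_algebraMap (algebraMap ℚ Qs).injective
  have h2 : (2 : Qs) * i = 0 := by linear_combination -h
  have h3 : i = 0 := by simpa using h2
  rw [h3] at hi
  simp at hi

theorem mat_VB_exists_notMem {i : Qs} (hi : i * i = -1) : ∃ c : Gal(Qs/ℚ), c ∉ mat_VB Qs := by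
  by_contra hcon
  push Not at hcon
  have h1 : i ∈ (⊥ : IntermediateField ℚ Qs) :=
    (InfiniteGalois.mem_bot_iff_fixed i).2 fun f => (mat_VB_mem_iff hi f).1 (hcon f)
  obtain ⟨q, hq⟩ := IntermediateField.mem_bot.1 h1
  have h2 : algebraMap ℚ Qs (q * q) = algebraMap ℚ Qs (-1) := by
    rw [map_mul, hq, hi, map_neg, map_one]
  have h3 := (algebraMap ℚ Qs).injective h2
  nlinarith [mul_self_nonneg q]

/-- `P_B` is normal, has open carrier, index 2, and `fld P_B ∋ i`. -/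
theorem mat_VB_spec (hQs : SolvablyClosed Qs) :
    (mat_VB Qs).Normal ∧ IsOpen (mat_VB Qs : Set Gal(Qs/ℚ)) ∧ (mat_VB Qs).index = 2 ∧
      ∃ x ∈ fld (mat_VB Qs), x * x = -1 := by
  obtain ⟨i, hi'⟩ := solv_exists_root hQs (n := 2) (by norm_num) (-1 : Qs)
  have hi : i * i = -1 := by rw [← sq, hi']
  obtain ⟨c, hc⟩ := mat_VB_exists_notMem hi
  have hidx : (mat_VB Qs).index = 2 := by
    rw [Subgroup.index_eq_two_iff]
    refine ⟨c, fun b => ?_⟩
    by_cases hb : b ∈ mat_VB Qs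
    · refine Or.inr ⟨hb, ?_⟩
      rw [mat_VB_mem_iff hi, AlgEquiv.mul_apply, mat_VB_notMem hi hc, map_neg,
        (mat_VB_mem_iff hi b).1 hb]
      exact mat_i_ne hi
    · refine Or.inl ⟨?_, hb⟩
      rw [mat_VB_mem_iff hi, AlgEquiv.mul_apply, mat_VB_notMem hi hc, map_neg,
        mat_VB_notMem hi hb, neg_neg]
  refine ⟨Subgroup.normal_of_index_eq_two hidx, ?_, hidx, i, ?_, hi⟩
  · have := stabilizer_isOpen_of_isIntegral (K := ℚ) (L := Qs) i
    convert this using 1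
    ext g
    exact mat_VB_mem_iff hi g
  · rintro ⟨g, hg⟩
    exact (mat_VB_mem_iff hi g).1 hg

/-- The sign character `ψ ∈ X_r(ℚ(i))` (Prop 3.3 for `M = ℚ(i)`). -/
theorem mat_sign_char (hQs : SolvablyClosed Qs) (r : ℕ) [Fact r.Prime] (hr : r ≠ 2) :
    ∃ ψ : XChar r (mat_VB Qs), ψ ≠ 0 ∧ ∀ (c : Gal(Qs/ℚ)) (g : mat_VB Qs)
      (h : c⁻¹ * g.1 * c ∈ mat_VB Qs), c ∉ mat_VB Qs → ψ.1 ⟨_, h⟩ = - ψ.1 g := by
  obtain ⟨hn, hopen, -, hi⟩ := mat_VB_spec hQs
  obtain ⟨i, -, hii⟩ := id hi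
  have htop : IsOpen ((⊤ : Subgroup Gal(Qs/ℚ)) : Set Gal(Qs/ℚ)) := isOpen_univ
  have := hil_numberField (mat_VB Qs) hopen
  have := hil_numberField (⊤ : Subgroup Gal(Qs/ℚ)) htop
  -- `r₂`
  have h1 := xl_finrank_diff hQs hr ⊤ (mat_VB Qs) hopen le_top
  have h2 : InfinitePlace.nrComplexPlaces (fld (⊤ : Subgroup Gal(Qs/ℚ))) = 0 := by
    have e1 : fld (⊤ : Subgroup Gal(Qs/ℚ)) = ⊥ := InfiniteGalois.fixedField_bot
    have e2 : Module.finrank ℚ (fld (⊤ : Subgroup Gal(Qs/ℚ))) = 1 := by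
      rw [congrArg (fun K : IntermediateField ℚ Qs => Module.finrank ℚ K) e1]
      exact IntermediateField.finrank_bot
    have e3 : InfinitePlace.nrRealPlaces (fld (⊤ : Subgroup Gal(Qs/ℚ)))
        + 2 * InfinitePlace.nrComplexPlaces (fld (⊤ : Subgroup Gal(Qs/ℚ))) = 1 := by
      rw [InfinitePlace.card_add_two_mul_card_eq_rank (fld (⊤ : Subgroup Gal(Qs/ℚ)))]
      convert e2
      exact Subsingleton.elim _ _
    omega
  have h3 : 0 < InfinitePlace.nrComplexPlaces (fld (mat_VB Qs)) := by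
    have e0 : InfinitePlace.nrRealPlaces (fld (mat_VB Qs)) = 0 := by
      obtain ⟨x, hx, hxx⟩ := hi
      exact mat_nrReal_eq_zero _ ⟨⟨x, hx⟩, Subtype.ext hxx⟩
    have e3 : 0 < InfinitePlace.nrRealPlaces (fld (mat_VB Qs))
        + 2 * InfinitePlace.nrComplexPlaces (fld (mat_VB Qs)) := by
      rw [InfinitePlace.card_add_two_mul_card_eq_rank (fld (mat_VB Qs))]
      have hfd := NumberField.to_finiteDimensional (K := fld (mat_VB Qs))
      exact @Module.finrank_pos ℚ (fld (mat_VB Qs)) _ _ Algebra.toModule _ hfd _ _ _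
    omega
  have := xl_finite hQs hr (⊤ : Subgroup Gal(Qs/ℚ)) htop
  have := xl_finite hQs hr (mat_VB Qs) hopen
  have hns : ¬ Function.Surjective (XChar.res (ℓ := r) (le_top : mat_VB Qs ≤ ⊤)) := fun hs => by
    have := LinearMap.finrank_le_finrank_of_surjective hs
    omega
  rw [Function.Surjective] at hns
  push Not at hns
  obtain ⟨y, hy⟩ := hns
  have hy' : ¬ ∀ u ∈ (⊤ : Subgroup Gal(Qs/ℚ)), XChar.conj (mat_VB Qs) u y = y := fun h => by
    obtain ⟨z, hz⟩ := (xchar_res_range hopen le_top y).2 h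
    exact hy z hz
  push Not at hy'
  obtain ⟨c₀, -, hc₀⟩ := hy'
  have hc₀B : c₀ ∉ mat_VB Qs := fun h => hc₀ (gen_conj_of_mem _ h y)
  refine ⟨y - XChar.conj (mat_VB Qs) c₀ y, sub_ne_zero.2 (Ne.symm hc₀), ?_⟩
  intro c g h hc
  have hcc : c₀⁻¹ * c ∈ mat_VB Qs := by
    rw [mat_VB_mem_iff hii, AlgEquiv.mul_apply, mat_VB_notMem hii hc, map_neg]
    have : c₀⁻¹ (c₀ i) = i := by
      rw [← AlgEquiv.mul_apply, inv_mul_cancel]
      rfl
    rw [mat_VB_notMem hii hc₀B, map_neg] at this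
    exact this
  have hc2 : c₀ * c₀ ∈ mat_VB Qs := by
    rw [mat_VB_mem_iff hii, AlgEquiv.mul_apply, mat_VB_notMem hii hc₀B, map_neg,
      mat_VB_notMem hii hc₀B, neg_neg]
  have key : XChar.conj (mat_VB Qs) c (y - XChar.conj (mat_VB Qs) c₀ y)
      = - (y - XChar.conj (mat_VB Qs) c₀ y) := by
    rw [gen_conj_congr _ hcc, map_sub, ← gen_conj_mul, gen_conj_of_mem _ hc2, neg_sub]
  have h5 := congrArg (fun f => f.1 g) key
  simp only [XChar.conj_apply] at h5
  exact h5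

end Sign

end Claimed.Agent.R239
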