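/-
Row 239 / MATCH (owner helper92).  Part B (second half): THE ENGINE (generalised Prop 6.1; replaces Hoshi's
theorem) and uniqueness of the equivariant embedding (replaces Uchida 1981 Prop. 2).
NO SORRY OF ITS OWN: everything here is proved from `EngineAbs`, `Basic`, `StdRes`, `Faith`, `Iface`.
-/
import Claimed.Agent.R239.MATCH.Faith

set_option autoImplicit false

namespace Claimed.Agent.R239

open NumberField Claims.C0403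
open scoped Pointwise

/-- Frobenius detection in the form used by MATCH (wrapper around `xl_detect`). -/
theorem mat_det {F E : Type} [Field F] [NumberField F] [Field E] [Algebra F E] [IsGalois F E]
    (hE : SolvablyClosed E) (r : ℕ) [Fact r.Prime] (hr : r ≠ 2) (U : Subgroup Gal(E/F))
    (hU : IsOpen (U : Set Gal(E/F))) (y : XChar r U) (QQ : Set ℕ) (hQQ : QQ.Infinite)
    (h : ∀ q ∈ QQ, q.Prime ∧ ∃ (P : Ideal (𝓞 E)) (σ : U), P.IsMaximal ∧ Over P q ∧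
      normAt U P = q ∧ IsFrob U P σ.1 ∧ y.1 σ = 0) : y = 0 := by
  refine xl_detect hE hr U hU y ((hQQ.sdiff (Set.finite_singleton r)).mono ?_)
  rintro q ⟨hq, hqr⟩
  obtain ⟨hprime, P, σ, hP, hPq, hN, hσ, hy⟩ := h q hq
  first
    | exact ⟨P, σ.1, hσ, hP, hPq, hqr, hN, hy⟩
    | exact ⟨hprime, P, σ.1, hσ, hP, hPq, hqr, hN, hy⟩

variable {Ω : Type} [Field Ω] [Algebra ℚ Ω] [IsGalois ℚ Ω]
variable {F₂ E₂ : Type} [Field F₂] [NumberField F₂] [Field E₂] [Algebra F₂ E₂] [IsGalois F₂ E₂]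

/-- B3 "Frobenius evaluations" (paper (6.3)). -/
theorem mat_frob_eval (hΩ : IsAlgClosed Ω) (hE₂ : SolvablyClosed E₂) (D : mat_StdRes Ω F₂ E₂)
    (r : ℕ) [Fact r.Prime] (T : Subgroup Gal(Ω/ℚ)) (φ : T →* Gal(E₂/F₂))
    (H1 : ∀ g : T, logChi r F₂ E₂ (φ g) = logChi r ℚ Ω g.1)
    (V : Subgroup Gal(E₂/F₂)) (hV : IsOpen (V : Set Gal(E₂/F₂)))
    (U' : Subgroup Gal(Ω/ℚ)) [U'.Normal] (hU' : IsOpen (U' : Set Gal(Ω/ℚ))) (hUS : U' ≤ D.S₂)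
    (hUT : U' ≤ T)
    (hρV : ∀ h : U', D.ρ ⟨h.1, hUS h.2⟩ ∈ V) (hφV : ∀ h : U', φ ⟨h.1, hUT h.2⟩ ∈ V)
    (q : ℕ) (hq : q.Prime) (hqr : q ≠ r) (P : Ideal (𝓞 Ω)) (hP : P.IsMaximal) (hPq : Over P q)
    (hN : normAt U' P = q) (σ : U') (hσ : IsFrob U' P σ.1)
    (Q : Ideal (𝓞 E₂)) (hQ : Q.IsMaximal) (hQq : Over Q q)
    (hφσ : φ ⟨σ.1, hUT σ.2⟩ ∈ decomp F₂ Q) :
    ∃ γ : Gal(Ω/ℚ), ∀ x : XChar r V, x.1 (mat_res φ hUT hφV σ)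
        = x.1 (mat_res D.ρ hUS hρV (MulAut.conjNormal γ⁻¹ σ)) := by
  obtain ⟨γ, hs, hNQ⟩ :=
    mat_frob_transport hΩ D V hV U' hU' hUS hρV q hq P hP hPq hN σ hσ Q hQ hQq
  refine ⟨γ, fun x => ?_⟩
  have hrp : r.Prime := Fact.out
  have hQr : ¬ Over Q r := mat_not_over Q hQ q r hq hrp hQq hqr
  have hPr : ¬ Over P r := mat_not_over P hP q r hq hrp hPq hqr
  have hΩs : SolvablyClosed Ω := mat_solvablyClosed_of_isAlgClosed hΩ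
  let L : XChar r V := XChar.comap V.subtype continuous_subtype_val ⟨logChi r F₂ E₂, logChi_mem⟩
  have hL : ∀ v : V, L.1 v = logChi r F₂ E₂ v.1 := fun v => rfl
  have hprop := xchar_proportional hE₂ hV hQr x L hs
    (g := (mat_res φ hUT hφV σ : V).1) ⟨hφσ, (mat_res φ hUT hφV σ : V).2⟩
  have c1 : ((chi r F₂ E₂ (mat_res D.ρ hUS hρV (MulAut.conjNormal γ⁻¹ σ) : V).1 : ℤ_[r]ˣ) : ℤ_[r])
      = (q : ℤ_[r]) := by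
    rw [chi_frob hE₂ hQr hs, hNQ]
  have c2 : ((chi r ℚ Ω σ.1 : ℤ_[r]ˣ) : ℤ_[r]) = (q : ℤ_[r]) := by
    rw [chi_frob hΩs hPr hσ, hN]
  have c3 : chi r F₂ E₂ (mat_res D.ρ hUS hρV (MulAut.conjNormal γ⁻¹ σ) : V).1 = chi r ℚ Ω σ.1 :=
    Units.ext (c1.trans c2.symm)
  have hLs : L.1 (mat_res D.ρ hUS hρV (MulAut.conjNormal γ⁻¹ σ)) = Lg r (chi r ℚ Ω σ.1) := by
    rw [hL, logChi, c3]
  have hLg : L.1 (mat_res φ hUT hφV σ) = Lg r (chi r ℚ Ω σ.1) := by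
    rw [hL, mat_res_coe, H1]
    rfl
  have hne : Lg r (chi r ℚ Ω σ.1) ≠ 0 := mat_Lg_ne_zero r _ q hq.one_lt c2
  have e1 : x.1 (mat_res φ hUT hφV σ) * Lg r (chi r ℚ Ω σ.1)
      = x.1 (mat_res D.ρ hUS hρV (MulAut.conjNormal γ⁻¹ σ)) * Lg r (chi r ℚ Ω σ.1) := by
    rw [← hLs]
    conv_rhs => rw [hLs, ← hLg]
    exact hprop
  exact mul_right_cancel₀ hne e1


/-- Hypothesis (H2) of the engine: at every normal level there are infinitely many rational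
primes `q` with a degree-one Frobenius lift `σ` at a prime over `q` sent into the decomposition group
of a prime of `E₂` over THE SAME `q`. -/
def mat_H2 (T : Subgroup Gal(Ω/ℚ)) (φ : T →* Gal(E₂/F₂)) : Prop :=
  ∀ V : Subgroup Gal(Ω/ℚ), IsOpen (V : Set Gal(Ω/ℚ)) → V.Normal → ∀ hVT : V ≤ T,
    {q : ℕ | q.Prime ∧ ∃ (P₁ : Ideal (𝓞 Ω)) (P₂ : Ideal (𝓞 E₂)) (σ : Gal(Ω/ℚ)) (hσ : IsFrob V P₁ σ),
      P₁.IsMaximal ∧ P₂.IsMaximal ∧ Over P₁ q ∧ Over P₂ q ∧ normAt V P₁ = q ∧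
      φ ⟨σ, hVT hσ.1⟩ ∈ decomp F₂ P₂}.Infinite

/-- B4  THE ENGINE, group form: `φ(t) = ρ(γ⁻¹tγ)`. -/
theorem mat_engine_group (hΩ : IsAlgClosed Ω) (hE₂ : SolvablyClosed E₂) (D : mat_StdRes Ω F₂ E₂)
    (T : Subgroup Gal(Ω/ℚ)) (hT : IsOpen (T : Set Gal(Ω/ℚ)))
    (φ : T →* Gal(E₂/F₂)) (hφ : Continuous φ) (r : ℕ) [Fact r.Prime] (hr : r ≠ 2)
    (H1 : ∀ g : T, logChi r F₂ E₂ (φ g) = logChi r ℚ Ω g.1) (H2 : mat_H2 T φ) :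
    ∃ γ : Gal(Ω/ℚ), ∀ t : T, ∃ ht : γ⁻¹ * t.1 * γ ∈ D.S₂, D.ρ ⟨_, ht⟩ = φ t := by
  obtain ⟨hne, hdir, -, hsep⟩ := mat_VV_spec (F₂ := F₂) (E₂ := E₂) hE₂
  refine mat_engine_compact D.S₂ T D.isOpen D.ρ D.cont φ (mat_VV F₂ E₂) hne
    (fun V hV => hV.2.1) hdir hsep ?_
  rintro V ⟨hVn, hVo, hVi⟩
  have hΩs : SolvablyClosed Ω := mat_solvablyClosed_of_isAlgClosed hΩ
  have hA₁ := mat_isOpen_lvl T hT φ hφ V hVo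
  have hA₂ := mat_isOpen_lvl D.S₂ D.isOpen D.ρ D.cont V hVo
  obtain ⟨U', hU'n, hU'o, hU'le⟩ := mat_exists_normal_le
    ((V.comap φ).map T.subtype ⊓ (V.comap D.ρ).map D.S₂.subtype) (hA₁.inter hA₂)
  have hUT : U' ≤ T := fun h hh => (mat_mem_lvl.1 (hU'le hh).1).1
  have hφV : ∀ h : U', φ ⟨h.1, hUT h.2⟩ ∈ V := fun h => (mat_mem_lvl.1 (hU'le h.2).1).2
  have hUS : U' ≤ D.S₂ := fun h hh => (mat_mem_lvl.1 (hU'le hh).2).1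
  have hρV : ∀ h : U', D.ρ ⟨h.1, hUS h.2⟩ ∈ V := fun h => (mat_mem_lvl.1 (hU'le h.2).2).2
  have hinf := (H2 U' hU'o hU'n hUT).sdiff (Set.finite_singleton r)
  have hdata : ∀ q ∈ {q : ℕ | q.Prime ∧ ∃ (P₁ : Ideal (𝓞 Ω)) (P₂ : Ideal (𝓞 E₂)) (σ : Gal(Ω/ℚ))
      (hσ : IsFrob U' P₁ σ), P₁.IsMaximal ∧ P₂.IsMaximal ∧ Over P₁ q ∧ Over P₂ q ∧
      normAt U' P₁ = q ∧ φ ⟨σ, hUT hσ.1⟩ ∈ decomp F₂ P₂} \ {r},
      ∃ (σ : U') (γ : Gal(Ω/ℚ)), (q.Prime ∧ ∃ P : Ideal (𝓞 Ω), P.IsMaximal ∧ Over P q ∧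
        normAt U' P = q ∧ IsFrob U' P σ.1) ∧ ∀ x : XChar r V, x.1 (mat_res φ hUT hφV σ)
        = x.1 (mat_res D.ρ hUS hρV (MulAut.conjNormal γ⁻¹ σ)) := by
    rintro q ⟨⟨hq, P₁, P₂, σ, hσ, hP₁, hP₂, hP₁q, hP₂q, hN, hφσ⟩, hqr⟩
    obtain ⟨γ, hγ⟩ := mat_frob_eval hΩ hE₂ D r T φ H1 V hVo U' hU'o hUS hUT hρV hφV q hq hqr
      P₁ hP₁ hP₁q hN ⟨σ, hσ.1⟩ hσ P₂ hP₂ hP₂q hφσ
    exact ⟨⟨σ, hσ.1⟩, γ, ⟨hq, P₁, hP₁, hP₁q, hN, hσ⟩, hγ⟩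
  choose! σ γ hσγ using hdata
  obtain ⟨γ₀, hγ₀⟩ := mat_engine_pigeonhole r D.S₂ T U' hUS hUT D.ρ D.cont φ hφ V hρV hφV
    (mat_finiteIndex_of_isOpen _ hA₂) _ hinf σ γ (fun q hq => (hσγ q hq).2)
    (fun y QQ' hsub hinf' hy0 => mat_det hΩs r hr U' hU'o y QQ' hinf' fun q hq => by
      obtain ⟨⟨hqp, P, hP, hPq, hN, hσ⟩, -⟩ := hσγ q (hsub hq)
      exact ⟨hqp, P, σ q, hP, hPq, hN, hσ, hy0 q hq⟩)
  exact ⟨γ₀, mat_engine_level r D.S₂ T U' hUS hUT D.ρ D.surj φ V hρV hφV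
    (fun b hb => mat_faith hΩ hE₂ D r hr V hVo hVi U' hU'o hUS hρV b hb) γ₀ hγ₀⟩

/-- B5  THE ENGINE, field form: `j = γ ∘ ι`. -/
theorem mat_engine (hΩ : IsAlgClosed Ω) (hE₂ : SolvablyClosed E₂)
    (T : Subgroup Gal(Ω/ℚ)) (hT : IsOpen (T : Set Gal(Ω/ℚ)))
    (φ : T →* Gal(E₂/F₂)) (hφ : Continuous φ) (r : ℕ) [Fact r.Prime] (hr : r ≠ 2)
    (H1 : ∀ g : T, logChi r F₂ E₂ (φ g) = logChi r ℚ Ω g.1) (H2 : mat_H2 T φ) :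
    ∃ j : E₂ →+* Ω, ∀ (g : T) (x : E₂), g.1 (j x) = j (φ g x) := by
  obtain ⟨D⟩ := mat_stdRes_exists (Ω := Ω) (F₂ := F₂) (E₂ := E₂) hΩ
  obtain ⟨γ, hγ⟩ := mat_engine_group hΩ hE₂ D T hT φ hφ r hr H1 H2
  refine ⟨(γ : Ω →+* Ω).comp D.ι, fun g x => ?_⟩
  obtain ⟨ht, h⟩ := hγ g
  have := D.spec ⟨_, ht⟩ x
  rw [h] at this
  simp only [RingHom.comp_apply, RingHom.coe_coe]
  rw [← this]
  simp [AlgEquiv.mul_apply]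


omit [IsGalois ℚ Ω] [NumberField F₂] [IsGalois F₂ E₂] in
/-- an equivariant embedding `γ ∘ ι` forces `φ = ρ(γ⁻¹ · γ)`. -/
theorem mat_equivariant_iff (D : mat_StdRes Ω F₂ E₂) (T : Subgroup Gal(Ω/ℚ))
    (φ : T →* Gal(E₂/F₂)) (γ : Gal(Ω/ℚ))
    (hj : ∀ (g : T) (x : E₂), g.1 (γ (D.ι x)) = γ (D.ι (φ g x))) (g : T) :
    ∃ ht : γ⁻¹ * g.1 * γ ∈ D.S₂, D.ρ ⟨_, ht⟩ = φ g := by
  have h1 : ∀ x : E₂, (γ⁻¹ * g.1 * γ) (D.ι x) = D.ι (φ g x) := by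
    intro x
    have := hj g x
    simp only [AlgEquiv.mul_apply]
    rw [this]
    exact γ.symm_apply_apply _
  have ht : γ⁻¹ * g.1 * γ ∈ D.S₂ := D.mem _ fun x => by
    rw [h1, AlgEquiv.commutes]
  refine ⟨ht, ?_⟩
  ext x
  apply D.ι.injective
  rw [← D.spec ⟨_, ht⟩ x]
  exact h1 x

/-- B6  Uniqueness of the equivariant embedding. -/
theorem mat_unique (hΩ : IsAlgClosed Ω) (hE₂ : SolvablyClosed E₂)
    (T : Subgroup Gal(Ω/ℚ)) (hT : IsOpen (T : Set Gal(Ω/ℚ))) (φ : T →* Gal(E₂/F₂))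
    (j j' : E₂ →+* Ω) (hj : ∀ (g : T) (x : E₂), g.1 (j x) = j (φ g x))
    (hj' : ∀ (g : T) (x : E₂), g.1 (j' x) = j' (φ g x)) : j = j' := by
  obtain ⟨D⟩ := mat_stdRes_exists (Ω := Ω) (F₂ := F₂) (E₂ := E₂) hΩ
  obtain ⟨γ, hγ⟩ := mat_embedding_eq hΩ D j
  obtain ⟨γ', hγ'⟩ := mat_embedding_eq hΩ D j'
  have e := mat_equivariant_iff D T φ γ (fun g x => by rw [← hγ, ← hγ]; exact hj g x)
  have e' := mat_equivariant_iff D T φ γ' (fun g x => by rw [← hγ', ← hγ']; exact hj' g x)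
  obtain ⟨⟨V₀, hV₀⟩, -, -, hsep⟩ := mat_VV_spec (F₂ := F₂) (E₂ := E₂) hE₂
  have : Fact (Nat.Prime 3) := ⟨by norm_num⟩
  have key : ∀ V ∈ mat_VV F₂ E₂, ∃ hb : γ⁻¹ * γ' ∈ D.S₂, D.ρ ⟨_, hb⟩ ∈ V := by
    rintro V ⟨hVn, hVo, hVi⟩
    have hA₁ : IsOpen ((T.comap (MulAut.conj γ).toMonoidHom : Subgroup Gal(Ω/ℚ)) :
        Set Gal(Ω/ℚ)) := by
      have : ((T.comap (MulAut.conj γ).toMonoidHom : Subgroup Gal(Ω/ℚ)) : Set Gal(Ω/ℚ))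
          = (fun h => γ * h * γ⁻¹) ⁻¹' (T : Set Gal(Ω/ℚ)) := rfl
      rw [this]
      exact hT.preimage ((continuous_const.mul continuous_id).mul continuous_const)
    have hA₂ := mat_isOpen_lvl D.S₂ D.isOpen D.ρ D.cont V hVo
    obtain ⟨U', hU'n, hU'o, hU'le⟩ := mat_exists_normal_le
      (T.comap (MulAut.conj γ).toMonoidHom ⊓ (V.comap D.ρ).map D.S₂.subtype) (hA₁.inter hA₂)
    have hUS : U' ≤ D.S₂ := fun h hh => (mat_mem_lvl.1 (hU'le hh).2).1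
    have hρV : ∀ h : U', D.ρ ⟨h.1, hUS h.2⟩ ∈ V := fun h => (mat_mem_lvl.1 (hU'le h.2).2).2
    refine mat_faith hΩ hE₂ D 3 (by norm_num) V hVo hVi U' hU'o hUS hρV _ fun x h => ?_
    refine congrArg x.1 (Subtype.ext ?_)
    simp only [mat_res_coe]
    have hg : γ * h.1 * γ⁻¹ ∈ T := (hU'le h.2).1
    obtain ⟨ht, h1⟩ := e ⟨_, hg⟩
    obtain ⟨ht', h2⟩ := e' ⟨_, hg⟩
    have a1 : (⟨h.1, hUS h.2⟩ : D.S₂) = ⟨γ⁻¹ * (γ * h.1 * γ⁻¹) * γ, ht⟩ := by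
      apply Subtype.ext
      simp only
      group
    have a2 : (⟨(MulAut.conjNormal (γ⁻¹ * γ')⁻¹ h : U').1,
        hUS (MulAut.conjNormal (γ⁻¹ * γ')⁻¹ h : U').2⟩ : D.S₂)
        = ⟨γ'⁻¹ * (γ * h.1 * γ⁻¹) * γ', ht'⟩ := by
      apply Subtype.ext
      simp only [MulAut.conjNormal_apply]
      group
    rw [a1, a2, h1, h2]
  obtain ⟨hb, -⟩ := key V₀ hV₀
  have hρb : D.ρ ⟨_, hb⟩ = 1 := hsep _ fun V hV => (key V hV).2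
  ext x
  rw [hγ, hγ']
  have := D.spec ⟨_, hb⟩ x
  rw [hρb] at this
  simp only [AlgEquiv.mul_apply, AlgEquiv.one_apply] at this
  have h3 : γ (γ⁻¹ (γ' (D.ι x))) = γ (D.ι x) := congrArg γ this
  rw [← h3]
  exact γ.apply_symm_apply _

end Claimed.Agent.R239
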