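/-
Row 239 / MATCH.  Prop 3.2 (ii), (iii) (averaged forms) from Prop 3.2 (i) (`xl_detect`).
Owner of the proofs: helper110.  No sorry of its own.
-/
import Claimed.Agent.R239.MATCH.Engine
import Claimed.Agent.R239.GEN.FrobB

set_option autoImplicit false

namespace Claimed.Agent.R239

open NumberField Claims.C0403
open scoped Pointwise

section Det3

variable {E : Type} [Field E] [Algebra ℚ E] [IsGalois ℚ E]

/-- the norm of a prime of `ℚ = fld ⊤`. -/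
theorem mat_d3_normAt_top (P : Ideal (𝓞 E)) [P.IsMaximal] {p : ℕ} (hp : p.Prime) (h : Over P p) :
    normAt (⊤ : Subgroup Gal(E/ℚ)) P = p := by
  obtain ⟨f, hf0, hf1, hf⟩ := hil_normAt (⊤ : Subgroup Gal(E/ℚ)) isOpen_univ P hp h
  have e1 : fld (⊤ : Subgroup Gal(E/ℚ)) = ⊥ := InfiniteGalois.fixedField_bot
  have e2 : Module.finrank ℚ (fld (⊤ : Subgroup Gal(E/ℚ))) = 1 := by
    rw [congrArg (fun K : IntermediateField ℚ E => Module.finrank ℚ K) e1]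
    exact IntermediateField.finrank_bot
  have e3 : f ≤ Module.finrank ℚ (fld (⊤ : Subgroup Gal(E/ℚ))) := by
    convert hf1 using 2
    exact Subsingleton.elim _ _
  have : f = 1 := by omega
  rw [hf, this, pow_one]

/-- a Frobenius lift over `ℚ` lying in `V` is a Frobenius lift for `V`, of degree one. -/
theorem mat_d3_frob_of_mem {V : Subgroup Gal(E/ℚ)} (hV : IsOpen (V : Set Gal(E/ℚ)))
    (P : Ideal (𝓞 E)) [P.IsMaximal] {σ : Gal(E/ℚ)} (hσ : IsFrob ⊤ P σ) (hσV : σ ∈ V) :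
    IsFrob V P σ ∧ normAt V P = normAt (⊤ : Subgroup Gal(E/ℚ)) P := by
  obtain ⟨f, hf0, hf, -, hmin⟩ := hil_tower hV le_top hσ
  have h1 : f ∣ 1 := hmin 1 one_pos ⟨1, Subgroup.one_mem _, by simpa using hσV⟩
  have h2 : f = 1 := Nat.dvd_one.1 h1
  rw [h2, pow_one] at hf
  exact ⟨⟨hσV, fun y => by rw [hf]; exact hσ.2 y⟩, hf⟩

/-- Prop 3.2 (i) in the form of `GenSrc.detect_one`. -/
theorem mat_d3_detect_one (hE : SolvablyClosed E) (ℓ : ℕ) [Fact ℓ.Prime] (hℓ : ℓ ≠ 2)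
    (V : Subgroup Gal(E/ℚ)) (hV : IsOpen (V : Set Gal(E/ℚ))) (x : XChar ℓ V)
    (h : {p : ℕ | p.Prime ∧ p ≠ ℓ ∧ ∃ P : Ideal (𝓞 E), P.IsMaximal ∧ Over P p ∧
      ∃ σ : V, IsFrob ⊤ P (σ : Gal(E/ℚ)) ∧ x.1 σ = 0}.Infinite) : x = 0 := by
  apply xl_detect hE hℓ V hV x
  refine h.mono ?_
  rintro p ⟨hp, hpℓ, P, hP, hPp, σ, hσ, hx⟩
  have := hP
  obtain ⟨h1, h2⟩ := mat_d3_frob_of_mem hV P hσ σ.2
  exact ⟨hp, P, σ.1, h1, hP, hPp, hpℓ, by rw [h2, mat_d3_normAt_top P hp hPp], hx⟩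

/-- Prop 3.2(ii), in the form of `GenSrc.detect_avg` (GEN/Hyp).  `V` normal level, `δ^a ∈ V`; if `y(σ^a) = 0`
for Frobenius lifts `σ ∈ δV` (over `ℚ`) at infinitely many `p` unramified in `M_V`, then `∑_{i<a} δ^i•y = 0`.
Sketch (paper): `C = ⟨δ⟩V`, `z = ∑_{i<a} δ^i•y` is `C`-invariant, so `z = res z'`, `z' ∈ X(C)`
(`xchar_res_range`); `σ ∈ C` is a Frobenius lift for `C` of degree one;
`a·z'(σ) = z'(σ^a) = z(σ^a) = ∑ y(δ^{-i}σ^aδ^i) = a·y(σ^a) = 0`.  `xl_detect` gives `z' = 0`. -/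
theorem mat_detect_avg (hE : SolvablyClosed E) (ℓ : ℕ) [Fact ℓ.Prime] (hℓ : ℓ ≠ 2)
    (V : Subgroup Gal(E/ℚ)) [V.Normal] (hV : IsOpen (V : Set Gal(E/ℚ)))
    (y : XChar ℓ V) (δ : Gal(E/ℚ)) (a : ℕ) (ha : 0 < a) (hδ : δ ^ a ∈ V)
    (h : {p : ℕ | p.Prime ∧ p ≠ ℓ ∧ ∃ P : Ideal (𝓞 E), P.IsMaximal ∧ Over P p ∧ inert ℚ P ≤ V ∧
      ∃ σ : Gal(E/ℚ), IsFrob ⊤ P σ ∧ δ⁻¹ * σ ∈ V ∧ ∃ h : σ ^ a ∈ V, y.1 ⟨σ ^ a, h⟩ = 0}.Infinite) :
    ∑ i ∈ Finset.range a, XChar.conj V (δ ^ i) y = 0 := by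
  have hfi : V.FiniteIndex := gen_finiteIndex_of_isOpen V hV
  set Y := ∑ i ∈ Finset.range a, XChar.conj V (δ ^ i) y with hY
  set VC := Subgroup.zpowers δ ⊔ V with hVC
  have hle : V ≤ VC := le_sup_right
  have hYinv : Y ∈ genXInv ℓ V VC := by
    rw [hVC, gen_xinv_sup]
    exact gen_norm_mem_xinv V δ a hδ y
  obtain ⟨z, hz⟩ := gen_res_surj V VC hV hle Y hYinv
  have hVCo : IsOpen (VC : Set Gal(E/ℚ)) := Subgroup.isOpen_mono hle hV
  have hz0 : z = 0 := by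
    apply mat_d3_detect_one hE ℓ hℓ VC hVCo z
    refine h.mono ?_
    rintro p ⟨hp, hpℓ, P, hP, hPp, -, σ, hσ, hσδ, hσa, hyσ⟩
    have hσVC : σ ∈ VC := by
      have h1 : δ ∈ VC := (le_sup_left : Subgroup.zpowers δ ≤ VC) (Subgroup.mem_zpowers δ)
      have h2 := VC.mul_mem h1 (hle hσδ)
      simpa using h2
    refine ⟨hp, hpℓ, P, hP, hPp, ⟨σ, hσVC⟩, hσ, ?_⟩
    have h1 : (XChar.res hle z).1 ⟨σ ^ a, hσa⟩ = a * z.1 ⟨σ, hσVC⟩ := by
      rw [XChar.res_apply]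
      have : (⟨σ ^ a, hle hσa⟩ : VC) = ⟨σ, hσVC⟩ ^ a := by ext; simp
      rw [this, XChar.map_pow]
    have hterm : ∀ i : ℕ, (XChar.conj V (δ ^ i) y).1 ⟨σ ^ a, hσa⟩ = 0 := by
      intro i
      have hi : (σ ^ i)⁻¹ * δ ^ i ∈ V := by
        have e1 : (QuotientGroup.mk σ : Gal(E/ℚ) ⧸ V) = QuotientGroup.mk δ := by
          symm
          exact QuotientGroup.eq.2 hσδ
        apply QuotientGroup.eq.1
        rw [QuotientGroup.mk_pow, QuotientGroup.mk_pow, e1]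
      rw [gen_conj_congr V hi, XChar.conj_apply]
      have : (⟨(σ ^ i)⁻¹ * σ ^ a * σ ^ i, by
          simpa using ‹V.Normal›.conj_mem _ hσa (σ ^ i)⁻¹⟩ : V) = ⟨σ ^ a, hσa⟩ := by
        ext1
        simp only
        rw [mul_assoc, ← pow_add, add_comm, pow_add]
        group
      rw [this, hyσ]
    rw [hz, hY, gen_sum_apply'] at h1
    simp only [hterm, Finset.sum_const_zero] at h1
    have h3 : (a : ℚ_[ℓ]) ≠ 0 := by exact_mod_cast ha.ne'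
    exact (mul_eq_zero.1 h1.symm).resolve_left h3
  rw [← hz, hz0, map_zero]

omit [IsGalois ℚ E] in
/-- abstract averaging: if the partial norm along `δ` vanishes, so does the full average. -/
theorem mat_d3_avg_zero {r : ℕ} [Fact r.Prime] (N : Subgroup Gal(E/ℚ)) [N.Normal]
    [Finite (Gal(E/ℚ) ⧸ N)] (y : XChar r N) (δ : Gal(E/ℚ)) (a : ℕ) (ha : 0 < a)
    (h : ∑ i ∈ Finset.range a, XChar.conj N (δ ^ i) y = 0) :
    ∑ᶠ g : Gal(E/ℚ) ⧸ N, XChar.conj N (Quotient.out g) y = 0 := by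
  classical
  have := Fintype.ofFinite (Gal(E/ℚ) ⧸ N)
  rw [finsum_eq_sum_of_fintype]
  have hout : ∀ g : Gal(E/ℚ), XChar.conj N (Quotient.out (QuotientGroup.mk g : Gal(E/ℚ) ⧸ N)) y
      = XChar.conj N g y := by
    intro g
    apply gen_conj_congr
    apply QuotientGroup.eq.1
    exact (QuotientGroup.out_eq' _).symm
  have hshift : ∀ i : ℕ, ∑ g : Gal(E/ℚ) ⧸ N, XChar.conj N (Quotient.out g) y
      = ∑ g : Gal(E/ℚ) ⧸ N, XChar.conj N (Quotient.out g) (XChar.conj N (δ ^ i) y) := by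
    intro i
    rw [← Equiv.sum_comp (Equiv.mulRight (QuotientGroup.mk (δ ^ i) : Gal(E/ℚ) ⧸ N))]
    refine Finset.sum_congr rfl fun g _ => ?_
    rw [← gen_conj_mul, ← hout (Quotient.out g * δ ^ i)]
    congr 2
    rw [Equiv.coe_mulRight, QuotientGroup.mk_mul, QuotientGroup.out_eq']
  have h1 : (a : ℚ_[r]) • ∑ g : Gal(E/ℚ) ⧸ N, XChar.conj N (Quotient.out g) y = 0 := by
    have h2 : ∑ i ∈ Finset.range a, ∑ g : Gal(E/ℚ) ⧸ N, XChar.conj N (Quotient.out g) y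
        = ∑ i ∈ Finset.range a, ∑ g : Gal(E/ℚ) ⧸ N,
          XChar.conj N (Quotient.out g) (XChar.conj N (δ ^ i) y) :=
      Finset.sum_congr rfl fun i _ => hshift i
    have h4 : ∑ i ∈ Finset.range a, ∑ g : Gal(E/ℚ) ⧸ N,
          XChar.conj N (Quotient.out g) (XChar.conj N (δ ^ i) y) = 0 := by
      rw [Finset.sum_comm]
      refine Finset.sum_eq_zero fun g _ => ?_
      rw [← map_sum, h, map_zero]
    rw [h4, Finset.sum_const, Finset.card_range] at h2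
    rw [Nat.cast_smul_eq_nsmul]
    exact h2
  have h3 : (a : ℚ_[r]) ≠ 0 := by exact_mod_cast ha.ne'
  exact (smul_eq_zero.1 h1).resolve_left h3

/-- Prop 3.2(iii), AVERAGED form (no corestriction).  If the sum of the conjugates of `y|_N` over `G/N` is
non-zero (`N ≤ U`, `N` normal in `G = Gal(E/ℚ)`), then `y` vanishes at Frobenius lifts (for `U`) over
only finitely many rational primes. -/
theorem mat_det_cor (hE : SolvablyClosed E) (r : ℕ) [Fact r.Prime] (hr : r ≠ 2)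
    (U N : Subgroup Gal(E/ℚ)) [N.Normal]
    (hN : IsOpen (N : Set Gal(E/ℚ))) (hNU : N ≤ U) (y : XChar r U)
    (hy : ∑ᶠ g : Gal(E/ℚ) ⧸ N, XChar.conj N (Quotient.out g) (XChar.res hNU y) ≠ 0) :
    {p : ℕ | p.Prime ∧ ∃ (P : Ideal (𝓞 E)) (σ : U), P.IsMaximal ∧ Over P p ∧ IsFrob U P σ.1 ∧
      y.1 σ = 0}.Finite := by
  have hfin : Finite (Gal(E/ℚ) ⧸ N) := Subgroup.quotient_finite_of_isOpen N hN
  have hU : IsOpen (U : Set Gal(E/ℚ)) := Subgroup.isOpen_mono hNU hN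
  -- the sets attached to the classes
  let T : Gal(E/ℚ) ⧸ N → Set ℕ := fun d =>
    {p : ℕ | p.Prime ∧ p ≠ r ∧ ∃ P : Ideal (𝓞 E), P.IsMaximal ∧ Over P p ∧ inert ℚ P ≤ N ∧
      ∃ σ : Gal(E/ℚ), IsFrob ⊤ P σ ∧ (Quotient.out d)⁻¹ * σ ∈ N ∧
        ∃ h : σ ^ orderOf d ∈ N, (XChar.res hNU y).1 ⟨σ ^ orderOf d, h⟩ = 0}
  have hT : ∀ d, (T d).Finite := by
    intro d
    by_contra hinf
    have hpos : 0 < orderOf d := orderOf_pos d
    have hd : (Quotient.out d) ^ orderOf d ∈ N := by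
      rw [← QuotientGroup.eq_one_iff, QuotientGroup.mk_pow, QuotientGroup.out_eq', pow_orderOf_eq_one]
    have h0 := mat_detect_avg hE r hr N hN (XChar.res hNU y) (Quotient.out d) (orderOf d) hpos hd hinf
    exact hy (mat_d3_avg_zero N _ _ _ hpos h0)
  have hbad := hil_unram_cofinite (⊤ : Subgroup Gal(E/ℚ)) N hN le_top
  refine ((Set.finite_iUnion hT).union (hbad.union (Set.finite_singleton r))).subset ?_
  rintro p ⟨hp, P, σ, hP, hPp, hσ, hyσ⟩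
  have := hP
  by_cases hpr : p = r
  · exact Or.inr (Or.inr hpr)
  by_cases hun : UnramIn (⊤ : Subgroup Gal(E/ℚ)) N P
  swap
  · exact Or.inr (Or.inl ⟨hp, P, hP, hPp, hun⟩)
  left
  have hIN : inert ℚ P ≤ N := fun g hg => hun ⟨hg, trivial⟩
  have hPr : ¬ Over P r := fun h => hpr (hil_over_unique P hp (Fact.out) hPp h)
  obtain ⟨s, hs⟩ := hil_exists_frob (⊤ : Subgroup Gal(E/ℚ)) isOpen_univ P
  obtain ⟨f, hf0, -, ⟨i, hi, hfrob⟩, -⟩ := hil_tower hU le_top hs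
  have hj := hil_frob_unique hσ hfrob
  -- `s ^ f ∈ U`, `y (s ^ f) = 0`
  have hiU : i ∈ U := hNU (hIN hi.1)
  have hsfU : s ^ f ∈ U := by
    have := U.mul_mem hfrob.1 (U.inv_mem hiU)
    simpa using this
  have hysf : y.1 ⟨s ^ f, hsfU⟩ = 0 := by
    have e : (⟨s ^ f, hsfU⟩ : U) = σ * ⟨σ.1⁻¹ * (s ^ f * i), hNU (hIN hj)⟩ * ⟨i, hiU⟩⁻¹ := by
      ext1
      simp [mul_assoc]
    rw [e, XChar.map_mul, XChar.map_mul, XChar.map_inv, hyσ,
      xchar_unram hE hU hPr y ⟨hj, hNU (hIN hj)⟩, xchar_unram hE hU hPr y ⟨hi.1, hiU⟩]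
    simp
  rw [Set.mem_iUnion]
  refine ⟨QuotientGroup.mk s, hp, hpr, P, hP, hPp, hIN, s, hs, ?_, ?_⟩
  · apply QuotientGroup.eq.1
    exact QuotientGroup.out_eq' _
  set a := orderOf (QuotientGroup.mk s : Gal(E/ℚ) ⧸ N) with ha
  have hsa : s ^ a ∈ N := by
    rw [← QuotientGroup.eq_one_iff, QuotientGroup.mk_pow, ha, pow_orderOf_eq_one]
  refine ⟨hsa, ?_⟩
  rw [XChar.res_apply]
  have e1 : (⟨s ^ a, hNU hsa⟩ : U) ^ f = (⟨s ^ f, hsfU⟩ : U) ^ a := by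
    ext1
    simp only [Subgroup.coe_pow]
    rw [← pow_mul, ← pow_mul, mul_comm]
  have e2 := congrArg y.1 e1
  rw [XChar.map_pow, XChar.map_pow, hysf, mul_zero] at e2
  have h3 : (f : ℚ_[r]) ≠ 0 := by exact_mod_cast hf0.ne'
  exact (mul_eq_zero.1 e2).resolve_left h3

end Det3

end Claimed.Agent.R239
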