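/-
Row 239 / MATCH (owner helper92).  Part E (first half): Prop 3.2(iii) in averaged form, the standing data of
Section 5, and Lemma 5.1 (finite fibres).
Everything in Section 5 is phrased with RATIONAL residue characteristics (`mat_Act ℓ U φ p q`).
-/
import Claimed.Agent.R239.MATCH.Engine
import Claimed.Agent.R239.MATCH.Det3

set_option autoImplicit false
set_option linter.unusedSectionVars false

namespace Claimed.Agent.R239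

open NumberField Claims.C0403
open scoped Pointwise

/-! Prop 3.2 (ii), (iii) (`mat_detect_avg`, `mat_det_cor`) are proved in `MATCH/Det3.lean` (helper110). -/

variable {Ω : Type} [Field Ω] [Algebra ℚ Ω] [IsGalois ℚ Ω]
variable {Qs : Type} [Field Qs] [Algebra ℚ Qs] [IsGalois ℚ Qs]

/-- Standing data of Section 5: `φ = β_B : G_K ↠ P_B`, the set `𝓛 = {ℓ odd, m₀ ∣ ℓ - 1}`, and an
element `t ∈ G_k ∖ G_K` with `c = β(t) ∉ P_B`. -/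
structure mat_Setup5 (Ω Qs : Type) [Field Ω] [Algebra ℚ Ω] [Field Qs] [Algebra ℚ Qs] where
  U : Subgroup Gal(Ω/ℚ)
  isOpen : IsOpen (U : Set Gal(Ω/ℚ))
  φ : U →* Gal(Qs/ℚ)
  cont : Continuous φ
  range : φ.range = mat_VB Qs
  m₀ : ℕ
  m₀pos : 0 < m₀
  logs : ∀ (ℓ : ℕ) [Fact ℓ.Prime], ℓ ≠ 2 → m₀ ∣ ℓ - 1 →
    ∀ g : U, logChi ℓ ℚ Qs (φ g) = logChi ℓ ℚ Ω g.1
  t : Gal(Ω/ℚ)
  c : Gal(Qs/ℚ)
  c_notMem : c ∉ mat_VB Qs
  swap : ∀ g : U, ∃ h : t⁻¹ * g.1 * t ∈ U, φ ⟨_, h⟩ = c⁻¹ * φ g * c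

/-- `ℓ ∈ 𝓛`. -/
def mat_inL (m₀ ℓ : ℕ) : Prop := ℓ ≠ 2 ∧ m₀ ∣ ℓ - 1

theorem mat_mem_VB_iff (g : Gal(Qs/ℚ)) : g ∈ mat_VB Qs ↔ ∀ x : Qs, x * x = -1 → g x = x := by
  constructor
  · intro hg x hx
    exact hg ⟨x, IntermediateField.subset_adjoin ℚ _ hx⟩
  · intro h
    have h1 : IntermediateField.adjoin ℚ {x : Qs | x * x = -1}
        ≤ IntermediateField.fixedField (Subgroup.zpowers g) := by
      rw [IntermediateField.adjoin_le_iff]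
      intro x hx
      rw [SetLike.mem_coe, IntermediateField.mem_fixedField_iff]
      rintro f ⟨n, rfl⟩
      have hfix : g ∈ MulAction.stabilizer Gal(Qs/ℚ) x := h x hx
      exact (Subgroup.zpow_mem _ hfix n : g ^ n ∈ MulAction.stabilizer Gal(Qs/ℚ) x)
    exact (IntermediateField.le_iff_le _ _).1 h1 (Subgroup.mem_zpowers g)

/-- for `q ≡ 1 (4)` the decomposition groups over `q` lie in `P_B`. -/
theorem mat_decomp_le_VB (Q : Ideal (𝓞 Qs)) (hQ : Q.IsMaximal) (q : ℕ) (hq : q.Prime)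
    (hq4 : q % 4 = 1) (hQq : Over Q q) : decomp ℚ Q ≤ mat_VB Qs := by
  intro g hg
  rw [mat_mem_VB_iff]
  intro x hx
  have hQp := hQ.isPrime
  have : Fact q.Prime := ⟨hq⟩
  have hxint : IsIntegral ℤ x := by
    refine IsIntegral.of_pow (n := 2) (by norm_num) ?_
    rw [pow_two, hx]
    exact isIntegral_one.neg
  set X : 𝓞 Qs := ⟨x, hxint⟩ with hX
  have hXX : X * X = -1 := RingOfIntegers.ext hx
  obtain ⟨a, ha⟩ : IsSquare (-1 : ZMod q) := ZMod.exists_sq_eq_neg_one_iff.2 (by omega)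
  obtain ⟨n, rfl⟩ := ZMod.intCast_surjective a
  have hdvd : (q : ℤ) ∣ n * n + 1 := by
    rw [← ZMod.intCast_zmod_eq_zero_iff_dvd]
    push_cast
    rw [← ha]; ring
  have hmem : ((n * n + 1 : ℤ) : 𝓞 Qs) ∈ Q := (mat_intCast_mem_iff Q hQ q hq hQq _).2 hdvd
  have hprod : (X - (n : 𝓞 Qs)) * (X + (n : 𝓞 Qs)) ∈ Q := by
    have : (X - (n : 𝓞 Qs)) * (X + (n : 𝓞 Qs)) = -((n * n + 1 : ℤ) : 𝓞 Qs) := by
      push_cast
      linear_combination hXX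
    rw [this]
    exact Q.neg_mem hmem
  -- `g X - X ∈ Q`
  have hgX : g • X - X ∈ Q := by
    have key : ∀ m : ℤ, X - (m : 𝓞 Qs) ∈ Q → g • X - X ∈ Q := by
      intro m hm
      have h1 : g • (X - (m : 𝓞 Qs)) ∈ Q := by
        have : g • (X - (m : 𝓞 Qs)) ∈ g • Q := Ideal.smul_mem_pointwise_smul _ _ _ hm
        rwa [(hg : g • Q = Q)] at this
      have h0 : g • ((m : ℤ) : 𝓞 Qs) = (m : 𝓞 Qs) :=
        map_intCast (MulSemiringAction.toRingHom Gal(Qs/ℚ) (𝓞 Qs) g) m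
      rw [smul_sub, h0] at h1
      have := Q.sub_mem h1 hm
      convert this using 1
      ring
    rcases hQp.mem_or_mem hprod with h | h
    · exact key n h
    · exact key (-n) (by push_cast; rwa [sub_neg_eq_add])
  -- `g X = ± X`
  have hgg : (g • X) * (g • X) = -1 := by
    rw [← smul_mul', hXX, smul_neg, smul_one]
  have hpm : (g • X - X) * (g • X + X) = 0 := by linear_combination hgg - hXX
  rcases mul_eq_zero.1 hpm with h | h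
  · have := congrArg (fun y : 𝓞 Qs => (y : Qs)) (sub_eq_zero.1 h)
    exact this
  · exfalso
    have h2 : g • X = -X := eq_neg_of_add_eq_zero_left h
    rw [h2] at hgX
    have h3 : (2 : 𝓞 Qs) * X ∈ Q := by
      have := Q.neg_mem hgX
      convert this using 1
      ring
    have h4 : (2 : 𝓞 Qs) ∈ Q := by
      have := Q.mul_mem_right X h3
      have h5 : (2 : 𝓞 Qs) * X * X = -2 := by linear_combination 2 * hXX
      rw [h5] at this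
      simpa using Q.neg_mem this
    have h6 : q = 2 := hil_over_unique Q hq Nat.prime_two hQq (by simpa [Over] using h4)
    omega

/-- E0  `ψ(Fr_w) ≠ 0` for almost all split `q` (`xl_detect` for the pair `(ℚ, Qs)`, level `P_B`; for `q ≡ 1 (4)`:
`normAt P_B Q = q` because `X^2+1` splits mod `q`; equivalently `D(Q) ≤ P_B`, as a Frobenius lift `s` over `ℚ` has
`s i ≡ i^q = i`, and inertia fixes `i` by `mat_inertia_fixes_root` (`q` odd), `hil_decomp_closure`). -/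
theorem mat_sign_char_frob (hQs : SolvablyClosed Qs) (r : ℕ) [Fact r.Prime] (hr : r ≠ 2)
    (ψ : XChar r (mat_VB Qs)) (hψ : ψ ≠ 0) :
    ∃ bad : Finset ℕ, ∀ q, q.Prime → q % 4 = 1 → q ∉ bad → ∀ (Q : Ideal (𝓞 Qs)) (s : mat_VB Qs),
      Q.IsMaximal → Over Q q → IsFrob (mat_VB Qs) Q s.1 → ψ.1 s ≠ 0 := by
  obtain ⟨-, hVo, -, -⟩ := mat_VB_spec hQs
  set B : Set ℕ := {q | q.Prime ∧ q % 4 = 1 ∧ ∃ (Q : Ideal (𝓞 Qs)) (s : mat_VB Qs),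
      Q.IsMaximal ∧ Over Q q ∧ IsFrob (mat_VB Qs) Q s.1 ∧ ψ.1 s = 0} with hB
  have hfin : B.Finite := by
    by_contra hinf
    apply hψ
    refine xl_detect hQs hr (mat_VB Qs) hVo ψ
      (((Set.not_finite.1 hinf).sdiff (Set.finite_singleton r)).mono ?_)
    rintro q ⟨⟨hq, hq4, Q, s, hQ, hQq, hs, h0⟩, hqr⟩
    exact ⟨hq, Q, s.1, hs, hQ, hQq, hqr,
      mat_normAt_of_decomp_le _ hVo Q hQ q hq hQq (mat_decomp_le_VB Q hQ q hq hq4 hQq), h0⟩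
  refine ⟨hfin.toFinset, fun q hq hq4 hbad Q s hQ hQq hs h0 => hbad ?_⟩
  rw [Set.Finite.mem_toFinset]
  exact ⟨hq, hq4, Q, s, hQ, hQq, hs, h0⟩

/-- `logχ_r` does not vanish on any level. -/
theorem mat_logChi_ne_zero (hΩs : SolvablyClosed Ω) (r : ℕ) [Fact r.Prime] (hr : r ≠ 2)
    (N : Subgroup Gal(Ω/ℚ)) (hN : IsOpen (N : Set Gal(Ω/ℚ))) :
    ∃ σ ∈ N, logChi r ℚ Ω σ ≠ 0 := by
  have : CharZero Ω := algebraRat.charZero Ω
  obtain ⟨P, hP, hP2⟩ := mat_exists_over (E := Ω) 2 Nat.prime_two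
  have hPr : ¬ Over P r := mat_not_over P hP 2 r Nat.prime_two Fact.out hP2 (Ne.symm hr)
  obtain ⟨σ, hσ⟩ := hil_exists_frob N hN P
  obtain ⟨f, hf0, -, hf⟩ := hil_normAt N hN P Nat.prime_two hP2
  refine ⟨σ, hσ.1, mat_Lg_ne_zero r _ (normAt N P) ?_ (chi_frob hΩs hPr hσ)⟩
  rw [hf]
  exact Nat.one_lt_pow hf0.ne' (by norm_num)

/-- E1a  The average over `GG/N` of the pull-back of the sign character vanishes (`t•(φ^*ψ) = -φ^*ψ` by `S.swap` and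
`mat_sign_char`; reindex the finite sum by `g ↦ g t`), while that of `logχ_r` is `[GG:N] logχ_r|_N ≠ 0`.
So for `z ≠ 0` the character `y = φ^*(ψ - z logχ_r)` satisfies the hypothesis of `mat_det_cor`. -/
theorem mat_fiber_avg (hΩ : IsAlgClosed Ω) (S : mat_Setup5 Ω Qs)
    (r : ℕ) [Fact r.Prime] (hr : mat_inL S.m₀ r) (ψ : Gal(Qs/ℚ) → ℚ_[r])
    (hsign : ∀ (c : Gal(Qs/ℚ)) (g : mat_VB Qs), c ∉ mat_VB Qs → ψ (c⁻¹ * g.1 * c) = - ψ g.1)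
    (z : ℚ_[r]) (hz : z ≠ 0) (y : XChar r S.U)
    (hy : ∀ g : S.U, y.1 g = ψ (S.φ g) - z * logChi r ℚ Qs (S.φ g)) :
    {p : ℕ | p.Prime ∧ ∃ (P : Ideal (𝓞 Ω)) (σ : S.U), P.IsMaximal ∧ Over P p ∧ IsFrob S.U P σ.1 ∧
      y.1 σ = 0}.Finite := by
  have hΩs : SolvablyClosed Ω := mat_solvablyClosed_of_isAlgClosed hΩ
  obtain ⟨N, hNn, hNo, hNU⟩ := mat_exists_normal_le S.U S.isOpen
  refine mat_det_cor hΩs r hr.1 S.U N hNo hNU y ?_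
  have hfi : N.FiniteIndex := mat_finiteIndex_of_isOpen N hNo
  let LL : XChar r Gal(Ω/ℚ) := ⟨logChi r ℚ Ω, logChi_mem⟩
  let L : XChar r N := XChar.comap N.subtype continuous_subtype_val LL
  have hL : ∀ h : N, L.1 h = logChi r ℚ Ω h.1 := fun h => rfl
  set A : XChar r N := XChar.res hNU y + z • L with hAdef
  have hA : ∀ h : N, A.1 h = ψ (S.φ ⟨h.1, hNU h.2⟩) := by
    intro h
    have : A.1 h = y.1 ⟨h.1, hNU h.2⟩ + z * logChi r ℚ Ω h.1 := rfl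
    rw [this, hy, S.logs r hr.1 hr.2]
    ring
  have hconjL : ∀ g : Gal(Ω/ℚ), XChar.conj N g L = L := by
    intro g
    ext h
    rw [XChar.conj_apply, hL, hL]
    have := XChar.map_conj LL g⁻¹ h.1
    rw [inv_inv] at this
    exact this
  have hφVB : ∀ g : S.U, S.φ g ∈ mat_VB Qs := fun g => S.range ▸ ⟨g, rfl⟩
  have hconjA : XChar.conj N S.t A = -A := by
    ext h
    rw [XChar.conj_apply, hA]
    obtain ⟨h1, h2⟩ := S.swap ⟨h.1, hNU h.2⟩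
    have h3 : ((-A : XChar r N) : N → ℚ_[r]) h = - A.1 h := rfl
    rw [h3, hA, h2]
    exact hsign S.c ⟨_, hφVB _⟩ S.c_notMem
  have hres : XChar.res hNU y = A - z • L := by rw [hAdef]; abel
  have : Fintype (Gal(Ω/ℚ) ⧸ N) := Fintype.ofFinite _
  rw [finsum_eq_sum_of_fintype]
  have hsumA : ∑ g : Gal(Ω/ℚ) ⧸ N, XChar.conj N (Quotient.out g) A = 0 := by
    have hshift : ∀ g : Gal(Ω/ℚ) ⧸ N,
        XChar.conj N (Quotient.out (g * (S.t : Gal(Ω/ℚ) ⧸ N))) A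
          = - XChar.conj N (Quotient.out g) A := by
      intro g
      have hcl : (Quotient.out g * S.t)⁻¹ * Quotient.out (g * (S.t : Gal(Ω/ℚ) ⧸ N)) ∈ N := by
        rw [← QuotientGroup.eq, QuotientGroup.mk_mul, QuotientGroup.out_eq', QuotientGroup.out_eq']
      rw [gen_conj_congr N hcl, gen_conj_mul, hconjA, map_neg]
    have h1 : ∑ g : Gal(Ω/ℚ) ⧸ N, XChar.conj N (Quotient.out g) A
        = - ∑ g : Gal(Ω/ℚ) ⧸ N, XChar.conj N (Quotient.out g) A := by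
      conv_lhs => rw [← Equiv.sum_comp (Equiv.mulRight (S.t : Gal(Ω/ℚ) ⧸ N))]
      rw [← Finset.sum_neg_distrib]
      exact Finset.sum_congr rfl fun g _ => hshift g
    have h2 : (2 : ℚ_[r]) • ∑ g : Gal(Ω/ℚ) ⧸ N, XChar.conj N (Quotient.out g) A = 0 := by
      rw [two_smul]
      nth_rewrite 1 [h1]
      exact neg_add_cancel _
    exact (smul_eq_zero.1 h2).resolve_left two_ne_zero
  have hsum : ∑ g : Gal(Ω/ℚ) ⧸ N, XChar.conj N (Quotient.out g) (XChar.res hNU y)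
      = - (((Fintype.card (Gal(Ω/ℚ) ⧸ N) : ℚ_[r]) * z) • L) := by
    simp only [hres, map_sub, map_smul, hconjL, Finset.sum_sub_distrib, hsumA, zero_sub,
      Finset.sum_const, Finset.card_univ]
    rw [← Nat.cast_smul_eq_nsmul ℚ_[r], smul_smul]
  rw [hsum, neg_ne_zero]
  obtain ⟨σ, hσ, hne⟩ := mat_logChi_ne_zero hΩs r hr.1 N hNo
  intro h0
  have h1 := congrArg (fun x : XChar r N => x.1 ⟨σ, hσ⟩) h0
  have h2 : ((Fintype.card (Gal(Ω/ℚ) ⧸ N) : ℚ_[r]) * z) * logChi r ℚ Ω σ = 0 := h1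
  have h3 : (Fintype.card (Gal(Ω/ℚ) ⧸ N) : ℚ_[r]) ≠ 0 := Nat.cast_ne_zero.2 Fintype.card_ne_zero
  exact mul_ne_zero (mul_ne_zero h3 hz) hne h2

/-- E1 = Lemma 5.1 (finite fibres).
Sketch: fix `r ∈ 𝓛` (`Nat.exists_prime_gt_modEq_one`), `ψ` the sign character, `bad` from E0 together with `r`.  For `Q | q`, `s_Q` a
Frobenius lift for `P_B`, `z_Q = ψ(s_Q)/Lg q ≠ 0`.  `z_Q` takes at most two values `±z` as `Q` ranges over the primes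
over `q` (conjugate `Q` by `g ∈ P`: `hil_transitive`, `hil_frob_conj`; `ψ(g s g⁻¹) = ±ψ(s)`).  `ψ - z_Q logχ_r` kills
`D(Q) ⊓ P_B` (`xchar_proportional` against `logχ_r`).  For an active pair `(P,Q)` (any `ℓ`): `φσ ∈ D(Q) ⊓ P_B`, so
`y_{z_Q}(σ) = 0`.  So the set is contained in the union of the two finite sets of E1a. -/
theorem mat_finite_fibers (hΩ : IsAlgClosed Ω) (hQs : SolvablyClosed Qs) (S : mat_Setup5 Ω Qs) :
    ∃ bad : Finset ℕ, ∀ q, q.Prime → q % 4 = 1 → q ∉ bad →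
      {p : ℕ | ∃ (ℓ : ℕ) (_ : Fact ℓ.Prime), mat_inL S.m₀ ℓ ∧ mat_Act ℓ S.U S.φ p q}.Finite := by
  have : CharZero Qs := algebraRat.charZero Qs
  obtain ⟨hVn, hVo, -, -⟩ := mat_VB_spec hQs
  -- a prime `r ∈ 𝓛`
  obtain ⟨r, hrp, hr2, hrm⟩ := Nat.exists_prime_gt_modEq_one 2 S.m₀pos.ne'
  have : Fact r.Prime := ⟨hrp⟩
  have hr : mat_inL S.m₀ r := ⟨by omega, (Nat.modEq_iff_dvd' hrp.one_lt.le).1 hrm.symm⟩
  obtain ⟨ψ₀, hψ₀, hsign₀⟩ := mat_sign_char hQs r hr.1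
  obtain ⟨bad₀, hbad₀⟩ := mat_sign_char_frob hQs r hr.1 ψ₀ hψ₀
  classical
  let ψ : Gal(Qs/ℚ) → ℚ_[r] := fun g => if h : g ∈ mat_VB Qs then ψ₀.1 ⟨g, h⟩ else 0
  have hψv : ∀ g : mat_VB Qs, ψ g.1 = ψ₀.1 g := fun g => dif_pos g.2
  have hsign : ∀ (c : Gal(Qs/ℚ)) (g : mat_VB Qs), c ∉ mat_VB Qs →
      ψ (c⁻¹ * g.1 * c) = - ψ g.1 := by
    intro c g hc
    have hmem : c⁻¹ * g.1 * c ∈ mat_VB Qs := by simpa using hVn.conj_mem g.1 g.2 c⁻¹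
    rw [hψv g, ← hsign₀ c g hmem hc]
    exact hψv ⟨_, hmem⟩
  let LL : XChar r Gal(Qs/ℚ) := ⟨logChi r ℚ Qs, logChi_mem⟩
  let LB : XChar r (mat_VB Qs) := XChar.comap (mat_VB Qs).subtype continuous_subtype_val LL
  have hφVB : ∀ g : S.U, S.φ g ∈ mat_VB Qs := fun g => S.range ▸ ⟨g, rfl⟩
  let φB : S.U →* mat_VB Qs := S.φ.codRestrict (mat_VB Qs) hφVB
  have hφB : Continuous φB := S.cont.subtype_mk _
  -- the characters `y_z`
  let Y : ℚ_[r] → XChar r S.U := fun z => XChar.comap φB hφB (ψ₀ - z • LB)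
  have hY : ∀ (z : ℚ_[r]) (g : S.U), (Y z).1 g = ψ (S.φ g) - z * logChi r ℚ Qs (S.φ g) := by
    intro z g
    rw [show ψ (S.φ g) = ψ₀.1 (φB g) from hψv (φB g)]
    rfl
  refine ⟨insert r bad₀, fun q hq hq4 hqbad => ?_⟩
  have hqr : q ≠ r := fun h => hqbad (h ▸ Finset.mem_insert_self _ _)
  have hqb : q ∉ bad₀ := fun h => hqbad (Finset.mem_insert_of_mem h)
  obtain ⟨Q₀, hQ₀, hQ₀q⟩ := mat_exists_over (E := Qs) q hq
  obtain ⟨s₀, hs₀⟩ := hil_exists_frob (mat_VB Qs) hVo Q₀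
  have hne₀ : ψ₀.1 ⟨s₀, hs₀.1⟩ ≠ 0 := hbad₀ q hq hq4 hqb Q₀ ⟨s₀, hs₀.1⟩ hQ₀ hQ₀q hs₀
  have hQ₀r : ¬ Over Q₀ r := mat_not_over Q₀ hQ₀ q r hq hrp hQ₀q hqr
  have hl₀ : logChi r ℚ Qs s₀ ≠ 0 := by
    obtain ⟨f, hf0, -, hf⟩ := hil_normAt (mat_VB Qs) hVo Q₀ hq hQ₀q
    refine mat_Lg_ne_zero r _ (normAt (mat_VB Qs) Q₀) ?_ (chi_frob hQs hQ₀r hs₀)
    rw [hf]
    exact Nat.one_lt_pow hf0.ne' hq.one_lt
  set z₀ : ℚ_[r] := ψ₀.1 ⟨s₀, hs₀.1⟩ / logChi r ℚ Qs s₀ with hz₀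
  have hz₀ne : z₀ ≠ 0 := div_ne_zero hne₀ hl₀
  have hF₁ := mat_fiber_avg hΩ S r hr ψ hsign z₀ hz₀ne (Y z₀) (hY z₀)
  have hF₂ := mat_fiber_avg hΩ S r hr ψ hsign (-z₀) (neg_ne_zero.2 hz₀ne) (Y (-z₀))
    (hY (-z₀))
  refine (hF₁.union hF₂).subset ?_
  rintro p ⟨ℓ, hℓ, -, hp, -, P, Q, hPp, hQq, hact⟩
  obtain ⟨σ, hσ, hD, -⟩ := hact.wit
  have hQ := hact.Qmax
  have hQr : ¬ Over Q r := mat_not_over Q hQ q r hq hrp hQq hqr
  -- transport the Frobenius lift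
  obtain ⟨g₀, rfl⟩ := mat_transitive_over Q₀ Q hQ₀ hQ q hq hQ₀q hQq
  have hs : IsFrob (mat_VB Qs) (g₀ • Q₀) (g₀ * s₀ * g₀⁻¹) := by
    have := hil_frob_conj hs₀ g₀
    rwa [Subgroup.Normal.conj_smul_eq_self g₀ (mat_VB Qs)] at this
  have hprop := xchar_proportional hQs hVo hQr ψ₀ LB hs (g := S.φ σ) ⟨hD, hφVB σ⟩
  have hLs : LB.1 ⟨g₀ * s₀ * g₀⁻¹, hs.1⟩ = logChi r ℚ Qs s₀ := XChar.map_conj LL g₀ s₀
  have hLg : LB.1 ⟨S.φ σ, hφVB σ⟩ = logChi r ℚ Qs (S.φ σ) := rfl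
  rw [hLs, hLg] at hprop
  have hψs : ψ₀.1 ⟨g₀ * s₀ * g₀⁻¹, hs.1⟩ = ψ₀.1 ⟨s₀, hs₀.1⟩ ∨
      ψ₀.1 ⟨g₀ * s₀ * g₀⁻¹, hs.1⟩ = - ψ₀.1 ⟨s₀, hs₀.1⟩ := by
    by_cases hg : g₀ ∈ mat_VB Qs
    · left
      exact XChar.map_conj ψ₀ ⟨g₀, hg⟩ ⟨s₀, hs₀.1⟩
    · right
      have hg' : g₀⁻¹ ∉ mat_VB Qs := fun h => hg (by simpa using (mat_VB Qs).inv_mem h)
      have := hsign₀ g₀⁻¹ ⟨s₀, hs₀.1⟩ (by simpa using hs.1) hg'
      simpa using this
  have hψσ : ψ (S.φ σ) = ψ₀.1 ⟨S.φ σ, hφVB σ⟩ := hψv ⟨_, hφVB σ⟩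
  rcases hψs with h | h
  · left
    refine ⟨hp, P, σ, hact.Pmax, hPp, hσ, ?_⟩
    rw [hY, hψσ, hz₀]
    rw [h] at hprop
    field_simp
    linear_combination hprop
  · right
    refine ⟨hp, P, σ, hact.Pmax, hPp, hσ, ?_⟩
    rw [hY, hψσ, hz₀]
    rw [h] at hprop
    field_simp
    linear_combination hprop

end Claimed.Agent.R239
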