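/-
Row 239 / MATCH.  Auxiliary lemmas for `MATCH/Final.lean` (owner helper67), prefix `mat_fin`.
-/
import Claimed.Agent.R239.MATCH.StdRes
import Claimed.Agent.R239.GEN.Main
import Claimed.Agent.R239.Glue.BaseChange
import Claimed.Agent.R239.Solv

set_option autoImplicit false

namespace Claimed.Agent.R239

open NumberField Claims.C0403
open scoped Pointwise

/-- every rational prime lies under a prime of `E`. -/
theorem mat_fin_exists_over {E : Type*} [Field E] [CharZero E] (q : ℕ) (hq : q.Prime) :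
    ∃ P : Ideal (𝓞 E), P.IsMaximal ∧ Over P q := by
  have hne : Ideal.span {(q : 𝓞 E)} ≠ ⊤ := by
    intro h
    rw [Ideal.span_singleton_eq_top] at h
    obtain ⟨y, hy⟩ := h.exists_right_inv
    have hyE : (q : E) * (y : E) = 1 := by
      have := congrArg (algebraMap (𝓞 E) E) hy
      simpa using this
    have hq0 : (q : E) ≠ 0 := Nat.cast_ne_zero.2 hq.ne_zero
    have hy' : (y : E) = algebraMap ℚ E ((q : ℚ)⁻¹) := by
      rw [map_inv₀, map_natCast]
      exact eq_inv_of_mul_eq_one_right hyE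
    have hint : IsIntegral ℤ (algebraMap ℚ E ((q : ℚ)⁻¹)) := hy' ▸ y.2
    have hint' : IsIntegral ℤ ((q : ℚ)⁻¹) :=
      (isIntegral_algebraMap_iff (algebraMap ℚ E).injective).1 hint
    obtain ⟨n, hn⟩ := IsIntegrallyClosed.isIntegral_iff.1 hint'
    have h1 : (n : ℚ) * q = 1 := by
      have : (algebraMap ℤ ℚ n) = (n : ℚ) := rfl
      rw [← this, hn, inv_mul_cancel₀ (Nat.cast_ne_zero.2 hq.ne_zero)]
    have h2 : n * (q : ℤ) = 1 := by exact_mod_cast h1
    have h3 : (q : ℤ) ∣ 1 := Dvd.intro_left n h2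
    have h4 : q ∣ 1 := by exact_mod_cast h3
    exact hq.one_lt.ne' (Nat.dvd_one.1 h4)
  obtain ⟨P, hP, hle⟩ := Ideal.exists_le_maximal _ hne
  exact ⟨P, hP, hle (Ideal.mem_span_singleton_self _)⟩

/-- if the decomposition group of `P | q`, `q` odd, fixes a square root of `-1` then `q ≡ 1 (4)`. -/
theorem mat_fin_mod_four {E : Type} [Field E] [Algebra ℚ E] [IsGalois ℚ E] (P : Ideal (𝓞 E))
    (hP : P.IsMaximal) (q : ℕ) (hq : q.Prime) (hq2 : q ≠ 2) (hPq : Over P q) (i : E)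
    (hi : i * i = -1) (hfix : ∀ g ∈ decomp ℚ P, g i = i) : q % 4 = 1 := by
  have hint : IsIntegral ℤ i := by
    refine IsIntegral.of_pow (n := 2) two_pos ?_
    rw [pow_two, hi]
    exact isIntegral_one.neg
  let y : 𝓞 E := ⟨i, hint⟩
  have hyy : y * y = -1 := by
    apply Subtype.ext
    exact hi
  obtain ⟨σ, hσ⟩ := hil_exists_frob (⊤ : Subgroup Gal(E/ℚ)) isOpen_univ P
  have hσD := hil_frob_mem_decomp hσ
  have hN : normAt (⊤ : Subgroup Gal(E/ℚ)) P = q :=
    mat_normAt_of_decomp_le ⊤ isOpen_univ P hP q hq hPq le_top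
  have hσy : σ • y = y := Subtype.ext (hfix σ hσD)
  have h1 := hσ.2 y
  rw [hσy, hN] at h1
  have hodd : q % 2 = 1 := hq.eq_two_or_odd.resolve_left hq2
  by_contra h4
  have h3 : q % 4 = 3 := by omega
  have hq' : q = 4 * (q / 4) + 3 := by omega
  have hy4 : y ^ 4 = 1 := by
    have : y ^ 4 = (y * y) * (y * y) := by ring
    rw [this, hyy]; ring
  have hyq : y ^ q = -y := by
    rw [hq', pow_add, pow_mul, hy4, one_pow, one_mul]
    have : y ^ 3 = (y * y) * y := by ring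
    rw [this, hyy]; ring
  rw [hyq] at h1
  have h2 : (2 : 𝓞 E) ∈ P := by
    have h5 : (y - -y) * (-y) ∈ P := P.mul_mem_right _ h1
    have h6 : (y - -y) * (-y) = 2 := by
      have : (y - -y) * (-y) = -2 * (y * y) := by ring
      rw [this, hyy]; ring
    rwa [h6] at h5
  have h2' : Over P 2 := by
    show ((2 : ℕ) : 𝓞 E) ∈ P
    exact_mod_cast h2
  exact hq2 (hil_over_unique P hq Nat.prime_two hPq h2')

/-- `Gal(E/F) → Gal(E/ℚ)`. -/
def mat_finToRat (F E : Type*) [Field F] [Field E] [Algebra F E] [Algebra ℚ E] :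
    Gal(E/F) →* Gal(E/ℚ) where
  toFun g := (g : E ≃+* E).toRatAlgEquiv
  map_one' := rfl
  map_mul' _ _ := rfl

/-- transport of a tame generator by an arbitrary element `u` (the level `V` becomes `u V u⁻¹`). -/
theorem mat_fin_tameGen_conj {F E : Type*} [Field F] [Field E] [Algebra F E] {ℓ : ℕ}
    {V V' : Subgroup Gal(E/F)} {P : Ideal (𝓞 E)} {τ : Gal(E/F)} (u : Gal(E/F))
    (hVV' : ∀ g, g ∈ V ↔ u * g * u⁻¹ ∈ V')
    (hτ : IsTameGen ℓ V P τ) : IsTameGen ℓ V' (u • P) (u * τ * u⁻¹) := by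
  obtain ⟨mem, proL, gen⟩ := hτ
  have hconj : ∀ g, g ∈ inert F P ⊓ V → u * g * u⁻¹ ∈ inert F (u • P) ⊓ V' := fun g hg =>
    ⟨gen_inert_smul hg.1 u, (hVV' g).1 hg.2⟩
  have hconj' : ∀ g, g ∈ inert F (u • P) ⊓ V' → u⁻¹ * g * u ∈ inert F P ⊓ V := by
    intro g hg
    refine ⟨?_, (hVV' _).2 ?_⟩
    · have := gen_inert_smul hg.1 u⁻¹
      rwa [inv_smul_smul, inv_inv] at this
    · have e : u * (u⁻¹ * g * u) * u⁻¹ = g := by group
      rw [e]; exact hg.2
  refine ⟨hconj τ mem, ?_, ?_⟩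
  · intro W hW
    let W' : Subgroup Gal(E/F) := W.comap (MulAut.conj u).toMonoidHom
    have hW' : IsOpen (W' : Set Gal(E/F)) := by
      have hc : Continuous (fun g : Gal(E/F) => u * g * u⁻¹) :=
        (continuous_const.mul continuous_id).mul continuous_const
      exact hW.preimage hc
    obtain ⟨k, hk⟩ := proL W' hW'
    refine ⟨k, ?_⟩
    have : u * τ ^ ℓ ^ k * u⁻¹ ∈ W := hk
    rwa [← conj_pow] at this
  · intro c hc hc1
    let c' : ↥(inert F P ⊓ V) →* Multiplicative (ZMod ℓ) :=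
      { toFun := fun g => c ⟨u * g.1 * u⁻¹, hconj g.1 g.2⟩
        map_one' := by
          have : (⟨u * ((1 : ↥(inert F P ⊓ V)) : Gal(E/F)) * u⁻¹, hconj _ (1 : ↥(inert F P ⊓ V)).2⟩ :
              ↥(inert F (u • P) ⊓ V')) = 1 := by
            ext1; simp
          rw [this, map_one]
        map_mul' := fun a b => by
          have : (⟨u * ((a * b : ↥(inert F P ⊓ V)) : Gal(E/F)) * u⁻¹, hconj _ (a * b).2⟩ :
              ↥(inert F (u • P) ⊓ V'))
              = ⟨u * a.1 * u⁻¹, hconj a.1 a.2⟩ * ⟨u * b.1 * u⁻¹, hconj b.1 b.2⟩ := by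
            ext1; simp [mul_assoc]
          rw [this, map_mul] }
    have hc' : Continuous c' := by
      apply hc.comp
      apply Continuous.subtype_mk
      exact (continuous_const.mul continuous_subtype_val).mul continuous_const
    have h1 := gen c' hc' hc1
    ext1 g
    have h2 := congrArg (fun f => f ⟨u⁻¹ * g.1 * u, hconj' g.1 g.2⟩) h1
    simp only [MonoidHom.one_apply] at h2 ⊢
    rw [← h2]
    change c g = c ⟨u * (u⁻¹ * g.1 * u) * u⁻¹, _⟩
    congr 1
    ext1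
    simp [mul_assoc]

variable {Ω : Type} [Field Ω] [Algebra ℚ Ω] [IsGalois ℚ Ω]
variable {Qs : Type} [Field Qs] [Algebra ℚ Qs] [IsGalois ℚ Qs]
variable {F₂ E₂ : Type} [Field F₂] [NumberField F₂] [Field E₂] [Algebra F₂ E₂] [IsGalois F₂ E₂]

omit [IsGalois ℚ Ω] [IsGalois ℚ Qs] in
/-- for the base field `ℚ` the group `S₂` is everything. -/
theorem mat_fin_S₂_top (D : mat_StdRes Ω ℚ Qs) (h : Gal(Ω/ℚ)) : h ∈ D.S₂ :=
  D.mem h fun x => by
    have : D.ι (algebraMap ℚ Qs x) = algebraMap ℚ Ω x := by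
      rw [eq_ratCast (algebraMap ℚ Qs), eq_ratCast (algebraMap ℚ Ω), map_ratCast]
    rw [this, AlgEquiv.commutes]

end Claimed.Agent.R239
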