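/-
Row 239 / MATCH (owner helper92).  Part D: "all primes active ⇒ (H1) + (H2)", and iso-rigidity of subgroups of
`P = Gal(Qs/ℚ)` (replaces Uchida 1979; this is `hrig` of `gen_main`).
-/
import Claimed.Agent.R239.MATCH.Engine
import Claimed.Agent.R239.SPL.L54

set_option autoImplicit false

namespace Claimed.Agent.R239

open NumberField Claims.C0403
open scoped Pointwise

variable {Ω : Type} [Field Ω] [Algebra ℚ Ω] [IsGalois ℚ Ω]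
variable {F₂ E₂ : Type} [Field F₂] [NumberField F₂] [Field E₂] [Algebra F₂ E₂] [IsGalois F₂ E₂]

/-- "every prime is active at every odd `ℓ`". -/
def mat_AllActive (T : Subgroup Gal(Ω/ℚ)) (φ : T →* Gal(E₂/F₂)) : Prop :=
  ∀ (ℓ : ℕ) [Fact ℓ.Prime], ℓ ≠ 2 → ∀ (P : Ideal (𝓞 Ω)) (τ : T), P.IsMaximal →
      ¬ Over P ℓ → IsTameGen ℓ T P τ.1 → φ τ ≠ 1

/-- D2a.  All active ⇒ every `P ∤ ℓ` has a partner (`tame_exists_gen`, `mat_lc` at level `T`). -/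
theorem mat_allactive_partner (hΩ : IsAlgClosed Ω) (hE₂ : SolvablyClosed E₂)
    (T : Subgroup Gal(Ω/ℚ)) (hT : IsOpen (T : Set Gal(Ω/ℚ)))
    (φ : T →* Gal(E₂/F₂)) (hφ : Continuous φ) (hact : mat_AllActive T φ)
    (ℓ : ℕ) [Fact ℓ.Prime] (hℓ : ℓ ≠ 2) (P : Ideal (𝓞 Ω)) (hP : P.IsMaximal) (hPl : ¬ Over P ℓ) :
    ∃ Q : Ideal (𝓞 E₂), mat_Active ℓ T φ P Q := by
  have hΩs : SolvablyClosed Ω := mat_solvablyClosed_of_isAlgClosed hΩ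
  obtain ⟨τ, hτ⟩ := tame_exists_gen (ℓ := ℓ) hΩs T hT P hPl
  obtain ⟨Q, hQ, -⟩ := mat_lc hΩ hE₂ ℓ hℓ T hT φ hφ P hP hPl τ hτ
    (hact ℓ hℓ P ⟨τ, hτ.mem.2⟩ hP hPl hτ)
  exact ⟨Q, hQ⟩

/-- D2b.  (H1) for every odd `r`: `y = logχ_r∘φ - logχ_r ∈ X_r(M_T)` vanishes at one Frobenius lift for
each `P ∤ r` (D2a); restrict to `q` split completely in the core of `T` (`mat_split_infinite`,
`mat_normAt_of_decomp_le`) and apply `xl_detect`. -/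
theorem mat_allactive_H1 (hΩ : IsAlgClosed Ω) (hE₂ : SolvablyClosed E₂)
    (T : Subgroup Gal(Ω/ℚ)) (hT : IsOpen (T : Set Gal(Ω/ℚ)))
    (φ : T →* Gal(E₂/F₂)) (hφ : Continuous φ) (hact : mat_AllActive T φ)
    (r : ℕ) [Fact r.Prime] (hr : r ≠ 2) (g : T) :
    logChi r F₂ E₂ (φ g) = logChi r ℚ Ω g.1 := by
  have hΩs : SolvablyClosed Ω := mat_solvablyClosed_of_isAlgClosed hΩ
  have : CharZero Ω := algebraRat.charZero Ω
  let y : XChar r T := XChar.comap φ hφ ⟨logChi r F₂ E₂, logChi_mem⟩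
    - XChar.comap T.subtype continuous_subtype_val ⟨logChi r ℚ Ω, logChi_mem⟩
  have hy : ∀ g : T, y.1 g = logChi r F₂ E₂ (φ g) - logChi r ℚ Ω g.1 := fun g => rfl
  obtain ⟨N, hNn, hNo, hNT⟩ := mat_exists_normal_le T hT
  have hinf := (mat_split_infinite N hNo).sdiff (Set.finite_singleton r)
  have hy0 : y = 0 := by
    refine mat_det hΩs r hr T hT y _ hinf ?_
    rintro q ⟨⟨hq, hsplit⟩, hqr⟩
    obtain ⟨P, hP, hPq⟩ := mat_exists_over (E := Ω) q hq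
    have hPr : ¬ Over P r := mat_not_over P hP q r hq Fact.out hPq hqr
    obtain ⟨Q, hQ⟩ := mat_allactive_partner hΩ hE₂ T hT φ hφ hact r hr P hP hPr
    obtain ⟨σ, hσ, -, hχ⟩ := hQ.wit
    refine ⟨hq, P, σ, hP, hPq,
      mat_normAt_of_decomp_le T hT P hP q hq hPq ((hsplit P hP hPq).trans hNT), hσ, ?_⟩
    rw [hy, logChi, logChi, hχ, sub_self]
  have := hy g
  rw [hy0] at this
  exact (sub_eq_zero.1 this.symm)

/-- D2c.  `χ_ℓ ∘ φ ≡ χ_ℓ mod ℓ` for every odd `ℓ`: `ε = (χ_ℓ∘φ)/χ_ℓ mod ℓ : T → (ZMod ℓ)ˣ` has open kernel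
(continuity of `χ_ℓ mod ℓ`: it factors through `Gal` of the `ℓ`-th cyclotomic field) and kills one Frobenius lift at every `P ∤ ℓ`
(D2a); `mat_spl1`. -/
theorem mat_allactive_chi (hΩ : IsAlgClosed Ω) (hE₂ : SolvablyClosed E₂)
    (T : Subgroup Gal(Ω/ℚ)) (hT : IsOpen (T : Set Gal(Ω/ℚ)))
    (φ : T →* Gal(E₂/F₂)) (hφ : Continuous φ) (hact : mat_AllActive T φ)
    (ℓ : ℕ) [Fact ℓ.Prime] (hℓ : ℓ ≠ 2) (g : T) :
    PadicInt.toZMod ((chi ℓ F₂ E₂ (φ g) : ℤ_[ℓ]ˣ) : ℤ_[ℓ])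
      = PadicInt.toZMod ((chi ℓ ℚ Ω g.1 : ℤ_[ℓ]ˣ) : ℤ_[ℓ]) := by
  have h1 : mat_epsMod ℓ T φ = 1 := by
    refine mat_spl1 T hT _ (mat_epsMod_ker_isOpen ℓ T φ hφ) {ℓ} ?_
    intro P p hP hp hPp hpl
    have hpl' : p ≠ ℓ := by simpa using hpl
    have hPl : ¬ Over P ℓ := mat_not_over P hP p ℓ hp Fact.out hPp hpl'
    obtain ⟨Q, hQ⟩ := mat_allactive_partner hΩ hE₂ T hT φ hφ hact ℓ hℓ P hP hPl
    obtain ⟨σ, hσ, -, hχ⟩ := hQ.wit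
    exact ⟨σ, hσ, (mat_epsMod_eq_one_iff ℓ T φ σ).2 (by rw [hχ])⟩
  exact (mat_epsMod_eq_one_iff ℓ T φ g).1 (by rw [h1]; rfl)

/-- D2d.  Same residue characteristic: an active pair (at `ℓ₀`) over `(p, q)` has `p = q`.
Sketch: else `SPL.spl_power_separation` (`n = 1`, `q₁ = q`, `P₁ = {p}`, `d = [M_T:ℚ]`, avoid `{p, q}`) gives
an odd `ℓ'`; `σ` the Frobenius lift of the pair: `χ_ℓ'(φσ) ≡ χ_ℓ'(σ) = N v = p^f` (D2c, `chi_frob`,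
`hil_normAt`) and `≡ q^e` (`mat_chi_decomp`): contradiction. -/
theorem mat_allactive_same (hΩ : IsAlgClosed Ω) (hE₂ : SolvablyClosed E₂)
    (T : Subgroup Gal(Ω/ℚ)) (hT : IsOpen (T : Set Gal(Ω/ℚ)))
    (φ : T →* Gal(E₂/F₂)) (hφ : Continuous φ) (hact : mat_AllActive T φ)
    (ℓ₀ : ℕ) [Fact ℓ₀.Prime] (p q : ℕ) (h : mat_Act ℓ₀ T φ p q) : p = q := by
  by_contra hpq
  have hΩs : SolvablyClosed Ω := mat_solvablyClosed_of_isAlgClosed hΩ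
  obtain ⟨hp, hq, P, Q, hPp, hQq, hA⟩ := h
  obtain ⟨σ, hσ, hφσ, -⟩ := hA.wit
  have hP := hA.Pmax
  have hQ := hA.Qmax
  obtain ⟨ℓ, hℓp, hℓ2, hℓav, -, hsep⟩ := SPL.spl_power_separation 1 (Module.finrank ℚ (fld T))
    le_rfl (n := 1) (fun _ => q) (fun _ => hq) (fun _ => {p}) (fun _ p' hp' => by
      rw [Finset.mem_singleton.1 hp']; exact hp) (fun _ => by
      simpa using fun h : q = p => hpq h.symm) {p, q}
  have : Fact ℓ.Prime := ⟨hℓp⟩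
  have hpl : p ≠ ℓ := fun h => hℓav (by simp [h])
  have hql : q ≠ ℓ := fun h => hℓav (by simp [h])
  have hPl : ¬ Over P ℓ := mat_not_over P hP p ℓ hp hℓp hPp hpl
  obtain ⟨f, hf0, hf, hN⟩ := hil_normAt T hT P hp hPp
  obtain ⟨e, he⟩ := mat_chi_decomp hE₂ ℓ Q hQ q hq hQq hql (φ σ) hφσ
  have h1 := mat_allactive_chi hΩ hE₂ T hT φ hφ hact ℓ hℓ2 σ
  rw [he, chi_frob hΩs hPl hσ, hN] at h1
  have hf' : f ≤ Module.finrank ℚ (fld T) := by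
    convert hf using 2
    exact Subsingleton.elim _ _
  refine hsep 0 p (by simp) f hf0 hf' e ?_
  simpa using h1.symm

/-- D2e.  (H2).  Given a normal level `V ≤ T`: for `q ∉ {3}` split completely at `V` (`mat_split_infinite`), `P | q`,
partner `Q` at `ℓ₀ = 3` (D2a), over the same `q` (D2d, `hil_exists_over`); its Frobenius lift for `T` is
one for `V` (`mat_frob_split`), `normAt V P = q` (`mat_normAt_of_decomp_le`). -/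
theorem mat_allactive_H2 (hΩ : IsAlgClosed Ω) (hE₂ : SolvablyClosed E₂)
    (T : Subgroup Gal(Ω/ℚ)) (hT : IsOpen (T : Set Gal(Ω/ℚ)))
    (φ : T →* Gal(E₂/F₂)) (hφ : Continuous φ) (hact : mat_AllActive T φ) : mat_H2 T φ := by
  intro V hVo hVn hVT
  have : CharZero Ω := algebraRat.charZero Ω
  have : Fact (Nat.Prime 3) := ⟨by norm_num⟩
  refine ((mat_split_infinite V hVo).sdiff (Set.finite_singleton 3)).mono ?_
  rintro q ⟨⟨hq, hsplit⟩, hq3⟩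
  obtain ⟨P, hP, hPq⟩ := mat_exists_over (E := Ω) q hq
  have hP3 : ¬ Over P 3 := mat_not_over P hP q 3 hq (by norm_num) hPq hq3
  obtain ⟨Q, hQ⟩ := mat_allactive_partner hΩ hE₂ T hT φ hφ hact 3 (by norm_num) P hP hP3
  have hQm := hQ.Qmax
  obtain ⟨q', hq', hQq'⟩ := hil_exists_over Q
  have hsame : q = q' := mat_allactive_same hΩ hE₂ T hT φ hφ hact 3 q q' ⟨hq, hq', P, Q, hPq, hQq', hQ⟩
  obtain ⟨σ, hσ, hφσ, -⟩ := hQ.wit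
  have hD := hsplit P hP hPq
  exact ⟨hq, P, Q, σ.1, mat_frob_split T V hVo hVT P hP q hq hPq hD σ.1 hσ, hP, hQm, hPq,
    hsame ▸ hQq', mat_normAt_of_decomp_le V hVo P hP q hq hPq hD, hφσ⟩


/-- D2f.  Ordinary restriction does not kill tame generators (any level `U ≤ S₂`).
Sketch: `N` = normal core of `U` in `S₂`; `τ₁` a tame generator at level `S₂ = ρ⁻¹⊤` (`tame_exists_gen`);
`tame_sub`: `τ₁^(ℓ^k₁)` and `τ^(ℓ^k)` are tame generators at level `N`; `tame_conj`: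
`τ₁^(ℓ^k₁) ∈ closure ⟨i τ^(ℓ^k) i⁻¹⟩`.  If `ρ τ = 1` then `(ρ τ₁)^(ℓ^k₁) = 1` (continuity); but `ρ τ₁` is a tame
generator of `Gal(E₂/F₂)` at level `⊤` (`mat_tame_push`), contradicting `tame_gen_pow_ne_one`. -/
theorem mat_rho_tame_ne_one (hΩ : IsAlgClosed Ω) (hE₂ : SolvablyClosed E₂) (D : mat_StdRes Ω F₂ E₂)
    (ℓ : ℕ) [Fact ℓ.Prime] (U : Subgroup Gal(Ω/ℚ)) (hU : IsOpen (U : Set Gal(Ω/ℚ)))
    (hUS : U ≤ D.S₂) (P : Ideal (𝓞 Ω)) (hP : P.IsMaximal) (hPl : ¬ Over P ℓ) (τ : Gal(Ω/ℚ))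
    (hτ : IsTameGen ℓ U P τ) : D.ρ ⟨τ, hUS hτ.mem.2⟩ ≠ 1 := by
  intro h1
  have hΩs : SolvablyClosed Ω := mat_solvablyClosed_of_isAlgClosed hΩ
  obtain ⟨N, hNn, hNo, hNU⟩ := mat_exists_normal_le U hU
  obtain ⟨τ₁, hτ₁⟩ := tame_exists_gen (ℓ := ℓ) hΩs D.S₂ D.isOpen P hPl
  obtain ⟨k₁, hk₁⟩ := tame_sub hΩs hNo (hNU.trans hUS) (fun u _ v hv => hNn.conj_mem v hv u)
    hPl hτ₁
  obtain ⟨k, hk⟩ := tame_sub hΩs hNo hNU (fun u _ v hv => hNn.conj_mem v hv u) hPl hτ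
  obtain ⟨i, hi, hcl⟩ := tame_conj hΩs hNo hPl hk hk₁
  -- the kernel of `ρ` is closed in `GG`
  have hKc : IsClosed ((D.ρ.ker.map D.S₂.subtype : Subgroup Gal(Ω/ℚ)) : Set Gal(Ω/ℚ)) := by
    have hSc : IsClosed (D.S₂ : Set Gal(Ω/ℚ)) := Subgroup.isClosed_of_isOpen _ D.isOpen
    have : ((D.ρ.ker.map D.S₂.subtype : Subgroup Gal(Ω/ℚ)) : Set Gal(Ω/ℚ))
        = Subtype.val '' (D.ρ ⁻¹' {1}) := rfl
    rw [this]
    exact hSc.isClosedMap_subtype_val _ (isClosed_singleton.preimage D.cont)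
  have hiS : i ∈ D.S₂ := hUS (hNU hi.2)
  have hmem : i * τ ^ ℓ ^ k * i⁻¹ ∈ D.ρ.ker.map D.S₂.subtype := by
    refine ⟨⟨i, hiS⟩ * ⟨τ, hUS hτ.mem.2⟩ ^ ℓ ^ k * ⟨i, hiS⟩⁻¹, ?_, ?_⟩
    · simp only [SetLike.mem_coe, MonoidHom.mem_ker, map_mul, map_pow, h1, one_pow, mul_one,
        map_inv, mul_inv_cancel]
    · simp only [Subgroup.subtype_apply, Subgroup.coe_mul, Subgroup.coe_pow, Subgroup.coe_inv]
  have hle : closure (Subgroup.zpowers (i * τ ^ ℓ ^ k * i⁻¹) : Set Gal(Ω/ℚ))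
      ⊆ ((D.ρ.ker.map D.S₂.subtype : Subgroup Gal(Ω/ℚ)) : Set Gal(Ω/ℚ)) :=
    hKc.closure_subset_iff.2 (by
      have : Subgroup.zpowers (i * τ ^ ℓ ^ k * i⁻¹) ≤ D.ρ.ker.map D.S₂.subtype :=
        (Subgroup.zpowers_le).2 hmem
      exact this)
  obtain ⟨s, hs, hs'⟩ := hle hcl
  have hτ₁S : τ₁ ∈ D.S₂ := hτ₁.mem.2
  have hs'' : s = ⟨τ₁, hτ₁S⟩ ^ ℓ ^ k₁ := by
    apply Subtype.ext
    rw [Subgroup.coe_pow]
    exact hs'
  have hpow : (D.ρ ⟨τ₁, hτ₁S⟩) ^ ℓ ^ k₁ = 1 := by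
    rw [← map_pow, ← hs'']
    exact hs
  have htop : ((⊤ : Subgroup Gal(E₂/F₂)).comap D.ρ).map D.S₂.subtype = D.S₂ := by
    rw [Subgroup.comap_top, ← MonoidHom.range_eq_map, Subgroup.range_subtype]
  have hpush := mat_tame_push hΩ D ℓ ⊤ isOpen_univ P hP ⟨τ₁, hτ₁S⟩ (by rw [htop]; exact hτ₁)
  have := mat_pull_isMaximal D P hP
  exact tame_gen_pow_ne_one hE₂ isOpen_univ (fun h => hPl ((mat_pull_over D P ℓ).1 h)) hpush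
    (pow_pos (Nat.Prime.pos Fact.out) k₁) hpow

section Rigidity

variable {Qs : Type} [Field Qs] [Algebra ℚ Qs] [IsGalois ℚ Qs]

omit [IsGalois ℚ Ω] [IsGalois ℚ Qs] in
theorem mat_stdRes_top (D : mat_StdRes Ω ℚ Qs) : D.S₂ = ⊤ := by
  rw [eq_top_iff]
  intro h _
  refine D.mem h fun x => ?_
  have : D.ι (algebraMap ℚ Qs x) = algebraMap ℚ Ω x := by
    simp
  rw [this, AlgEquiv.commutes]

/-- D3  Iso-rigidity (Uchida 1979 for subgroups of `P`); `hrig` of `gen_main` is the case `A₁ = A₂`.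
Sketch: `Ω := AlgebraicClosure Qs`, `D : mat_StdRes Ω ℚ Qs` (`S₂ = ⊤` by `D.mem`), `T = ρ⁻¹A₁`,
`φ = θ ∘ ρ`.  `ρ τ ≠ 1` (D2f), `θ` injective: all primes active.  D2b + D2e + `mat_engine_group` give `γ`
with `θ(ρ t) = ρ(γ⁻¹tγ)`; `a = (ρ γ)⁻¹`.  Uniqueness: two solutions differ by an element
centralising `A₁` (`mat_centralizer`). -/
theorem mat_iso_rigidity (hQs : SolvablyClosed Qs) (A₁ A₂ : Subgroup Gal(Qs/ℚ))
    (h₁ : IsOpen (A₁ : Set Gal(Qs/ℚ))) (θ : A₁ ≃* A₂)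
    (hθ : Continuous θ) : ∃! a : Gal(Qs/ℚ), ∀ g : A₁, (θ g : Gal(Qs/ℚ)) = a * g.1 * a⁻¹ := by
  have hGal : IsGalois ℚ (AlgebraicClosure Qs) := IsAlgClosure.isGalois ℚ (AlgebraicClosure Qs)
  have hΩ : IsAlgClosed (AlgebraicClosure Qs) := inferInstance
  obtain ⟨D⟩ := mat_stdRes_exists (Ω := AlgebraicClosure Qs) (F₂ := ℚ) (E₂ := Qs) hΩ
  have hT := mat_isOpen_lvl D.S₂ D.isOpen D.ρ D.cont A₁ h₁
  set T : Subgroup Gal(AlgebraicClosure Qs/ℚ) := (A₁.comap D.ρ).map D.S₂.subtype with hTdef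
  have hTS : T ≤ D.S₂ := fun h hh => (mat_mem_lvl.1 hh).1
  have hTA : ∀ h : T, D.ρ ⟨h.1, hTS h.2⟩ ∈ A₁ := fun h => (mat_mem_lvl.1 h.2).2
  let φ : T →* Gal(Qs/ℚ) := A₂.subtype.comp (θ.toMonoidHom.comp (mat_res D.ρ hTS hTA))
  have hφ : Continuous φ :=
    continuous_subtype_val.comp (hθ.comp (mat_res_continuous D.ρ D.cont hTS hTA))
  have hφa : ∀ t : T, φ t = (θ (mat_res D.ρ hTS hTA t) : Gal(Qs/ℚ)) := fun t => rfl
  have hact : mat_AllActive T φ := by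
    intro ℓ _ _ P τ hP hPl hτ h1
    have h2 : θ (mat_res D.ρ hTS hTA τ) = 1 := Subtype.ext h1
    have h3 : mat_res D.ρ hTS hTA τ = 1 := by
      rwa [map_eq_one_iff θ θ.injective] at h2
    have h4 : D.ρ ⟨τ.1, hTS τ.2⟩ = 1 := congrArg Subtype.val h3
    exact mat_rho_tame_ne_one hΩ hQs D ℓ T hT hTS P hP hPl τ.1 hτ h4
  have : Fact (Nat.Prime 3) := ⟨by norm_num⟩
  obtain ⟨γ, hγ⟩ := mat_engine_group hΩ hQs D T hT φ hφ 3 (by norm_num)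
    (fun g => mat_allactive_H1 hΩ hQs T hT φ hφ hact 3 (by norm_num) g)
    (mat_allactive_H2 hΩ hQs T hT φ hφ hact)
  have hγS : γ ∈ D.S₂ := by rw [mat_stdRes_top D]; trivial
  refine ⟨(D.ρ ⟨γ, hγS⟩)⁻¹, ?_, ?_⟩
  · intro g
    obtain ⟨t, ht⟩ := D.surj g.1
    have htT : t.1 ∈ T := mat_mem_lvl.2 ⟨t.2, by rw [ht]; exact g.2⟩
    obtain ⟨hc, h⟩ := hγ ⟨t.1, htT⟩
    have e1 : mat_res D.ρ hTS hTA ⟨t.1, htT⟩ = g := Subtype.ext ht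
    rw [hφa, e1] at h
    rw [← h]
    have e2 : (⟨γ⁻¹ * t.1 * γ, hc⟩ : D.S₂) = ⟨γ, hγS⟩⁻¹ * t * ⟨γ, hγS⟩ := Subtype.ext rfl
    rw [e2, map_mul, map_mul, map_inv, ht, inv_inv]
  · intro a' ha'
    have hcomm : ∀ g ∈ A₁, (D.ρ ⟨γ, hγS⟩ * a') * g = g * (D.ρ ⟨γ, hγS⟩ * a') := by
      intro g hg
      obtain ⟨t, ht⟩ := D.surj g
      have htT : t.1 ∈ T := mat_mem_lvl.2 ⟨t.2, by rw [ht]; exact hg⟩
      obtain ⟨hc, h⟩ := hγ ⟨t.1, htT⟩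
      have e1 : mat_res D.ρ hTS hTA ⟨t.1, htT⟩ = ⟨g, hg⟩ := Subtype.ext ht
      rw [hφa, e1, ha' ⟨g, hg⟩] at h
      have e2 : (⟨γ⁻¹ * t.1 * γ, hc⟩ : D.S₂) = ⟨γ, hγS⟩⁻¹ * t * ⟨γ, hγS⟩ := Subtype.ext rfl
      rw [e2, map_mul, map_mul, map_inv, ht] at h
      -- h : ρ(γ)⁻¹ * g * ρ(γ) = a' * g * a'⁻¹
      have h5 : g * (D.ρ ⟨γ, hγS⟩ * a') = D.ρ ⟨γ, hγS⟩ * (a' * g * a'⁻¹) * a' := by
        rw [← h]; group
      rw [h5]; group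
    have := mat_centralizer hQs A₁ h₁ _ hcomm
    exact eq_inv_of_mul_eq_one_right this

end Rigidity

end Claimed.Agent.R239
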