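/-
Row 239 / MATCH (owner helper92).  K7: the eigenspace count behind Prop 5.3.  MATHLIB ONLY (abstract number field).

`K` a number field, `s` an automorphism of order `e ∣ ℓ - 1`, `w` an integer of exact order `e` modulo `ℓ` with
`w^e ≡ 1 mod ℓ^n`.  Among the classes `[d] ∈ Kˣ/(Kˣ)^(ℓ^n)` with `ℓ^n ∣ ord_u(d)` for all `u ∤ ℓ` and
`s d ≡ d^w`, at most `C ℓ^(n · 2[K:ℚ]/e)` are distinct, `C` independent of `n` and `w`.

PROOF PLAN (three homomorphisms with controlled kernels; `H` = the group of such classes).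
 (a) VALUATIONS AT `ℓ`.  `d ↦ (ord_u d mod ℓ^n)_{u ∣ ℓ}` lands in `{f : S_ℓ → ZMod (ℓ^n) | f(s⁻¹u) = w f(u)}`.  On an orbit of
     size `m < e`: `(w^m - 1) f = 0` and `w^m - 1` is a unit, so `f = 0`; on a free orbit `f` is determined by one value.
     So the image has at most `ℓ^(n #S_ℓ/e)` elements, and `#S_ℓ ≤ [K:ℚ]`.
 (b) CLASS GROUP.  In the kernel of (a): `(d) = 𝔞^(ℓ^n)`; `d ↦ [𝔞] ∈ Cl(K)`; at most `h_K` values.
 (c) UNITS.  In the kernel of (b): `d = u y^(ℓ^n)`, `u ∈ 𝓞ˣ`, `s u ≡ u^w` modulo `(𝓞ˣ)^(ℓ^n)`.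
     CLAIM: `#{ū ∈ 𝓞ˣ/(𝓞ˣ)^(ℓ^n) | s ū = ū^w} ≤ c ℓ^(n #S_∞/e)`, `#S_∞ ≤ [K:ℚ]`.
     Artin units: for each infinite place `v₀` Mathlib gives a unit `u` with `|u|_v < 1` for all `v ≠ v₀`
     (`NumberField.Units.dirichletUnitTheorem.exists_unit`).  For an orbit representative `v₀` with stabiliser `⟨s^m⟩`
     put `η_{v₀} = ∏_{h ∈ Stab} h u`, `η_{s^i v₀} = s^i η_{v₀}`.  The `η_v` generate a subgroup `Λ₃` of finite index `c` in `𝓞ˣ`
     (diagonally dominant matrix, as in Mathlib's proof of `unitLattice_span_eq_top`).  Let `π = g(s)/g(w)` with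
     `X^e - 1 = (X - w) g(X)` mod `ℓ^n`, `g(w) = e w^(e-1)` a unit: `π` is the projector of `𝓞ˣ/ℓ^n` onto the `w`-eigenspace.
     `π(Λ₃/ℓ^n)` is generated over `ZMod (ℓ^n)` by the `π η_{v₀}` (one per orbit, since `π s = w π`), and
     `π η_{v₀} = 0` on non-free orbits (`(w^m - 1) π η = 0`).  The eigenspace is `π(𝓞ˣ/ℓ^n)`, in which `π(Λ₃/ℓ^n)` has index `≤ c`.
-/
import Claimed.Agent.R239.MATCH.KumBoundNF

set_option autoImplicit false

namespace Claimed.Agent.R239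

open NumberField

theorem mat_kummer_eigen_bound (K : Type) [Field K] [NumberField K] (ℓ : ℕ) [Fact ℓ.Prime]
    (s : K ≃ₐ[ℚ] K) (e : ℕ) (he : orderOf s = e) (hel : e ∣ ℓ - 1) :
    ∃ C : ℕ, ∀ (n w : ℕ) (D : Finset Kˣ), orderOf (w : ZMod ℓ) = e → (w : ZMod (ℓ ^ n)) ^ e = 1 →
      (∀ d ∈ D, (∀ u : IsDedekindDomain.HeightOneSpectrum (𝓞 K), (ℓ : 𝓞 K) ∉ u.asIdeal →
          ∃ y : WithZero (Multiplicative ℤ), u.valuation K (d : K) = y ^ (ℓ ^ n)) ∧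
        ∃ y : Kˣ, s (d : K) = (d : K) ^ w * (y : K) ^ (ℓ ^ n)) →
      (∀ d ∈ D, ∀ d' ∈ D, (∃ y : Kˣ, (d : K) = d' * (y : K) ^ (ℓ ^ n)) → d = d') →
      D.card ≤ C * ℓ ^ (n * (2 * Module.finrank ℚ K / e)) := by
  classical
  have hℓ : ℓ.Prime := Fact.out
  have he0 : 0 < e := he ▸ orderOf_pos s
  -- orbit representatives
  obtain ⟨hfin, hcardℓ⟩ := mat_kb_Sl_card (K := K) ℓ
  let _ : Fintype (MatKbSl K ℓ) := Fintype.ofFinite _
  obtain ⟨Rl, hRl1, hRl2⟩ := mat_kb_orbit_reps (matKbPerm (K := K) s⁻¹ ℓ) e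
  obtain ⟨Ri, hRi1, hRi2⟩ := mat_kb_orbit_reps (MulAction.toPerm s : Equiv.Perm (InfinitePlace K)) e
  have hcardi : Fintype.card (InfinitePlace K) ≤ Module.finrank ℚ K := by
    rw [InfinitePlace.card_eq_nrRealPlaces_add_nrComplexPlaces,
      ← InfinitePlace.card_add_two_mul_card_eq_rank K]
    omega
  have hexp : Rl.card + Ri.card ≤ 2 * Module.finrank ℚ K / e := by
    rw [Nat.le_div_iff_mul_le he0, add_mul]
    rw [Nat.card_eq_fintype_card] at hcardℓ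
    omega
  refine ⟨Nat.card (ClassGroup (𝓞 K)) *
    Nat.card ((𝓞 K)ˣ ⧸ Subgroup.closure (Set.range (matKbEta (K := K)))), ?_⟩
  intro n w D hw1 hw2 hD hinj
  have : NeZero ℓ := ⟨hℓ.ne_zero⟩
  have : NeZero (ℓ ^ n) := inferInstance
  obtain ⟨hg, hm⟩ := mat_kb_zmod_units ℓ e he0 hel n w hw1 hw2
  have hs : ∀ x : Kˣ, (matKbS s)^[e] x = x := by
    intro x
    apply Units.ext
    rw [mat_kb_S_iterate, ← he, pow_orderOf_eq_one]
    rfl
  have hA := mat_kb_stepA (matKbS s) e hs (ℓ ^ n) w hw2 hg hm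
    (MulAction.toPerm s : Equiv.Perm (InfinitePlace K)) (fun v => matKbIota K (matKbEta v))
    (fun v => by rw [mat_kb_S_iota, mat_kb_eta_equiv]; rfl) Ri hRi2
  have hDD := mat_kb_stepD s ℓ e (ℓ ^ n) w _ hm Rl hRl2
    (mat_kb_stepC s (ℓ ^ n) w _ (mat_kb_stepB s (ℓ ^ n) w _ hA))
  have h1 := hDD D (fun d hd => by
      obtain ⟨h1, y, hy⟩ := hD d hd
      refine ⟨⟨y, ?_⟩, fun v hv => mat_kb_dvd_ord_of_val v (d : K) (h1 v hv)⟩
      apply Units.ext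
      simpa using hy)
    (fun d hd d' hd' hdd => by
      obtain ⟨t, ht⟩ := mat_kb_mem_pow.1 hdd
      refine hinj d hd d' hd' ⟨t, ?_⟩
      have h2 : d = d' * t ^ (ℓ ^ n) := by rw [ht, mul_div_cancel]
      have := congrArg (fun a : Kˣ => (a : K)) h2
      simpa using this)
  calc D.card ≤ (ℓ ^ n) ^ Rl.card * (Nat.card (ClassGroup (𝓞 K)) *
        (Nat.card ((𝓞 K)ˣ ⧸ Subgroup.closure (Set.range (matKbEta (K := K)))) * (ℓ ^ n) ^ Ri.card)) := h1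
    _ = Nat.card (ClassGroup (𝓞 K)) *
        Nat.card ((𝓞 K)ˣ ⧸ Subgroup.closure (Set.range (matKbEta (K := K)))) *
          ℓ ^ (n * (Rl.card + Ri.card)) := by
        rw [mul_add, pow_add, pow_mul, pow_mul]
        ring
    _ ≤ _ := Nat.mul_le_mul_left _ (Nat.pow_le_pow_right hℓ.pos (Nat.mul_le_mul_left _ hexp))

end Claimed.Agent.R239
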