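/-
Row 239 / MATCH.  FILE MATCH/KumElem.lean (owner helper199): MATHLIB-ONLY auxiliaries of MATCH/Kummer.lean:
counting, `padicValRat` of products of primes, kernel of the Kummer map, torsion of `ℤ_ℓˣ`,
Hilbert 90 for locally constant cocycles at the infinite level.
-/
import Mathlib

set_option autoImplicit false

namespace Claimed.Agent.R239

theorem mat_ke_count_exponent (ℓ : ℕ) (hℓ : 2 ≤ ℓ) (C s m : ℕ)
    (h : ∀ n : ℕ, ℓ ^ (n * s) ≤ C * ℓ ^ (n * m)) : s ≤ m := by
  by_contra hcon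
  rw [not_le] at hcon
  have h1 := h C
  have h2 : ℓ ^ (C * (m + 1)) ≤ ℓ ^ (C * s) :=
    Nat.pow_le_pow_right (by omega) (Nat.mul_le_mul_left _ hcon)
  have h3 : ℓ ^ (C * (m + 1)) = ℓ ^ C * ℓ ^ (C * m) := by
    rw [← pow_add]
    congr 1
    ring
  rw [h3] at h2
  have h4 : ℓ ^ C ≤ C := Nat.le_of_mul_le_mul_right (h2.trans h1) (pow_pos (by omega) _)
  exact absurd h4 (not_le.2 (Nat.lt_pow_self (by omega)))

theorem mat_ke_padicValRat_prod (J : Finset ℕ) (hJ : ∀ q ∈ J, q.Prime) (e : ℕ → ℕ) (q : ℕ)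
    [Fact q.Prime] : padicValRat q (∏ r ∈ J, (r : ℚ) ^ e r) = if q ∈ J then (e q : ℤ) else 0 := by
  classical
  induction J using Finset.induction_on with
  | empty => simp
  | insert r J hr ih =>
    have hr' : r.Prime := hJ r (Finset.mem_insert_self _ _)
    have : Fact r.Prime := ⟨hr'⟩
    have hJ' : ∀ q ∈ J, q.Prime := fun q hq => hJ q (Finset.mem_insert_of_mem hq)
    have hne : (∏ r ∈ J, (r : ℚ) ^ e r) ≠ 0 :=
      Finset.prod_ne_zero_iff.2 fun x hx => pow_ne_zero _ (Nat.cast_ne_zero.2 (hJ' x hx).ne_zero)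
    have hr0 : (r : ℚ) ≠ 0 := Nat.cast_ne_zero.2 hr'.ne_zero
    rw [Finset.prod_insert hr, padicValRat.mul (pow_ne_zero _ hr0) hne, ih hJ', padicValRat.pow,
      padicValRat.of_nat]
    by_cases hqr : q = r
    · subst hqr
      simp [hr]
    · rw [padicValNat_primes hqr]
      simp [hqr]

theorem mat_ke_prod_primes_pow (J : Finset ℕ) (hJ : ∀ q ∈ J, q.Prime) (N : ℕ) (e e' : ℕ → ℕ) (b : ℚ)
    (hb : b ^ N * ∏ q ∈ J, (q : ℚ) ^ e' q = ∏ q ∈ J, (q : ℚ) ^ e q) :
    ∀ q ∈ J, (e q : ZMod N) = e' q := by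
  intro q hq
  have : Fact q.Prime := ⟨hJ q hq⟩
  have hne : ∀ e : ℕ → ℕ, (∏ r ∈ J, (r : ℚ) ^ e r) ≠ 0 := fun e =>
    Finset.prod_ne_zero_iff.2 fun x hx => pow_ne_zero _ (Nat.cast_ne_zero.2 (hJ x hx).ne_zero)
  have hbN : b ^ N ≠ 0 := by
    intro h0
    rw [h0, zero_mul] at hb
    exact hne e hb.symm
  have hval : padicValRat q (b ^ N) = N * padicValRat q b := padicValRat.pow b
  have h1 := congrArg (padicValRat q) hb
  rw [padicValRat.mul hbN (hne e'), mat_ke_padicValRat_prod J hJ, mat_ke_padicValRat_prod J hJ, if_pos hq,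
    if_pos hq, hval] at h1
  have h2 := congrArg (Int.cast : ℤ → ZMod N) h1
  push_cast at h2
  rw [ZMod.natCast_self, zero_mul, zero_add] at h2
  exact h2.symm


theorem mat_ke_kummer_kernel {k Qs : Type*} [Field k] [Field Qs] [Algebra k Qs] [IsGalois k Qs]
    (ℓ : ℕ) [Fact ℓ.Prime] (A : Subgroup Gal(Qs/k))
    (hidx : ¬ ℓ ∣ A.index) (n : ℕ) (α : Qs) (a : k) (hα : α ^ ℓ ^ n = algebraMap k Qs a)
    (hfix : ∀ g ∈ A, g α = α) : ∃ b : k, b ^ ℓ ^ n = a := by
  have hℓ : ℓ.Prime := Fact.out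
  by_cases ha : a = 0
  · exact ⟨0, by rw [ha, zero_pow (pow_pos hℓ.pos n).ne']⟩
  have hle : A ≤ (IntermediateField.adjoin k {α}).fixingSubgroup := by
    intro g hg
    rw [IntermediateField.mem_fixingSubgroup_iff]
    intro x hx
    have := (IntermediateField.forall_mem_adjoin_smul_eq_self_iff k (S := {α}) g).2
      (by simpa using hfix g hg)
    exact this x hx
  have hdvd : Module.finrank k (IntermediateField.adjoin k {α}) ∣ A.index := by
    rw [IntermediateField.finrank_eq_fixingSubgroup_index]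
    exact Subgroup.index_dvd_of_le hle
  have hcop : Nat.Coprime (Module.finrank k (IntermediateField.adjoin k {α})) (ℓ ^ n) := by
    apply Nat.Coprime.pow_right
    exact ((Nat.Prime.coprime_iff_not_dvd hℓ).2 fun h => hidx (h.trans hdvd)).symm
  have hnorm : (Algebra.norm k (IntermediateField.AdjoinSimple.gen k α)) ^ ℓ ^ n
      = a ^ Module.finrank k (IntermediateField.adjoin k {α}) := by
    have e : (IntermediateField.AdjoinSimple.gen k α) ^ ℓ ^ n
        = algebraMap k (IntermediateField.adjoin k {α}) a := by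
      apply Subtype.ext
      simpa using hα
    rw [← map_pow, e, Algebra.norm_algebraMap]
  have hbez := Nat.gcd_eq_gcd_ab (Module.finrank k (IntermediateField.adjoin k {α})) (ℓ ^ n)
  rw [hcop, Nat.cast_one] at hbez
  refine ⟨(Algebra.norm k (IntermediateField.AdjoinSimple.gen k α)) ^
      (Nat.gcdA (Module.finrank k (IntermediateField.adjoin k {α})) (ℓ ^ n)) *
      a ^ (Nat.gcdB (Module.finrank k (IntermediateField.adjoin k {α})) (ℓ ^ n)), ?_⟩
  generalize Algebra.norm k (IntermediateField.AdjoinSimple.gen k α) = ν at hnorm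
  generalize Nat.gcdA (Module.finrank k (IntermediateField.adjoin k {α})) (ℓ ^ n) = x at hbez
  generalize Nat.gcdB (Module.finrank k (IntermediateField.adjoin k {α})) (ℓ ^ n) = y at hbez
  have h1 : (ν ^ x) ^ ℓ ^ n = a ^ ((Module.finrank k (IntermediateField.adjoin k {α}) : ℤ) * x) := by
    rw [← zpow_natCast, ← zpow_mul, mul_comm, zpow_mul, zpow_natCast, hnorm, zpow_mul, zpow_natCast]
  have h2 : (a ^ y) ^ ℓ ^ n = a ^ (((ℓ ^ n : ℕ) : ℤ) * y) := by
    rw [← zpow_natCast, ← zpow_mul, mul_comm]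
  rw [mul_pow, h1, h2, ← zpow_add₀ ha, ← hbez, zpow_one]

/-- `1 + ℓ ℤ_ℓ` is torsion free (`ℓ` odd). -/
theorem mat_ke_one_units_torsion (ℓ : ℕ) [Fact ℓ.Prime] (hℓ : ℓ ≠ 2) (v : ℤ_[ℓ])
    (hv : (ℓ : ℤ_[ℓ]) ∣ v - 1) (n : ℕ) (hn : 0 < n) (hvn : v ^ n = 1) : v = 1 := by
  have hp : ℓ.Prime := Fact.out
  have hprime : Prime (ℓ : ℤ_[ℓ]) := PadicInt.prime_p
  have hodd : Odd ℓ := hp.odd_of_ne_two hℓ
  have hndvd : ∀ k : ℕ, ¬ (ℓ : ℤ_[ℓ]) ∣ v ^ k := by
    intro k hk
    have h1 : (ℓ : ℤ_[ℓ]) ∣ v := hprime.dvd_of_dvd_pow hk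
    have h2 : (ℓ : ℤ_[ℓ]) ∣ 1 := by
      have := dvd_sub h1 hv
      simpa using this
    exact hprime.not_isUnit (isUnit_of_dvd_one h2)
  obtain ⟨a, m, hm, rfl⟩ := Nat.exists_eq_pow_mul_and_not_dvd hn.ne' ℓ hp.ne_one
  have hm' : ¬ (ℓ : ℤ_[ℓ]) ∣ (m : ℤ_[ℓ]) := by
    intro h
    apply hm
    rw [← PadicInt.norm_lt_one_iff_dvd] at h
    have h' : ‖((m : ℤ) : ℤ_[ℓ])‖ < 1 := by simpa using h
    rw [PadicInt.norm_int_lt_one_iff_dvd] at h'
    exact_mod_cast h'
  have h1 := emultiplicity_pow_prime_pow_sub_pow_prime_pow hprime hodd (x := v) (y := 1) hv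
    (by simpa using hndvd 1) a
  have hdvd2 : (ℓ : ℤ_[ℓ]) ∣ v ^ ℓ ^ a - 1 ^ ℓ ^ a := (hv.trans (sub_dvd_pow_sub_pow v 1 _))
  have h2 := emultiplicity_pow_sub_pow_of_prime hprime hdvd2 (hndvd _) hm'
  rw [← pow_mul, hvn, one_pow, one_pow, sub_self, emultiplicity_zero] at h2
  rw [one_pow] at h1
  rw [← h2] at h1
  by_contra hv1
  have hfin : FiniteMultiplicity (ℓ : ℤ_[ℓ]) (v - 1) :=
    FiniteMultiplicity.of_prime_left hprime (sub_ne_zero.2 hv1)
  have h3 := emultiplicity_lt_top.2 hfin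
  have h4 : emultiplicity (ℓ : ℤ_[ℓ]) (v - 1) + a < ⊤ := by
    exact ENat.add_lt_top.2 ⟨h3, ENat.natCast_lt_top a⟩
  rw [← h1] at h4
  exact lt_irrefl _ h4

theorem mat_ke_padic_torsion (ℓ : ℕ) [Fact ℓ.Prime] (hℓ : ℓ ≠ 2) (u : ℤ_[ℓ]ˣ) (n : ℕ) (hn : 0 < n)
    (hu : u ^ n = 1) : u ^ (ℓ - 1) = 1 := by
  have hdvd : (ℓ : ℤ_[ℓ]) ∣ ((u ^ (ℓ - 1) : ℤ_[ℓ]ˣ) : ℤ_[ℓ]) - 1 := by
    rw [← PadicInt.norm_lt_one_iff_dvd, ← PadicInt.mem_nonunits, ← IsLocalRing.mem_maximalIdeal,
      ← PadicInt.ker_toZMod, RingHom.mem_ker, map_sub, map_one, Units.val_pow_eq_pow_val, map_pow,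
      sub_eq_zero]
    apply ZMod.pow_card_sub_one_eq_one
    exact (u.isUnit.map (PadicInt.toZMod (p := ℓ))).ne_zero
  apply Units.ext
  apply mat_ke_one_units_torsion ℓ hℓ _ hdvd n hn
  rw [← Units.val_pow_eq_pow_val, ← pow_mul, mul_comm, pow_mul, hu, one_pow, Units.val_one]

/-- Hilbert 90 for a locally constant cocycle on a subgroup of an infinite Galois group
(Poincaré series over `U' / N` + Dedekind independence). -/
theorem mat_ke_hilbert90 {k K : Type*} [Field k] [Field K] [Algebra k K] [IsGalois k K]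
    (U' : Subgroup Gal(K/k)) (c : U' → K) (hc0 : ∀ h, c h ≠ 0)
    (hcoc : ∀ h h' : U', c (h * h') = h.1 (c h') * c h)
    (N : Subgroup Gal(K/k)) (hN : IsOpen (N : Set Gal(K/k)))
    (hcN : ∀ h : U', h.1 ∈ N → c h = 1) :
    ∃ δ : K, δ ≠ 0 ∧ ∀ h : U', h.1 δ = c h * δ := by
  classical
  have hfinG : Finite (Gal(K/k) ⧸ N) := N.quotient_finite_of_isOpen hN
  have hfi : N.FiniteIndex := Subgroup.finiteIndex_of_finite_quotient
  have hfinQ : Finite (U' ⧸ N.subgroupOf U') := Subgroup.finite_quotient_of_finiteIndex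
  have := Fintype.ofFinite (U' ⧸ N.subgroupOf U')
  -- the characters
  let χ : (U' ⧸ N.subgroupOf U') → (IntermediateField.fixedField N →* K) := fun q =>
    { toFun := fun x => (q.out : U').1 (x : K)
      map_one' := by simp
      map_mul' := fun x y => by simp }
  have hχinj : Function.Injective χ := by
    intro q q' hqq
    have hmem : ((q.out : U').1)⁻¹ * (q'.out : U').1 ∈ N := by
      have hcl := InfiniteGalois.fixingSubgroup_fixedField
        (⟨N, N.isClosed_of_isOpen hN⟩ : ClosedSubgroup Gal(K/k))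
      have : ((q.out : U').1)⁻¹ * (q'.out : U').1 ∈
          (IntermediateField.fixedField N).fixingSubgroup := by
        rw [IntermediateField.mem_fixingSubgroup_iff]
        intro x hx
        have h1 : (q.out : U').1 x = (q'.out : U').1 x :=
          congrArg (fun f : IntermediateField.fixedField N →* K => f ⟨x, hx⟩) hqq
        rw [AlgEquiv.mul_apply, ← h1, ← AlgEquiv.mul_apply, inv_mul_cancel,
          AlgEquiv.one_apply]
      rw [hcl] at this
      exact this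
    have : (QuotientGroup.mk q.out : U' ⧸ N.subgroupOf U') = QuotientGroup.mk q'.out :=
      QuotientGroup.eq.2 hmem
    simpa using this
  have hli : LinearIndependent K (fun q => (χ q : IntermediateField.fixedField N → K)) :=
    (linearIndependent_monoidHom (IntermediateField.fixedField N) K).comp χ hχinj
  obtain ⟨x, hx⟩ : ∃ x : IntermediateField.fixedField N,
      ∑ q : U' ⧸ N.subgroupOf U', c q.out * (q.out : U').1 (x : K) ≠ 0 := by
    by_contra hcon
    simp only [not_exists, not_not] at hcon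
    have h0 : ∑ q : U' ⧸ N.subgroupOf U', c q.out • (χ q : IntermediateField.fixedField N → K) = 0 := by
      funext x
      simp only [Finset.sum_apply, Pi.smul_apply, smul_eq_mul, Pi.zero_apply]
      exact hcon x
    exact hc0 _ (Fintype.linearIndependent_iff.1 hli _ h0 (QuotientGroup.mk 1))
  -- invariance
  have hF : ∀ g : U', c (QuotientGroup.mk g : U' ⧸ N.subgroupOf U').out
      * ((QuotientGroup.mk g : U' ⧸ N.subgroupOf U').out : U').1 (x : K) = c g * g.1 (x : K) := by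
    intro g
    obtain ⟨n, hn⟩ := QuotientGroup.mk_out_eq_mul (N.subgroupOf U') g
    have hnN : (n : U').1 ∈ N := n.2
    rw [hn, hcoc, hcN _ hnN, map_one, one_mul]
    congr 1
    show g.1 ((n : U').1 (x : K)) = _
    rw [(IntermediateField.mem_fixedField_iff _ _).1 x.2 _ hnN]
  refine ⟨(∑ q : U' ⧸ N.subgroupOf U', c q.out * (q.out : U').1 (x : K))⁻¹, inv_ne_zero hx, ?_⟩
  intro h
  have hsum : h.1 (∑ q : U' ⧸ N.subgroupOf U', c q.out * (q.out : U').1 (x : K)) * c h
      = ∑ q : U' ⧸ N.subgroupOf U', c q.out * (q.out : U').1 (x : K) := by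
    have hre := Equiv.sum_comp (MulAction.toPerm h : Equiv.Perm (U' ⧸ N.subgroupOf U'))
      (fun q => c q.out * (q.out : U').1 (x : K))
    rw [map_sum, Finset.sum_mul, ← hre]
    refine Finset.sum_congr rfl fun q _ => ?_
    have e : (MulAction.toPerm h : Equiv.Perm (U' ⧸ N.subgroupOf U')) q
        = QuotientGroup.mk (h * q.out) := by
      conv_lhs => rw [← QuotientGroup.out_eq' q]
      rfl
    have e2 : (h * q.out : U').1 (x : K) = h.1 ((q.out : U').1 (x : K)) := rfl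
    rw [e, hF, hcoc, map_mul, e2]
    ring
  rw [map_inv₀]
  have h1 : h.1 (∑ q : U' ⧸ N.subgroupOf U', c q.out * (q.out : U').1 (x : K)) ≠ 0 :=
    (map_ne_zero _).2 hx
  have h2 := hc0 h
  conv_rhs => rw [← hsum]
  field_simp

end Claimed.Agent.R239
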