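/-
Row 239 / MATCH.  K5 of MATCH/Kummer.lean (`mat_val_of_inertia_fixes`), proved by helper225 (prefix `mat_kv_`).
Finite level: inertia field `T` of `w`; `e(w/T) = #I = e(w/K)` (CFT/P0d `card_inertia`), `CFT.val_algebraMap` twice.
Infinite level: normal closure of `K(δ)` in `E` + `tmb_inert_lift_field` (inertia surjects onto finite level inertia).
-/
import Claimed.Agent.R239.CFT.P0d
import Claimed.Agent.R239.Tame.Tmb

set_option autoImplicit false

namespace Claimed.Agent.R239

open NumberField
open scoped Pointwise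

/-- FINITE LEVEL.  `N / K` a finite Galois extension of number fields, `w` a prime of `N`; if the inertia group of `w`
fixes an `m`-th root `δ ∈ N` of `d ∈ K`, then the valuation of `d` at the prime below `w` is an `m`-th power. -/
theorem mat_kv_finite (K N : Type*) [Field K] [NumberField K] [Field N] [NumberField N] [Algebra K N]
    [IsGalois K N] (w : CFT.Pl N) (m : ℕ) (d : K) (δ : N) (hδ : δ ^ m = algebraMap K N d)
    (hfix : ∀ g ∈ w.asIdeal.inertia Gal(N/K), g δ = δ) :
    ∃ y : WithZero (Multiplicative ℤ), (CFT.below K N w).valuation K d = y ^ m := by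
  set I := w.asIdeal.inertia Gal(N/K) with hI
  let T : IntermediateField K N := IntermediateField.fixedField I
  have hNT : NumberField T := inferInstance
  have hGT : IsGalois T N := inferInstance
  let δ' : T := ⟨δ, (IntermediateField.mem_fixedField_iff _ _).2 hfix⟩
  have htop : w.asIdeal.inertia Gal(N/T) = ⊤ := by
    rw [eq_top_iff]
    intro σ _
    have h1 : σ.restrictScalars K ∈ T.fixingSubgroup := by
      rw [IntermediateField.mem_fixingSubgroup_iff]
      intro x hx
      exact σ.commutes ⟨x, hx⟩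
    rw [IntermediateField.fixingSubgroup_fixedField] at h1
    intro x
    exact h1 x
  have hcard : CFT.eidx T N w = CFT.eidx K N w := by
    rw [← CFT.card_inertia, ← CFT.card_inertia, htop, Subgroup.card_top,
      IsGalois.card_aut_eq_finrank, IntermediateField.finrank_fixedField_eq_card]
  have h1 := CFT.val_algebraMap K N w d
  have h2 := CFT.val_algebraMap T N w δ'
  have h3 : algebraMap K N d = (algebraMap T N δ') ^ m := hδ.symm
  rw [h3, map_pow, h2, hcard, ← pow_mul, mul_comm, pow_mul] at h1
  exact ⟨_, ((pow_left_inj₀ zero_le zero_le (CFT.eidx_pos K N w).ne').1 h1).symm⟩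

/-- INFINITE LEVEL over the base field. -/
theorem mat_kv_base (K E : Type*) [Field K] [NumberField K] [Field E] [Algebra K E] [IsGalois K E]
    (P : Ideal (𝓞 E)) [P.IsMaximal] (u : IsDedekindDomain.HeightOneSpectrum (𝓞 K))
    (hu : P.under (𝓞 K) = u.asIdeal) (m : ℕ) (d : K) (δ : E) (hδ : δ ^ m = algebraMap K E d)
    (hfix : ∀ g ∈ inert K P, g δ = δ) :
    ∃ y : WithZero (Multiplicative ℤ), u.valuation K d = y ^ m := by
  have hint : IsIntegral K δ := Algebra.IsIntegral.isIntegral δ
  have hfd0 : FiniteDimensional K (IntermediateField.adjoin K {δ}) :=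
    IntermediateField.adjoin.finiteDimensional hint
  let N : IntermediateField K E := IntermediateField.normalClosure K (IntermediateField.adjoin K {δ}) E
  have hfd : FiniteDimensional K N := inferInstance
  have hnorm : Normal K N := inferInstance
  have hNF : NumberField N := NumberField.of_module_finite K N
  have hGal : IsGalois K N := ⟨⟩
  have hδN : δ ∈ N :=
    IntermediateField.le_normalClosure _ (IntermediateField.mem_adjoin_simple_self K δ)
  have htower : IsScalarTower (𝓞 K) (𝓞 N) (𝓞 E) := inferInstance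
  have hprime : (P.under (𝓞 N)).IsPrime := inferInstance
  have hunder : (P.under (𝓞 N)).under (𝓞 K) = u.asIdeal := by
    rw [Ideal.under_under, hu]
  have hne : P.under (𝓞 N) ≠ ⊥ := by
    intro h0
    rw [h0] at hunder
    apply u.ne_bot
    rw [← hunder]
    exact Ideal.comap_bot_of_injective _ (FaithfulSMul.algebraMap_injective _ _)
  let w : CFT.Pl N := ⟨P.under (𝓞 N), hprime, hne⟩
  have hbelow : CFT.below K N w = u := IsDedekindDomain.HeightOneSpectrum.ext hunder
  rw [← hbelow]
  refine mat_kv_finite K N w m d ⟨δ, hδN⟩ (Subtype.ext hδ) ?_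
  intro gb hgb
  obtain ⟨g, rfl⟩ := AlgEquiv.restrictNormalHom_surjective E gb
  have hcomm : ∀ x : N, ((AlgEquiv.restrictNormalHom N g x : N) : E) = g (x : E) := fun x =>
    AlgEquiv.restrictNormal_commutes g N x
  have hg : ∀ y : 𝓞 E, (y : E) ∈ N → g • y - y ∈ P := by
    intro y hy
    have hyint : IsIntegral ℤ (⟨(y : E), hy⟩ : N) := by
      rw [← isIntegral_algebraMap_iff (algebraMap N E).injective]
      exact y.2
    let y' : 𝓞 N := ⟨⟨(y : E), hy⟩, hyint⟩
    have h1 : (AlgEquiv.restrictNormalHom N g) • y' - y' ∈ P.under (𝓞 N) := hgb y'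
    rw [Ideal.mem_comap] at h1
    convert h1 using 1
    apply RingOfIntegers.ext
    rw [map_sub]
    exact congrArg (· - (y : E)) (hcomm ⟨(y : E), hy⟩).symm
  obtain ⟨w', hw', hgw⟩ := tmb_inert_lift_field N P g hg
  have h2 := hfix _ hgw
  rw [AlgEquiv.mul_apply, (IntermediateField.mem_fixingSubgroup_iff _ _).1 hw' δ hδN] at h2
  exact Subtype.ext ((hcomm ⟨δ, hδN⟩).trans h2)

/-- K5 -/
theorem mat_kv_val_of_inertia_fixes {E : Type} [Field E] [Algebra ℚ E] [IsGalois ℚ E]
    (U' : Subgroup Gal(E/ℚ)) (hU' : IsOpen (U' : Set Gal(E/ℚ))) [NumberField (fld U')]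
    (m : ℕ) (d : fld U') (_hd : d ≠ 0) (δ : E) (hδ : δ ^ m = (d : E))
    (u : IsDedekindDomain.HeightOneSpectrum (𝓞 (fld U'))) (P : Ideal (𝓞 E)) (hP : P.IsMaximal)
    (hPu : below U' P = u.asIdeal) (hfix : ∀ g ∈ inert ℚ P ⊓ U', g δ = δ) :
    ∃ y : WithZero (Multiplicative ℤ), u.valuation (fld U') d = y ^ m := by
  refine mat_kv_base (fld U') E P u hPu m d δ hδ ?_
  intro g hg
  have h1 := hfix (bcR U' g) ⟨(bcR_mem_inert_iff U' g P).2 hg,
    bcR_mem U' (hilb_isClosed_of_isOpen U' hU') g⟩
  simpa using h1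

end Claimed.Agent.R239
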