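/-
Row 239 / MATCH (owner helper92).  Part E': Prop 5.3 (uniform bound on missed primes) in FINITE-LEVEL Kummer form.
No continuous cohomology, no `S`-unit theorem.  Notation: `ε = (χ_ℓ∘φ)/χ_ℓ : U → ℤ_ℓˣ`, `U' = ker ε` (`K' = fld U'`),
`ι : Qs → Ω` from `D : mat_StdRes Ω ℚ Qs`.  For `a ∈ ℚˣ`, `α ∈ Qs` with `α^(ℓ^n) = a`:
`c₀(g) = φ(g)α/α ∈ μ_{ℓ^n}(Qs)`, a cocycle for `U` acting through `φ`; on `U'` the map `ι ∘ c₀` is a cocycle for the NATURAL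
action on `μ_{ℓ^n}(Ω)`; Hilbert 90 gives `δ ∈ Ωˣ` with `hδ/δ = ι c₀(h)` on `U'`, `d = δ^(ℓ^n) ∈ K'`.
-/
import Claimed.Agent.R239.MATCH.Fibers
import Claimed.Agent.R239.MATCH.KumBound
import Claimed.Agent.R239.MATCH.KumElem
import Claimed.Agent.R239.MATCH.KumVal
import Claimed.Agent.R239.Solv

set_option autoImplicit false

namespace Claimed.Agent.R239

open NumberField Claims.C0403
open scoped Pointwise

variable {Ω : Type} [Field Ω] [Algebra ℚ Ω] [IsGalois ℚ Ω]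
variable {Qs : Type} [Field Qs] [Algebra ℚ Qs] [IsGalois ℚ Qs]

/-- `U' = ker ε` as a subgroup of `Gal(Ω/ℚ)`. -/
noncomputable def mat_kerEps (ℓ : ℕ) [Fact ℓ.Prime] (U : Subgroup Gal(Ω/ℚ))
    (φ : U →* Gal(Qs/ℚ)) : Subgroup Gal(Ω/ℚ) :=
  (mat_eps ℓ U φ).ker.map U.subtype

/-- torsion of `ℤ_ℓˣ`, `ℓ` odd: `u^n = 1`, `n > 0` ⇒ `u^(ℓ-1) = 1`.
(`v = u^(ℓ-1) ≡ 1 mod ℓ`; if `v ≠ 1` write `v = 1 + ℓ^k x`, `x` a unit, `k ≥ 1`; then `v^n = 1 + n ℓ^k x + …`; do first `n` prime to `ℓ`,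
then `n = ℓ`: `v^ℓ = 1 + ℓ^(k+1) x'`, `x'` a unit since `ℓ` is odd.) -/
theorem mat_padic_torsion (ℓ : ℕ) [Fact ℓ.Prime] (hℓ : ℓ ≠ 2) (u : ℤ_[ℓ]ˣ) (n : ℕ) (hn : 0 < n)
    (hu : u ^ n = 1) : u ^ (ℓ - 1) = 1 :=
  mat_ke_padic_torsion ℓ hℓ u n hn hu

/-- the defining property of `chi` over a solvably closed field. -/
theorem mat_chi_spec {F E : Type} [Field F] [Field E] [Algebra F E] [CharZero E]
    (hE : SolvablyClosed E) (ℓ : ℕ) [Fact ℓ.Prime] (γ : Gal(E/F)) {m : ℕ} {t : E}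
    (ht : t ^ ℓ ^ m = 1) : γ t = t ^ ((chi ℓ F E γ).val.toZModPow m).val := by
  have hp : ℓ.Prime := Fact.out
  have (i : ℕ) : HasEnoughRootsOfUnity E (ℓ ^ i) :=
    ⟨solv_exists_prim hE (pow_pos hp.pos i), rootsOfUnity.isCyclic _ _⟩
  exact cyclotomicCharacter.spec ℓ (MulSemiringAction.toRingAut Gal(E/F) E γ) t ht

theorem mat_mem_kerEps (ℓ : ℕ) [Fact ℓ.Prime] (U : Subgroup Gal(Ω/ℚ)) (φ : U →* Gal(Qs/ℚ))
    {g : Gal(Ω/ℚ)} : g ∈ mat_kerEps ℓ U φ ↔ ∃ hg : g ∈ U, mat_eps ℓ U φ ⟨g, hg⟩ = 1 := by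
  constructor
  · rintro ⟨u, hu, rfl⟩
    exact ⟨u.2, hu⟩
  · rintro ⟨hg, h⟩
    exact ⟨⟨g, hg⟩, h, rfl⟩

theorem mat_Lg_inv (ℓ : ℕ) [Fact ℓ.Prime] (u : ℤ_[ℓ]ˣ) : Lg ℓ u⁻¹ = - Lg ℓ u := by
  have h1 : Lg ℓ (1 : ℤ_[ℓ]ˣ) = 0 := (lg_eq_zero_iff 1).2 ⟨1, one_pos, one_pow 1⟩
  have h2 := lg_mul u u⁻¹
  rw [mul_inv_cancel, h1] at h2
  linear_combination -h2

/-- K1a.  `ε^(ℓ-1) = 1` (`lg_mul`, `lg_eq_zero_iff`, `mat_padic_torsion`). -/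
theorem mat_eps_pow (ℓ : ℕ) [Fact ℓ.Prime] (hℓ : ℓ ≠ 2) (U : Subgroup Gal(Ω/ℚ))
    (φ : U →* Gal(Qs/ℚ)) (hlog : ∀ g : U, logChi ℓ ℚ Qs (φ g) = logChi ℓ ℚ Ω g.1) (g : U) :
    mat_eps ℓ U φ g ^ (ℓ - 1) = 1 := by
  have h0 : Lg ℓ (mat_eps ℓ U φ g) = 0 := by
    rw [mat_eps_apply, lg_mul, mat_Lg_inv]
    have := hlog g
    unfold logChi at this
    rw [this, add_neg_cancel]
  obtain ⟨n, hn, hu⟩ := (lg_eq_zero_iff _).1 h0
  exact mat_ke_padic_torsion ℓ hℓ _ n hn hu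

/-- `ker ε = ker (ε mod ℓ)`. -/
theorem mat_eps_ker_eq (ℓ : ℕ) [Fact ℓ.Prime] (hℓ : ℓ ≠ 2) (U : Subgroup Gal(Ω/ℚ))
    (φ : U →* Gal(Qs/ℚ)) (hlog : ∀ g : U, logChi ℓ ℚ Qs (φ g) = logChi ℓ ℚ Ω g.1) :
    (mat_eps ℓ U φ).ker = (mat_epsMod ℓ U φ).ker := by
  have hp : ℓ.Prime := Fact.out
  ext g
  rw [MonoidHom.mem_ker, MonoidHom.mem_ker]
  constructor
  · intro h
    show Units.map _ (mat_eps ℓ U φ g) = 1
    rw [h, map_one]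
  · intro h
    have h1 : PadicInt.toZMod ((mat_eps ℓ U φ g : ℤ_[ℓ]ˣ) : ℤ_[ℓ]) = 1 := congrArg Units.val h
    have hdvd : (ℓ : ℤ_[ℓ]) ∣ ((mat_eps ℓ U φ g : ℤ_[ℓ]ˣ) : ℤ_[ℓ]) - 1 := by
      rw [← PadicInt.norm_lt_one_iff_dvd, ← PadicInt.mem_nonunits, ← IsLocalRing.mem_maximalIdeal,
        ← PadicInt.ker_toZMod, RingHom.mem_ker, map_sub, map_one, h1, sub_self]
    apply Units.ext
    apply mat_ke_one_units_torsion ℓ hℓ _ hdvd (ℓ - 1) (Nat.sub_pos_of_lt hp.one_lt)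
    rw [← Units.val_pow_eq_pow_val, mat_eps_pow ℓ hℓ U φ hlog g, Units.val_one]

/-- K1b.  Structure of `U' = ker ε`: contained and normal in `U`, open carrier; `U/U'` is cyclic, generated by some `t`,
of order `e ∣ ℓ - 1`, and `ε(t) mod ℓ` has exact order `e`.
(`ε ≡ 1 mod ℓ` and `ε^(ℓ-1) = 1` force `ε = 1` (`mat_padic_torsion`-type argument: `1+ℓℤ_ℓ` is torsion free), so `ker ε = ker (ε mod ℓ)`, which has open carrier since `χ_ℓ mod ℓ` is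
continuous on both sides and `φ` is continuous; `(ZMod ℓ)ˣ` is cyclic.) -/
theorem mat_kerEps_spec (hΩ : IsAlgClosed Ω) (hQs : SolvablyClosed Qs)
    (ℓ : ℕ) [Fact ℓ.Prime] (hℓ : ℓ ≠ 2) (U : Subgroup Gal(Ω/ℚ))
    (hU : IsOpen (U : Set Gal(Ω/ℚ))) (φ : U →* Gal(Qs/ℚ)) (hφ : Continuous φ)
    (hlog : ∀ g : U, logChi ℓ ℚ Qs (φ g) = logChi ℓ ℚ Ω g.1) :
    mat_kerEps ℓ U φ ≤ U ∧ IsOpen (mat_kerEps ℓ U φ : Set Gal(Ω/ℚ)) ∧
    (∀ u ∈ U, ∀ v ∈ mat_kerEps ℓ U φ, u * v * u⁻¹ ∈ mat_kerEps ℓ U φ) ∧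
    ∃ (t : U) (e : ℕ), e ∣ ℓ - 1 ∧ (mat_kerEps ℓ U φ).relIndex U = e ∧
      (∀ g : U, ∃ k : ℕ, mat_eps ℓ U φ g = mat_eps ℓ U φ t ^ k) ∧
      orderOf (PadicInt.toZMod ((mat_eps ℓ U φ t : ℤ_[ℓ]ˣ) : ℤ_[ℓ])) = e := by
  have hker := mat_eps_ker_eq ℓ hℓ U φ hlog
  refine ⟨?_, ?_, ?_, ?_⟩
  · rintro _ ⟨u, -, rfl⟩
    exact u.2
  · have h1 := mat_epsMod_ker_isOpen ℓ U φ hφ
    rw [← hker] at h1
    show IsOpen (((mat_eps ℓ U φ).ker.map U.subtype : Subgroup Gal(Ω/ℚ)) : Set Gal(Ω/ℚ))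
    rw [Subgroup.coe_map]
    exact hU.isOpenMap_subtype_val _ h1
  · rintro u hu _ ⟨v, hv, rfl⟩
    refine ⟨⟨u, hu⟩ * v * ⟨u, hu⟩⁻¹, ?_, rfl⟩
    exact (MonoidHom.normal_ker _).conj_mem v hv _
  · obtain ⟨⟨_, ⟨t, rfl⟩⟩, ht⟩ := IsCyclic.exists_generator (α := (mat_epsMod ℓ U φ).range)
    have hcard : orderOf (mat_epsMod ℓ U φ t) = Nat.card (mat_epsMod ℓ U φ).range := by
      rw [← orderOf_eq_card_of_forall_mem_zpowers ht]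
      exact (Subgroup.orderOf_mk _ _).symm
    refine ⟨t, orderOf (mat_epsMod ℓ U φ t), ?_, ?_, ?_, ?_⟩
    · have := orderOf_dvd_card (x := mat_epsMod ℓ U φ t)
      rwa [ZMod.card_units] at this
    · have e1 : (mat_kerEps ℓ U φ).subgroupOf U = (mat_eps ℓ U φ).ker :=
        Subgroup.comap_map_eq_self_of_injective U.subtype_injective _
      rw [Subgroup.relIndex, e1, hker, Subgroup.index_ker, hcard]
    · intro g
      have h1 := ht ⟨mat_epsMod ℓ U φ g, ⟨g, rfl⟩⟩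
      rw [← mem_powers_iff_mem_zpowers] at h1
      obtain ⟨k, hk⟩ := h1
      have hk' : mat_epsMod ℓ U φ t ^ k = mat_epsMod ℓ U φ g := congrArg Subtype.val hk
      refine ⟨k, ?_⟩
      have h2 : g * (t ^ k)⁻¹ ∈ (mat_epsMod ℓ U φ).ker := by
        rw [MonoidHom.mem_ker, map_mul, map_inv, map_pow, hk', mul_inv_cancel]
      rw [← hker, MonoidHom.mem_ker, map_mul, map_inv, map_pow, mul_inv_eq_one] at h2
      exact h2
    · exact orderOf_units (y := mat_epsMod ℓ U φ t)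

/-- `ι` intertwines the two actions on roots of unity over `U'`: for `ζ^(ℓ^n) = 1` in `Qs` and `ε(h) = 1`:
`h (ι ζ) = ι (φ h ζ)`  (both are `ι ζ ^ χ(h)`; `cyclotomicCharacter.spec`). -/
theorem mat_iota_mu (hΩ : IsAlgClosed Ω) (hQs : SolvablyClosed Qs)
    (D : mat_StdRes Ω ℚ Qs) (ℓ : ℕ) [Fact ℓ.Prime] (U : Subgroup Gal(Ω/ℚ))
    (φ : U →* Gal(Qs/ℚ)) (n : ℕ) (ζ : Qs) (hζ : ζ ^ ℓ ^ n = 1) (h : U)
    (hh : mat_eps ℓ U φ h = 1) : h.1 (D.ι ζ) = D.ι (φ h ζ) := by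
  have : CharZero Ω := algebraRat.charZero Ω
  have : CharZero Qs := algebraRat.charZero Qs
  have hιζ : (D.ι ζ) ^ ℓ ^ n = 1 := by rw [← map_pow, hζ, map_one]
  rw [mat_chi_spec (mat_solvablyClosed_of_isAlgClosed hΩ) ℓ h.1 hιζ, mat_chi_spec hQs ℓ (φ h) hζ,
    map_pow, (mat_eps_eq_one_iff ℓ U φ h).1 hh]

/-- Hilbert 90 at the infinite level.  `U'` a subgroup of `Gal(Ω/ℚ)` with open carrier, `c : U' → Ωˣ` a locally constant 1-cocycle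
(constant on cosets of some normal `N ≤ U'` with open carrier, values fixed by `N`).  Then `c(h) = hδ/δ`.
(Descend to `Gal(fld N / fld U')`, finite Galois, and use Mathlib's
`groupCohomology.isMulCoboundary₁_of_isMulCocycle₁_of_aut_to_units`; or a direct Poincaré series + Dedekind independence.) -/
theorem mat_hilbert90 (U' : Subgroup Gal(Ω/ℚ)) (hU' : IsOpen (U' : Set Gal(Ω/ℚ))) (c : U' → Ω)
    (hc0 : ∀ h, c h ≠ 0) (hcoc : ∀ h h' : U', c (h * h') = h.1 (c h') * c h)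
    (hcont : ∃ N : Subgroup Gal(Ω/ℚ), IsOpen (N : Set Gal(Ω/ℚ)) ∧ N ≤ U' ∧
      ∀ h : U', h.1 ∈ N → c h = 1) :
    ∃ δ : Ω, δ ≠ 0 ∧ ∀ h : U', h.1 δ = c h * δ := by
  obtain ⟨N, hN, -, hcN⟩ := hcont
  exact mat_ke_hilbert90 U' c hc0 hcoc N hN hcN

/-- quotients of conjugate roots are roots of unity. -/
theorem mat_root_quot {N : ℕ} {α : Qs} {a : ℚ} (hα0 : α ≠ 0) (hα : α ^ N = algebraMap ℚ Qs a)
    (g : Gal(Qs/ℚ)) : (g α / α) ^ N = 1 := by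
  rw [div_pow, ← map_pow, hα, AlgEquiv.commutes, ← hα, div_self (pow_ne_zero _ hα0)]

/-- K2.  The Kummer element `δ`.  (`mat_hilbert90` for `c(h) = ι(φ(h)α/α)`; cocycle by `mat_iota_mu`; locally constant since the
stabiliser of `α` in `Gal(Qs/ℚ)` has open carrier and `φ` is continuous.) -/
theorem mat_kummer_h90 (hΩ : IsAlgClosed Ω) (hQs : SolvablyClosed Qs)
    (D : mat_StdRes Ω ℚ Qs) (ℓ : ℕ) [Fact ℓ.Prime]
    (hℓ : ℓ ≠ 2) (U : Subgroup Gal(Ω/ℚ)) (hU : IsOpen (U : Set Gal(Ω/ℚ))) (φ : U →* Gal(Qs/ℚ))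
    (hφ : Continuous φ) (hlog : ∀ g : U, logChi ℓ ℚ Qs (φ g) = logChi ℓ ℚ Ω g.1)
    (n : ℕ) (α : Qs) (a : ℚ) (ha : a ≠ 0) (hα : α ^ ℓ ^ n = algebraMap ℚ Qs a) :
    ∃ δ : Ω, δ ≠ 0 ∧ ∀ h : U, mat_eps ℓ U φ h = 1 → h.1 δ * D.ι α = δ * D.ι (φ h α) := by
  have hp : ℓ.Prime := Fact.out
  have hα0 : α ≠ 0 := by
    rintro rfl
    rw [zero_pow (pow_pos hp.pos n).ne'] at hα
    exact ha ((map_eq_zero _).1 hα.symm)
  have hle : ∀ h : mat_kerEps ℓ U φ, h.1 ∈ U := fun h => ((mat_mem_kerEps ℓ U φ).1 h.2).1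
  have heps : ∀ h : mat_kerEps ℓ U φ, mat_eps ℓ U φ ⟨h.1, hle h⟩ = 1 := fun h =>
    ((mat_mem_kerEps ℓ U φ).1 h.2).2
  obtain ⟨δ, hδ0, hδ⟩ := mat_ke_hilbert90 (mat_kerEps ℓ U φ)
    (fun h => D.ι (φ ⟨h.1, hle h⟩ α / α))
    (fun h => (map_ne_zero _).2 (div_ne_zero ((map_ne_zero _).2 hα0) hα0))
    (fun h h' => by
      have e : (⟨(h * h').1, hle (h * h')⟩ : U) = ⟨h.1, hle h⟩ * ⟨h'.1, hle h'⟩ := rfl
      have h0 : φ ⟨h.1, hle h⟩ α ≠ 0 := (map_ne_zero _).2 hα0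
      rw [mat_iota_mu hΩ hQs D ℓ U φ n _ (mat_root_quot hα0 hα _) ⟨h.1, hle h⟩ (heps h), e, map_mul,
        AlgEquiv.mul_apply, ← map_mul]
      congr 1
      rw [map_div₀]
      field_simp)
    (((MulAction.stabilizer Gal(Qs/ℚ) α).comap φ ⊓ (mat_eps ℓ U φ).ker).map U.subtype)
    (by
      rw [Subgroup.coe_map]
      apply hU.isOpenMap_subtype_val
      rw [Subgroup.coe_inf]
      apply IsOpen.inter
      · exact (stabilizer_isOpen_of_isIntegral (K := ℚ) α).preimage hφ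
      · rw [mat_eps_ker_eq ℓ hℓ U φ hlog]
        exact mat_epsMod_ker_isOpen ℓ U φ hφ)
    (by
      rintro h ⟨u, ⟨hu, -⟩, huh⟩
      have e : (⟨h.1, hle h⟩ : U) = u := Subtype.ext huh.symm
      have hu' : φ u α = α := hu
      show D.ι (φ ⟨h.1, hle h⟩ α / α) = 1
      rw [e, hu', div_self hα0, map_one])
  refine ⟨δ, hδ0, fun h hh => ?_⟩
  have h1 := hδ ⟨h.1, (mat_mem_kerEps ℓ U φ).2 ⟨h.2, hh⟩⟩
  have h2 : h.1 δ = D.ι (φ h α / α) * δ := h1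
  have hια : D.ι α ≠ 0 := (map_ne_zero _).2 hα0
  rw [h2, map_div₀]
  field_simp

/-- F3: the twist by `ε(t)` on roots of unity. -/
theorem mat_eps_twist (hΩ : IsAlgClosed Ω) (hQs : SolvablyClosed Qs)
    (D : mat_StdRes Ω ℚ Qs) (ℓ : ℕ) [Fact ℓ.Prime] (U : Subgroup Gal(Ω/ℚ))
    (φ : U →* Gal(Qs/ℚ)) (n : ℕ) (ζ : Qs) (hζ : ζ ^ ℓ ^ n = 1) (t : U) (w : ℕ)
    (hw : PadicInt.toZModPow n ((mat_eps ℓ U φ t : ℤ_[ℓ]ˣ) : ℤ_[ℓ]) = (w : ZMod (ℓ ^ n))) :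
    t.1 ((D.ι ζ) ^ w) = D.ι (φ t ζ) := by
  have : CharZero Ω := algebraRat.charZero Ω
  have : CharZero Qs := algebraRat.charZero Qs
  have hp : ℓ.Prime := Fact.out
  have : NeZero (ℓ ^ n) := ⟨(pow_pos hp.pos n).ne'⟩
  have hιζ : (D.ι ζ) ^ ℓ ^ n = 1 := by rw [← map_pow, hζ, map_one]
  rw [map_pow, mat_chi_spec (mat_solvablyClosed_of_isAlgClosed hΩ) ℓ t.1 hιζ,
    mat_chi_spec hQs ℓ (φ t) hζ, map_pow, ← pow_mul]
  have hmul : chi ℓ ℚ Ω t.1 * mat_eps ℓ U φ t = chi ℓ ℚ Qs (φ t) := by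
    rw [mat_eps_apply, mul_comm, inv_mul_cancel_right]
  have hz : ((((chi ℓ ℚ Ω t.1).val.toZModPow n).val * w : ℕ) : ZMod (ℓ ^ n))
      = ((((chi ℓ ℚ Qs (φ t)).val.toZModPow n).val : ℕ) : ZMod (ℓ ^ n)) := by
    rw [Nat.cast_mul, ZMod.natCast_zmod_val, ZMod.natCast_zmod_val, ← hw, ← map_mul,
      ← Units.val_mul, hmul]
  have hmod := (ZMod.natCast_eq_natCast_iff _ _ _).1 hz
  rw [pow_eq_pow_mod _ hιζ, hmod, ← pow_eq_pow_mod _ hιζ]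

/-- K3.  Eigen-relation: `t⁻¹(d) = d^w y^(ℓ^n)`, `y ∈ K'ˣ`, `w ≡ ε(t) mod ℓ^n`.
Sketch: `c₀(g) = φ(g)α/α`; `c₀(tht⁻¹) = c₀(h)^{ρ(t)} c₀(t)^{1-ρ(h)}`, `ρ = χ_ℓ∘φ`.  Apply `t⁻¹` to
`(tht⁻¹)δ/δ = ι c₀(tht⁻¹)`: with `δ_t = t⁻¹δ`, `η = ι c₀(t)^{1/χ(t)}`:
`hδ_t/δ_t = (hδ/δ)^{ε(t)} η/hη`.  So `y = δ_t η δ^{-w}` is fixed by `U'`, and `y^(ℓ^n) = t⁻¹(d) d^{-w}`. -/
theorem mat_kummer_eigen (hΩ : IsAlgClosed Ω) (hQs : SolvablyClosed Qs)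
    (D : mat_StdRes Ω ℚ Qs) (ℓ : ℕ) [Fact ℓ.Prime]
    (U : Subgroup Gal(Ω/ℚ)) (φ : U →* Gal(Qs/ℚ))
    (n : ℕ) (α : Qs) (a : ℚ) (ha : a ≠ 0) (hα : α ^ ℓ ^ n = algebraMap ℚ Qs a)
    (δ : Ω) (hδ0 : δ ≠ 0)
    (hδ : ∀ h : U, mat_eps ℓ U φ h = 1 → h.1 δ * D.ι α = δ * D.ι (φ h α))
    (t : U) (w : ℕ)
    (hw : PadicInt.toZModPow n ((mat_eps ℓ U φ t : ℤ_[ℓ]ˣ) : ℤ_[ℓ]) = (w : ZMod (ℓ ^ n))) :
    ∃ y : Ω, y ≠ 0 ∧ (∀ h : U, mat_eps ℓ U φ h = 1 → h.1 y = y) ∧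
      t.1⁻¹ (δ ^ ℓ ^ n) = (δ ^ ℓ ^ n) ^ w * y ^ ℓ ^ n := by
  have hp : ℓ.Prime := Fact.out
  have hα0 : α ≠ 0 := by
    rintro rfl
    rw [zero_pow (pow_pos hp.pos n).ne'] at hα
    exact ha ((map_eq_zero _).1 hα.symm)
  have hια : D.ι α ≠ 0 := (map_ne_zero _).2 hα0
  -- `β = φ(t)⁻¹ α`, `z = β / α`
  have hz : ((φ t)⁻¹ α / α) ^ ℓ ^ n = 1 := mat_root_quot hα0 hα _
  have hβ0 : (φ t)⁻¹ α ≠ 0 := (map_ne_zero _).2 hα0
  have hβ : ((φ t)⁻¹ α) ^ ℓ ^ n = algebraMap ℚ Qs a := by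
    rw [← map_pow, hα, AlgEquiv.commutes]
  have hz0 : D.ι ((φ t)⁻¹ α / α) ≠ 0 := (map_ne_zero _).2 (div_ne_zero hβ0 hα0)
  have hδt0 : t.1⁻¹ δ ≠ 0 := (map_ne_zero _).2 hδ0
  refine ⟨t.1⁻¹ δ / (D.ι ((φ t)⁻¹ α / α) * δ) ^ w,
    div_ne_zero hδt0 (pow_ne_zero _ (mul_ne_zero hz0 hδ0)), ?_, ?_⟩
  · intro h hh
    have hh' : mat_eps ℓ U φ (t * h * t⁻¹) = 1 := by
      rw [map_mul, map_mul, hh, mul_one, map_inv, mul_inv_cancel]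
    have h1 := hδ _ hh'
    have hζh : (φ h ((φ t)⁻¹ α) / (φ t)⁻¹ α) ^ ℓ ^ n = 1 := mat_root_quot hβ0 hβ _
    have e1 : φ (t * h * t⁻¹) α = φ t (φ h ((φ t)⁻¹ α) / (φ t)⁻¹ α) * α := by
      rw [map_mul, map_mul, map_inv, AlgEquiv.mul_apply, AlgEquiv.mul_apply, map_div₀,
        ← AlgEquiv.mul_apply (φ t) (φ t)⁻¹, mul_inv_cancel, AlgEquiv.one_apply]
      field_simp
    rw [e1, map_mul, ← mat_eps_twist hΩ hQs D ℓ U φ n _ hζh t w hw, ← mul_assoc] at h1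
    have h2 := mul_right_cancel₀ hια h1
    -- `h (t⁻¹ δ)`
    have h3 : h.1 (t.1⁻¹ δ) = t.1⁻¹ δ * (D.ι (φ h ((φ t)⁻¹ α) / (φ t)⁻¹ α)) ^ w := by
      have e2 : h.1 * t.1⁻¹ = t.1⁻¹ * (t * h * t⁻¹ : U).1 := by
        show h.1 * t.1⁻¹ = t.1⁻¹ * (t.1 * h.1 * t.1⁻¹)
        group
      rw [← AlgEquiv.mul_apply, e2, AlgEquiv.mul_apply, h2, map_mul, ← AlgEquiv.mul_apply t.1⁻¹ t.1,
        inv_mul_cancel, AlgEquiv.one_apply]
    -- `ι ζ_h`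
    have h4 := mat_iota_mu hΩ hQs D ℓ U φ n _ hz h hh
    have h5 := hδ h hh
    have hhδ0 : h.1 δ ≠ 0 := (map_ne_zero _).2 hδ0
    have hhz0 : h.1 (D.ι ((φ t)⁻¹ α / α)) ≠ 0 := (map_ne_zero _).2 hz0
    have h6 : D.ι (φ h ((φ t)⁻¹ α) / (φ t)⁻¹ α) * (D.ι ((φ t)⁻¹ α / α) * δ)
        = h.1 (D.ι ((φ t)⁻¹ α / α)) * h.1 δ := by
      rw [h4]
      have e3 : D.ι (φ h α) = h.1 δ * D.ι α / δ := by
        rw [h5]
        field_simp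
      have hιβ : D.ι ((φ t)⁻¹ α) ≠ 0 := (map_ne_zero _).2 hβ0
      rw [map_div₀, map_div₀, map_div₀, map_div₀, e3]
      field_simp
    rw [map_div₀, map_pow, map_mul, h3, ← h6, mul_pow]
    have h7 : D.ι (φ h ((φ t)⁻¹ α) / (φ t)⁻¹ α) ≠ 0 := by
      intro h0
      rw [h0, zero_mul] at h6
      exact mul_ne_zero hhz0 hhδ0 h6.symm
    field_simp
  · have hzι : (D.ι ((φ t)⁻¹ α / α)) ^ ℓ ^ n = 1 := by rw [← map_pow, hz, map_one]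
    have e4 : ((D.ι ((φ t)⁻¹ α / α) * δ) ^ w) ^ ℓ ^ n = (δ ^ ℓ ^ n) ^ w := by
      rw [← pow_mul, mul_comm w, pow_mul, mul_pow, hzι, one_mul]
    have h8 : (δ ^ ℓ ^ n) ^ w ≠ 0 := pow_ne_zero _ (pow_ne_zero _ hδ0)
    rw [div_pow, e4, map_pow, mul_div_cancel₀ _ h8]

/-- a homomorphism with open kernel is continuous (for any topology on the target). -/
theorem mat_continuous_of_isOpen_ker {G A : Type*} [Group G] [TopologicalSpace G]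
    [IsTopologicalGroup G] [Group A] [TopologicalSpace A] (f : G →* A)
    (h : IsOpen ((f.ker : Subgroup G) : Set G)) : Continuous f := by
  rw [continuous_def]
  intro s _
  rw [isOpen_iff_mem_nhds]
  intro x hx
  have hopen : IsOpen ((fun y => x⁻¹ * y) ⁻¹' ((f.ker : Subgroup G) : Set G)) :=
    h.preimage (continuous_const_mul x⁻¹)
  refine Filter.mem_of_superset (hopen.mem_nhds (by simp)) ?_
  intro y hy
  have hy' : f (x⁻¹ * y) = 1 := hy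
  rw [map_mul, map_inv, inv_mul_eq_one] at hy'
  show f y ∈ s
  rw [← hy']
  exact hx

/-- dévissage: a continuous homomorphism from `I_V(P)` to a group of exponent `ℓ^n` (here: `ℓ^n`-th roots of unity in `Ω`) which kills a tame
generator is trivial.  (Induction on `n` from `IsTameGen.gen`.) -/
theorem mat_tame_gen_detects_mu (ℓ : ℕ) [Fact ℓ.Prime] (V : Subgroup Gal(Ω/ℚ))
    (P : Ideal (𝓞 Ω)) (τ : Gal(Ω/ℚ)) (hτ : IsTameGen ℓ V P τ) (n : ℕ)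
    (c : ↥(inert ℚ P ⊓ V) →* Ωˣ) (hc : ∀ g, c g ^ ℓ ^ n = 1)
    (hcont : IsOpen ((c.ker : Subgroup ↥(inert ℚ P ⊓ V)) : Set ↥(inert ℚ P ⊓ V)))
    (hcτ : c ⟨τ, hτ.mem⟩ = 1) : c = 1 := by
  have hp : ℓ.Prime := Fact.out
  have : NeZero ℓ := ⟨hp.ne_zero⟩
  induction n generalizing c with
  | zero =>
    ext g
    have := hc g
    rw [pow_zero, pow_one] at this
    rw [this]
    rfl
  | succ n ih =>
    -- `c ^ ℓ = 1`
    have h1 : (powMonoidHom ℓ : Ωˣ →* Ωˣ).comp c = 1 := by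
      apply ih
      · intro g
        show (c g ^ ℓ) ^ ℓ ^ n = 1
        rw [← pow_mul, ← pow_succ']
        exact hc g
      · refine Subgroup.isOpen_mono ?_ hcont
        intro g hg
        rw [MonoidHom.mem_ker] at hg ⊢
        show c g ^ ℓ = 1
        rw [hg, one_pow]
      · show c ⟨τ, hτ.mem⟩ ^ ℓ = 1
        rw [hcτ, one_pow]
    have h2 : ∀ g, c g ^ ℓ = 1 := fun g => congrArg (fun f : _ →* Ωˣ => f g) h1
    by_contra hne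
    obtain ⟨g₀, hg₀⟩ : ∃ g₀, c g₀ ≠ 1 := by
      by_contra hcon
      apply hne
      ext g
      have : c g = 1 := by
        by_contra h
        exact hcon ⟨g, h⟩
      rw [this]
      rfl
    have hord : orderOf (c g₀) = ℓ := orderOf_eq_prime (h2 g₀) hg₀
    have hprim : IsPrimitiveRoot (c g₀) ℓ := hord ▸ IsPrimitiveRoot.orderOf (c g₀)
    have hmem : ∀ g, c g ∈ Subgroup.zpowers (c g₀) := by
      intro g
      rw [hprim.zpowers_eq, mem_rootsOfUnity]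
      exact h2 g
    have hcard : Nat.card (Subgroup.zpowers (c g₀)) = ℓ := by rw [Nat.card_zpowers, hord]
    let e : Subgroup.zpowers (c g₀) ≃* Multiplicative (ZMod ℓ) :=
      mulEquivOfPrimeCardEq hcard
        (by rw [Nat.card_eq_fintype_card, Fintype.card_multiplicative, ZMod.card])
    have hker : (e.toMonoidHom.comp (c.codRestrict _ hmem)).ker = c.ker := by
      ext g
      rw [MonoidHom.mem_ker, MonoidHom.mem_ker]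
      show e (c.codRestrict _ hmem g) = 1 ↔ _
      rw [e.map_eq_one_iff, Subtype.ext_iff]
      rfl
    have h3 := hτ.gen (e.toMonoidHom.comp (c.codRestrict _ hmem))
      (mat_continuous_of_isOpen_ker _ (by rw [hker]; exact hcont))
      (by
        have : (⟨τ, hτ.mem⟩ : ↥(inert ℚ P ⊓ V)) ∈ (e.toMonoidHom.comp (c.codRestrict _ hmem)).ker := by
          rw [hker]
          exact hcτ
        exact this)
    have h4 : g₀ ∈ (e.toMonoidHom.comp (c.codRestrict _ hmem)).ker := by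
      rw [h3]
      exact MonoidHom.mem_ker.2 rfl
    rw [hker] at h4
    exact hg₀ h4

/-- an automorphism with `χ_ℓ = 1` fixes the `ℓ`-power roots of unity. -/
theorem mat_fix_mu_of_chi_eq_one {F E : Type} [Field F] [Field E] [Algebra F E] [CharZero E]
    (hE : SolvablyClosed E) (ℓ : ℕ) [Fact ℓ.Prime] {γ : Gal(E/F)} (hγ : chi ℓ F E γ = 1) {m : ℕ}
    {t : E} (ht : t ^ ℓ ^ m = 1) : γ t = t := by
  have hp : ℓ.Prime := Fact.out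
  rw [mat_chi_spec hE ℓ γ ht, hγ, Units.val_one, map_one]
  rcases Nat.eq_zero_or_pos m with rfl | hm
  · rw [pow_zero, pow_one] at ht
    rw [ht, one_pow]
  · have : Fact (1 < ℓ ^ m) := ⟨Nat.one_lt_pow hm.ne' hp.one_lt⟩
    rw [ZMod.val_one, pow_one]

/-- the target side of K4: `φ τ` fixes `α`. -/
theorem mat_kummer_unram_aux (hΩ : IsAlgClosed Ω) (hQs : SolvablyClosed Qs)
    (ℓ : ℕ) [Fact ℓ.Prime] (hℓ : ℓ ≠ 2)
    (U : Subgroup Gal(Ω/ℚ)) (hU : IsOpen (U : Set Gal(Ω/ℚ))) (φ : U →* Gal(Qs/ℚ))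
    (hφ : Continuous φ)
    (n : ℕ) (α : Qs) (a : ℕ) (ha : a ≠ 0) (hα : α ^ ℓ ^ n = (a : Qs))
    (hmiss : ∀ q : ℕ, q.Prime → q ∣ a → ∀ p, ¬ mat_Act ℓ U φ p q)
    (P : Ideal (𝓞 Ω)) (hP : P.IsMaximal) (hPl : ¬ Over P ℓ) (τ : Gal(Ω/ℚ))
    (hτ : IsTameGen ℓ U P τ) : φ ⟨τ, hτ.mem.2⟩ α = α := by
  have hp : ℓ.Prime := Fact.out
  by_cases hact : φ ⟨τ, hτ.mem.2⟩ = 1
  · rw [hact, AlgEquiv.one_apply]
  obtain ⟨Q, hQ, hτQ⟩ := mat_lc hΩ hQs ℓ hℓ U hU φ hφ P hP hPl τ hτ hact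
  have := hQ.Qmax
  have := hP
  obtain ⟨q, hq, hQq⟩ := hil_exists_over Q
  obtain ⟨p, hpp, hPp⟩ := hil_exists_over P
  have hAct : mat_Act ℓ U φ p q := ⟨hpp, hq, P, Q, hPp, hQq, hQ⟩
  have hqa : ¬ q ∣ a := fun h => hmiss q hq h p hAct
  have h1Q : (1 : 𝓞 Qs) ∉ Q := fun h => hQ.Qmax.ne_top ((Ideal.eq_top_iff_one Q).2 h)
  have haQ : (a : 𝓞 Qs) ∉ Q := by
    intro hmem
    apply h1Q
    have hcop : Nat.Coprime a q := ((Nat.Prime.coprime_iff_not_dvd hq).2 hqa).symm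
    have hbez := Nat.gcd_eq_gcd_ab a q
    rw [hcop, Nat.cast_one] at hbez
    have e : (1 : 𝓞 Qs) = (a : 𝓞 Qs) * ((Nat.gcdA a q : ℤ) : 𝓞 Qs)
        + (q : 𝓞 Qs) * ((Nat.gcdB a q : ℤ) : 𝓞 Qs) := by
      have := congrArg (Int.cast : ℤ → 𝓞 Qs) hbez
      push_cast at this
      exact this
    rw [e]
    exact Q.add_mem (Q.mul_mem_right _ hmem) (Q.mul_mem_right _ hQq)
  have hint : IsIntegral ℤ α := by
    refine IsIntegral.of_pow (pow_pos hp.pos n) ?_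
    rw [hα]
    have : IsIntegral ℤ ((a : 𝓞 Qs) : Qs) := RingOfIntegers.isIntegral_coe _
    simpa using this
  obtain ⟨α', hα'⟩ : ∃ α' : 𝓞 Qs, (α' : Qs) = α := ⟨⟨α, hint⟩, rfl⟩
  have hαpow : α' ^ ℓ ^ n = (a : 𝓞 Qs) := by
    apply RingOfIntegers.ext
    have e1 : ((α' ^ ℓ ^ n : 𝓞 Qs) : Qs) = (α' : Qs) ^ ℓ ^ n := map_pow _ _ _
    have e2 : (((a : ℕ) : 𝓞 Qs) : Qs) = (a : Qs) := map_natCast _ _
    rw [e1, e2, hα', hα]
  have hmQ : ((ℓ ^ n : ℕ) : 𝓞 Qs) ∉ Q := by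
    intro hmem
    rw [Nat.cast_pow] at hmem
    exact hQ.Ql (hQ.Qmax.isPrime.mem_of_pow_mem n hmem)
  have h := mat_inertia_fixes_root (F := ℚ) Q hQ.Qmax (ℓ ^ n) hmQ α'
    (by rw [hαpow]; exact haQ) (φ ⟨τ, hτ.mem.2⟩) (by
      rw [hαpow]
      exact map_natCast (MulSemiringAction.toRingHom Gal(Qs/ℚ) (𝓞 Qs) _) a) hτQ
  rw [← hα']
  exact congrArg (fun z : 𝓞 Qs => (z : Qs)) h

/-- K4.  `δ` is fixed by inertia away from `ℓ` when all prime factors of `a` are missed at `ℓ`.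
Sketch: `τ` a tame generator at level `U` (`tame_exists_gen`); `τ' = τ^(ℓ^k)` a tame generator at level `U'` (`tame_sub`, `U'` normal in `U`).
`c(g) = gδ/δ = ι(φ(g)α/α)` is a homomorphism on `I_{U'}(P)` (inertia at `P ∤ ℓ` fixes `μ_{ℓ^n}`: `chi_inert`).  `c(τ') = 1`: if `φτ = 1` clear;
else `mat_lc` (level `U`) gives `Q ∤ ℓ` with `(P,Q)` active and `φτ ∈ I(Q)`; the characteristic `q'` of `Q` is not missed, so `q' ∤ a`, `a ∉ Q`;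
`mat_inertia_fixes_root` (`m = ℓ^n`) gives `φ(τ)α = α`, so `φ(τ')α = α`.  Then `mat_tame_gen_detects_mu`. -/
theorem mat_kummer_unram (hΩ : IsAlgClosed Ω) (hQs : SolvablyClosed Qs) (D : mat_StdRes Ω ℚ Qs)
    (ℓ : ℕ) [Fact ℓ.Prime] (hℓ : ℓ ≠ 2)
    (U : Subgroup Gal(Ω/ℚ)) (hU : IsOpen (U : Set Gal(Ω/ℚ))) (φ : U →* Gal(Qs/ℚ))
    (hφ : Continuous φ) (hlog : ∀ g : U, logChi ℓ ℚ Qs (φ g) = logChi ℓ ℚ Ω g.1)
    (n : ℕ) (α : Qs) (a : ℕ) (ha : a ≠ 0) (hα : α ^ ℓ ^ n = (a : Qs))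
    (hmiss : ∀ q : ℕ, q.Prime → q ∣ a → ∀ p, ¬ mat_Act ℓ U φ p q)
    (δ : Ω) (hδ0 : δ ≠ 0)
    (hδ : ∀ h : U, mat_eps ℓ U φ h = 1 → h.1 δ * D.ι α = δ * D.ι (φ h α))
    (P : Ideal (𝓞 Ω)) (hP : P.IsMaximal) (hPl : ¬ Over P ℓ) (g : Gal(Ω/ℚ))
    (hg : g ∈ inert ℚ P ⊓ mat_kerEps ℓ U φ) : g δ = δ := by
  have hp : ℓ.Prime := Fact.out
  have := hP
  have : CharZero Ω := algebraRat.charZero Ω
  have : CharZero Qs := algebraRat.charZero Qs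
  have hΩs := mat_solvablyClosed_of_isAlgClosed hΩ
  obtain ⟨hle, hopen, hnorm, -⟩ := mat_kerEps_spec hΩ hQs ℓ hℓ U hU φ hφ hlog
  obtain ⟨τ, hτ⟩ := tame_exists_gen (ℓ := ℓ) hΩs U hU P hPl
  obtain ⟨k, hτ'⟩ := tame_sub hΩs hopen hle hnorm hPl hτ
  have hα0 : α ≠ 0 := by
    rintro rfl
    rw [zero_pow (pow_pos hp.pos n).ne'] at hα
    exact ha (Nat.cast_eq_zero.1 hα.symm)
  have hια : D.ι α ≠ 0 := (map_ne_zero _).2 hα0
  have hα' : α ^ ℓ ^ n = algebraMap ℚ Qs (a : ℚ) := by rw [hα, map_natCast]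
  -- the quotient `x δ / δ`
  have hquot : ∀ x ∈ mat_kerEps ℓ U φ, ∃ hx : x ∈ U, x δ / δ = D.ι (φ ⟨x, hx⟩ α / α) := by
    intro x hx
    obtain ⟨hxU, hxe⟩ := (mat_mem_kerEps ℓ U φ).1 hx
    refine ⟨hxU, ?_⟩
    have h1 : x δ * D.ι α = δ * D.ι (φ ⟨x, hxU⟩ α) := hδ ⟨x, hxU⟩ hxe
    rw [map_div₀, div_eq_div_iff hδ0 hια, h1, mul_comm]
  have hmu : ∀ x ∈ mat_kerEps ℓ U φ, (x δ / δ) ^ ℓ ^ n = 1 := by
    intro x hx
    obtain ⟨hxU, hxq⟩ := hquot x hx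
    rw [hxq, ← map_pow, mat_root_quot hα0 hα', map_one]
  let c : ↥(inert ℚ P ⊓ mat_kerEps ℓ U φ) →* Ωˣ :=
    { toFun := fun x => Units.mk0 (x.1 δ / δ) (div_ne_zero ((map_ne_zero _).2 hδ0) hδ0)
      map_one' := by
        apply Units.ext
        show (1 : Gal(Ω/ℚ)) δ / δ = 1
        rw [AlgEquiv.one_apply, div_self hδ0]
      map_mul' := fun x y => by
        apply Units.ext
        show (x.1 * y.1) δ / δ = (x.1 δ / δ) * (y.1 δ / δ)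
        have h1 : x.1 (y.1 δ / δ) = y.1 δ / δ :=
          mat_fix_mu_of_chi_eq_one hΩs ℓ (chi_inert hΩs hPl x.2.1) (hmu y.1 y.2.2)
        have hxδ : x.1 δ ≠ 0 := (map_ne_zero _).2 hδ0
        rw [map_div₀] at h1
        rw [AlgEquiv.mul_apply, (div_eq_iff hxδ).1 h1]
        field_simp }
  have hc1 : c = 1 := by
    apply mat_tame_gen_detects_mu ℓ (mat_kerEps ℓ U φ) P (τ ^ ℓ ^ k) hτ' n c
    · intro x
      apply Units.ext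
      exact hmu x.1 x.2.2
    · have e : ((c.ker : Subgroup ↥(inert ℚ P ⊓ mat_kerEps ℓ U φ)) :
          Set ↥(inert ℚ P ⊓ mat_kerEps ℓ U φ))
          = Subtype.val ⁻¹' (MulAction.stabilizer Gal(Ω/ℚ) δ : Set Gal(Ω/ℚ)) := by
        ext x
        simp only [SetLike.mem_coe, MonoidHom.mem_ker, Set.mem_preimage,
          MulAction.mem_stabilizer_iff]
        rw [Units.ext_iff]
        show x.1 δ / δ = 1 ↔ x.1 δ = δ
        rw [div_eq_one_iff_eq hδ0]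
      rw [e]
      exact (stabilizer_isOpen_of_isIntegral (K := ℚ) δ).preimage continuous_subtype_val
    · apply Units.ext
      show (τ ^ ℓ ^ k) δ / δ = 1
      obtain ⟨hxU, hxq⟩ := hquot _ hτ'.mem.2
      have h1 := mat_kummer_unram_aux hΩ hQs ℓ hℓ U hU φ hφ n α a ha hα hmiss P hP hPl τ hτ
      have e : (⟨τ ^ ℓ ^ k, hxU⟩ : U) = ⟨τ, hτ.mem.2⟩ ^ ℓ ^ k := rfl
      have h2 : ∀ j : ℕ, (φ ⟨τ, hτ.mem.2⟩ ^ j) α = α := by
        intro j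
        induction j with
        | zero => simp
        | succ j ih => rw [pow_succ, AlgEquiv.mul_apply, h1, ih]
      rw [hxq, e, map_pow, h2, div_self hα0, map_one]
  have h3 : c ⟨g, hg⟩ = 1 := by rw [hc1]; rfl
  have h4 : g δ / δ = 1 := congrArg Units.val h3
  exact (div_eq_one_iff_eq hδ0).1 h4

/-- K5 (KUM-3; Hilbert theory + valuations).  If `I_{U'}(P)` fixes an `m`-th root `δ` of `d ∈ K' = fld U'`, then `ord_u(d)` is divisible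
by `m`, `u = P ∩ K'`.
Sketch: `Ñ/K'` finite Galois containing `δ`; the image of `I_{U'}(P)` in `Gal(Ñ/K')` is the inertia group `I` of `𝔓 = P ∩ Ñ`
(surjectivity as in `mat_rho_inert_surj`); `#I = e(𝔓/u)` (Mathlib `Ideal.card_inertia_eq_ramificationIdxIn`); `I ≤ Gal(Ñ/K'(δ))` is also the inertia group
over `K'(δ)`, so `e(𝔓/𝔓∩K'(δ)) = e(𝔓/u)`, so `e(𝔓∩K'(δ)/u) = 1` (tower); `IsDedekindDomain.HeightOneSpectrum.valuation_comap`: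
`v_u(d) = v_{K'(δ)}(δ^m) = v(δ)^m`. -/
theorem mat_val_of_inertia_fixes {E : Type} [Field E] [Algebra ℚ E] [IsGalois ℚ E]
    (U' : Subgroup Gal(E/ℚ)) (hU' : IsOpen (U' : Set Gal(E/ℚ))) [NumberField (fld U')]
    (m : ℕ) (d : fld U') (hd : d ≠ 0) (δ : E) (hδ : δ ^ m = (d : E))
    (u : IsDedekindDomain.HeightOneSpectrum (𝓞 (fld U'))) (P : Ideal (𝓞 E)) (hP : P.IsMaximal)
    (hPu : below U' P = u.asIdeal) (hfix : ∀ g ∈ inert ℚ P ⊓ U', g δ = δ) :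
    ∃ y : WithZero (Multiplicative ℤ), u.valuation (fld U') d = y ^ m :=
  mat_kv_val_of_inertia_fixes U' hU' m d hd δ hδ u P hP hPu hfix

/-- K6.  Kernel of the Kummer map.  If `α^(ℓ^n) = a ∈ ℚ` and `α` is fixed by a subgroup of index prime to `ℓ`, then `a ∈ ℚ^(ℓ^n)`.
Sketch: `e' = [ℚ(α):ℚ]` = size of the orbit of `α` = index of its stabiliser, which divides `A.index`; so `ℓ ∤ e'`.
`N(α)^(ℓ^n) = N(a) = a^(e')`; Bezout `x e' + y ℓ^n = 1`: `a = (N(α)^x a^y)^(ℓ^n)`. -/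
theorem mat_kummer_kernel (ℓ : ℕ) [Fact ℓ.Prime] (A : Subgroup Gal(Qs/ℚ))
    (hidx : ¬ ℓ ∣ A.index) (n : ℕ) (α : Qs) (a : ℚ) (hα : α ^ ℓ ^ n = algebraMap ℚ Qs a)
    (hfix : ∀ g ∈ A, g α = α) : ∃ b : ℚ, b ^ ℓ ^ n = a :=
  mat_ke_kummer_kernel ℓ A hidx n α a hα hfix

/-- arithmetic: `∏ q^(e q) / ∏ q^(e' q)` is an `ℓ^n`-th power in `ℚ` only if `e ≡ e' mod ℓ^n` (`padicValRat`). -/
theorem mat_prod_primes_pow (J : Finset ℕ) (hJ : ∀ q ∈ J, q.Prime) (N : ℕ) (e e' : ℕ → ℕ) (b : ℚ)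
    (hb : b ^ N * ∏ q ∈ J, (q : ℚ) ^ e' q = ∏ q ∈ J, (q : ℚ) ^ e q) :
    ∀ q ∈ J, (e q : ZMod N) = e' q :=
  mat_ke_prod_primes_pow J hJ N e e' b hb

/-- counting: `ℓ^(n s) ≤ C ℓ^(n m)` for all `n` forces `s ≤ m`. -/
theorem mat_count_exponent (ℓ : ℕ) (hℓ : 2 ≤ ℓ) (C s m : ℕ)
    (h : ∀ n : ℕ, ℓ ^ (n * s) ≤ C * ℓ ^ (n * m)) : s ≤ m :=
  mat_ke_count_exponent ℓ hℓ C s m h

/-- an element normalising `V` preserves `fld V`. -/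
theorem mat_um_map_mem {V : Subgroup Gal(Ω/ℚ)} {g : Gal(Ω/ℚ)} (hg : ∀ v ∈ V, g⁻¹ * v * g ∈ V)
    {x : Ω} (hx : x ∈ fld V) : g x ∈ fld V := by
  rw [IntermediateField.mem_fixedField_iff] at hx ⊢
  intro v hv
  have h1 := hx _ (hg v hv)
  rw [AlgEquiv.mul_apply, AlgEquiv.mul_apply] at h1
  have h2 := congrArg g h1
  rwa [← AlgEquiv.mul_apply g g⁻¹, mul_inv_cancel, AlgEquiv.one_apply] at h2

/-- the automorphism of `fld V` induced by an element normalising `V`. -/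
noncomputable def mat_umAut (V : Subgroup Gal(Ω/ℚ)) (g : Gal(Ω/ℚ))
    (hg : ∀ v ∈ V, g⁻¹ * v * g ∈ V) (hg' : ∀ v ∈ V, g * v * g⁻¹ ∈ V) : fld V ≃+* fld V where
  toFun x := ⟨g x.1, mat_um_map_mem hg x.2⟩
  invFun x := ⟨g⁻¹ x.1, mat_um_map_mem (g := g⁻¹) (by simpa using hg') x.2⟩
  left_inv x := by
    apply Subtype.ext
    show g⁻¹ (g x.1) = x.1
    rw [← AlgEquiv.mul_apply, inv_mul_cancel, AlgEquiv.one_apply]
  right_inv x := by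
    apply Subtype.ext
    show g (g⁻¹ x.1) = x.1
    rw [← AlgEquiv.mul_apply, mul_inv_cancel, AlgEquiv.one_apply]
  map_mul' x y := Subtype.ext (map_mul g x.1 y.1)
  map_add' x y := Subtype.ext (map_add g x.1 y.1)

theorem mat_umAut_apply (V : Subgroup Gal(Ω/ℚ)) (g : Gal(Ω/ℚ))
    (hg : ∀ v ∈ V, g⁻¹ * v * g ∈ V) (hg' : ∀ v ∈ V, g * v * g⁻¹ ∈ V) (x : fld V) :
    ((mat_umAut V g hg hg' x : fld V) : Ω) = g x.1 := rfl

theorem mat_umAut_pow_apply (V : Subgroup Gal(Ω/ℚ)) (g : Gal(Ω/ℚ))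
    (hg : ∀ v ∈ V, g⁻¹ * v * g ∈ V) (hg' : ∀ v ∈ V, g * v * g⁻¹ ∈ V) (k : ℕ) (x : fld V) :
    ((((mat_umAut V g hg hg').toRatAlgEquiv ^ k) x : fld V) : Ω) = (g ^ k) x.1 := by
  induction k generalizing x with
  | zero => rfl
  | succ k ih =>
    rw [pow_succ, pow_succ, AlgEquiv.mul_apply, AlgEquiv.mul_apply, ih]
    rfl

/-- `s^k = 1` iff `g^k ∈ V` (`V` closed). -/
theorem mat_umAut_pow_eq_one (V : Subgroup Gal(Ω/ℚ)) (hV : IsClosed (V : Set Gal(Ω/ℚ)))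
    (g : Gal(Ω/ℚ)) (hg : ∀ v ∈ V, g⁻¹ * v * g ∈ V) (hg' : ∀ v ∈ V, g * v * g⁻¹ ∈ V) (k : ℕ) :
    (mat_umAut V g hg hg').toRatAlgEquiv ^ k = 1 ↔ g ^ k ∈ V := by
  have hcl := InfiniteGalois.fixingSubgroup_fixedField (⟨V, hV⟩ : ClosedSubgroup Gal(Ω/ℚ))
  have hcl' : (fld V).fixingSubgroup = V := hcl
  constructor
  · intro h
    rw [← hcl', IntermediateField.mem_fixingSubgroup_iff]
    intro x hx
    have := mat_umAut_pow_apply V g hg hg' k ⟨x, hx⟩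
    rw [h] at this
    exact this.symm
  · intro h
    ext x
    rw [mat_umAut_pow_apply]
    exact (IntermediateField.mem_fixedField_iff _ _).1 x.2 _ h

/-- degrees and indices. -/
theorem mat_um_finrank (V : Subgroup Gal(Ω/ℚ)) (hV : IsClosed (V : Set Gal(Ω/ℚ))) :
    Module.finrank ℚ (fld V) = V.index := by
  have hcl := InfiniteGalois.fixingSubgroup_fixedField (⟨V, hV⟩ : ClosedSubgroup Gal(Ω/ℚ))
  have hcl' : (fld V).fixingSubgroup = V := hcl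
  rw [IntermediateField.finrank_eq_fixingSubgroup_index, hcl']

/-- a natural number representing `x ∈ ℤ_ℓ` modulo `ℓ^n` and modulo `ℓ`. -/
theorem mat_ke_exists_rep (ℓ : ℕ) [Fact ℓ.Prime] (x : ℤ_[ℓ]) (n : ℕ) :
    ∃ w : ℕ, PadicInt.toZModPow n x = (w : ZMod (ℓ ^ n)) ∧ PadicInt.toZMod x = (w : ZMod ℓ) := by
  have h := PadicInt.appr_spec (n + 1) x
  rw [Ideal.mem_span_singleton] at h
  refine ⟨x.appr (n + 1), ?_, ?_⟩
  · have h1 : x - (x.appr (n + 1) : ℤ_[ℓ]) ∈ RingHom.ker (PadicInt.toZModPow (p := ℓ) n) := by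
      rw [PadicInt.ker_toZModPow, Ideal.mem_span_singleton]
      exact (pow_dvd_pow _ (Nat.le_succ n)).trans h
    rw [RingHom.mem_ker, map_sub, map_natCast, sub_eq_zero] at h1
    exact h1
  · have h1 : x - (x.appr (n + 1) : ℤ_[ℓ]) ∈ RingHom.ker (PadicInt.toZMod (p := ℓ)) := by
      rw [PadicInt.ker_toZMod, PadicInt.maximalIdeal_eq_span_p, Ideal.mem_span_singleton]
      exact (dvd_pow_self _ (Nat.succ_ne_zero n)).trans h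
    rw [RingHom.mem_ker, map_sub, map_natCast, sub_eq_zero] at h1
    exact h1

/-- inequivalence of the Kummer classes (step (iii) of K8). -/
theorem mat_um_ineq (hΩ : IsAlgClosed Ω) (hQs : SolvablyClosed Qs)
    (D : mat_StdRes Ω ℚ Qs) (ℓ : ℕ) [Fact ℓ.Prime] (U : Subgroup Gal(Ω/ℚ))
    (φ : U →* Gal(Qs/ℚ)) (hidx : ¬ ℓ ∣ ((mat_eps ℓ U φ).ker.map φ).index)
    (n : ℕ) (α α' : Qs) (a a' : ℚ) (ha : a ≠ 0) (ha' : a' ≠ 0)
    (hα : α ^ ℓ ^ n = algebraMap ℚ Qs a) (hα' : α' ^ ℓ ^ n = algebraMap ℚ Qs a')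
    (δ δ' : Ω) (hδ0 : δ ≠ 0) (hδ0' : δ' ≠ 0)
    (hδ : ∀ h : U, mat_eps ℓ U φ h = 1 → h.1 δ * D.ι α = δ * D.ι (φ h α))
    (hδ' : ∀ h : U, mat_eps ℓ U φ h = 1 → h.1 δ' * D.ι α' = δ' * D.ι (φ h α'))
    (y : Ω) (hy0 : y ≠ 0) (hy : ∀ h : U, mat_eps ℓ U φ h = 1 → h.1 y = y)
    (heq : δ ^ ℓ ^ n = δ' ^ ℓ ^ n * y ^ ℓ ^ n) : ∃ b : ℚ, b ^ ℓ ^ n = a / a' := by
  have hp : ℓ.Prime := Fact.out
  have : CharZero Qs := algebraRat.charZero Qs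
  have hN : 0 < ℓ ^ n := pow_pos hp.pos n
  have hα0 : α ≠ 0 := by
    rintro rfl
    rw [zero_pow hN.ne'] at hα
    exact ha ((map_eq_zero _).1 hα.symm)
  have hα0' : α' ≠ 0 := by
    rintro rfl
    rw [zero_pow hN.ne'] at hα'
    exact ha' ((map_eq_zero _).1 hα'.symm)
  have hζ : (δ / (δ' * y)) ^ ℓ ^ n = 1 := by
    rw [div_pow, mul_pow, heq, div_self (mul_ne_zero (pow_ne_zero _ hδ0') (pow_ne_zero _ hy0))]
  obtain ⟨ξ₀, hξ₀⟩ := solv_exists_prim hQs hN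
  obtain ⟨i, -, hi⟩ := (hξ₀.map_of_injective D.ι.injective).eq_pow_of_pow_eq_one hζ
  have hζ₀ : (ξ₀ ^ i) ^ ℓ ^ n = 1 := by rw [← pow_mul, mul_comm, pow_mul, hξ₀.pow_eq_one, one_pow]
  have hιζ₀ : D.ι (ξ₀ ^ i) = δ / (δ' * y) := by rw [map_pow, hi]
  have hζ₀0 : ξ₀ ^ i ≠ 0 := by
    intro h0
    rw [h0, zero_pow hN.ne'] at hζ₀
    exact zero_ne_one hζ₀
  refine mat_ke_kummer_kernel ℓ ((mat_eps ℓ U φ).ker.map φ) hidx n (α / (α' * ξ₀ ^ i)) (a / a') ?_ ?_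
  · rw [div_pow, mul_pow, hζ₀, mul_one, hα, hα', map_div₀]
  · rintro _ ⟨h, hh, rfl⟩
    have hh' : mat_eps ℓ U φ h = 1 := hh
    apply D.ι.injective
    have h1 := hδ h hh'
    have h2 := hδ' h hh'
    have h3 := mat_iota_mu hΩ hQs D ℓ U φ n _ hζ₀ h hh'
    rw [hιζ₀, map_div₀, map_mul, hy h hh'] at h3
    have hια : D.ι α ≠ 0 := (map_ne_zero _).2 hα0
    have hια' : D.ι α' ≠ 0 := (map_ne_zero _).2 hα0'
    have hhδ : h.1 δ ≠ 0 := (map_ne_zero _).2 hδ0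
    have hhδ' : h.1 δ' ≠ 0 := (map_ne_zero _).2 hδ0'
    have e1 : D.ι (φ h α) = h.1 δ * D.ι α / δ := by
      rw [h1]
      field_simp
    have e2 : D.ι (φ h α') = h.1 δ' * D.ι α' / δ' := by
      rw [h2]
      field_simp
    rw [map_div₀, map_mul, map_div₀, map_mul, map_div₀, map_mul, e1, e2, ← h3, hιζ₀]
    field_simp


/-- `ε(t)^k = 1` iff the order of `ε(t) mod ℓ` divides `k`. -/
theorem mat_eps_pow_eq_one_iff (ℓ : ℕ) [Fact ℓ.Prime] (hℓ : ℓ ≠ 2) (U : Subgroup Gal(Ω/ℚ))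
    (φ : U →* Gal(Qs/ℚ)) (hlog : ∀ g : U, logChi ℓ ℚ Qs (φ g) = logChi ℓ ℚ Ω g.1) (t : U) (k : ℕ) :
    mat_eps ℓ U φ t ^ k = 1 ↔
      orderOf (PadicInt.toZMod ((mat_eps ℓ U φ t : ℤ_[ℓ]ˣ) : ℤ_[ℓ])) ∣ k := by
  have h1 : orderOf (PadicInt.toZMod ((mat_eps ℓ U φ t : ℤ_[ℓ]ˣ) : ℤ_[ℓ]))
      = orderOf (mat_epsMod ℓ U φ t) := orderOf_units (y := mat_epsMod ℓ U φ t)
  rw [h1, orderOf_dvd_iff_pow_eq_one, ← map_pow, ← map_pow, ← MonoidHom.mem_ker, ← MonoidHom.mem_ker,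
    mat_eps_ker_eq ℓ hℓ U φ hlog]

/-- `δ^(ℓ^n) ∈ K'`. -/
theorem mat_um_pow_mem (D : mat_StdRes Ω ℚ Qs) (ℓ : ℕ) [Fact ℓ.Prime] (U : Subgroup Gal(Ω/ℚ))
    (φ : U →* Gal(Qs/ℚ)) (N : ℕ) (α : Qs) (a : ℚ) (hα0 : α ≠ 0) (hα : α ^ N = algebraMap ℚ Qs a)
    (δ : Ω) (hδ : ∀ h : U, mat_eps ℓ U φ h = 1 → h.1 δ * D.ι α = δ * D.ι (φ h α)) :
    δ ^ N ∈ fld (mat_kerEps ℓ U φ) := by
  rw [IntermediateField.mem_fixedField_iff]
  intro v hv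
  obtain ⟨hvU, hve⟩ := (mat_mem_kerEps ℓ U φ).1 hv
  have h1 : v δ * D.ι α = δ * D.ι (φ ⟨v, hvU⟩ α) := hδ ⟨v, hvU⟩ hve
  have h2 := congrArg (· ^ N) h1
  simp only [mul_pow, ← map_pow, hα, AlgEquiv.commutes] at h2
  have h3 : D.ι (algebraMap ℚ Qs a) ≠ 0 := by
    rw [← hα, map_pow]
    exact pow_ne_zero _ ((map_ne_zero _).2 hα0)
  exact mul_right_cancel₀ h3 h2

/-- K8 = E2 = Prop 5.3 (uniform bound on missed primes).
Assembly: `U' = ker ε`, `t`, `e` from K1b; `K' = fld U'` (`hil_numberField`), `s` = restriction of `t⁻¹` to `K'` (order `e`;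
`[K':ℚ] = e [K:ℚ]`).  `C` from K7 (`mat_kummer_eigen_bound`).  Fix `n`, `w` = a natural number representing `ε(t) mod ℓ^n`.  For `x : J → Fin (ℓ^n)` let `a_x = ∏ q^(x q)`,
`α_x` a root in `Qs` (radicals exist: `X^N - a` splits, `Qs` solvably closed contains `μ_N`), `δ_x` from K2, `d_x = δ_x^(ℓ^n) ∈ K'ˣ`.  Valuation condition: K4 + K5
(`hil_exists_above`).  Eigen-condition: K3.  Inequivalence: if `d_x = d_x' y^(ℓ^n)` then `δ_x = ζ y δ_x'`, `ζ ∈ μ_{ℓ^n}(Ω) = ι μ_{ℓ^n}(Qs)`,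
`ζ = ι ζ₀`; then `φ(h)` fixes `α_x/(α_x' ζ₀)` for all `h ∈ U'` (`mat_iota_mu`); `A = φ(U')` has index
`(U' ⊔ ker φ).index · φ.range.index` (`Subgroup.index_map`), prime to `ℓ`; K6 + `mat_prod_primes_pow` give `x = x'`.
So `ℓ^(n #J) ≤ C ℓ^(n 2[K:ℚ])`; `mat_count_exponent`. -/
theorem mat_uniform_missed (hΩ : IsAlgClosed Ω) (hQs : SolvablyClosed Qs)
    (ℓ : ℕ) [Fact ℓ.Prime] (hℓ : ℓ ≠ 2)
    (U : Subgroup Gal(Ω/ℚ)) (hU : IsOpen (U : Set Gal(Ω/ℚ))) (φ : U →* Gal(Qs/ℚ))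
    (hφ : Continuous φ) (hidx : ¬ ℓ ∣ φ.range.index)
    (hlog : ∀ g : U, logChi ℓ ℚ Qs (φ g) = logChi ℓ ℚ Ω g.1)
    (J : Finset ℕ) (hJ : ∀ q ∈ J, q.Prime ∧ q ≠ ℓ ∧ ∀ p, ¬ mat_Act ℓ U φ p q) :
    J.card ≤ 2 * Module.finrank ℚ (fld U) := by
  classical
  have hp : ℓ.Prime := Fact.out
  have : CharZero Qs := algebraRat.charZero Qs
  obtain ⟨D⟩ := mat_stdRes_exists (F₂ := ℚ) (E₂ := Qs) hΩ
  obtain ⟨hle, hopen, hnorm, t, e, hel, hrel, -, hord⟩ :=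
    mat_kerEps_spec hΩ hQs ℓ hℓ U hU φ hφ hlog
  have hclosed : IsClosed (mat_kerEps ℓ U φ : Set Gal(Ω/ℚ)) := Subgroup.isClosed_of_isOpen _ hopen
  have hUclosed : IsClosed (U : Set Gal(Ω/ℚ)) := Subgroup.isClosed_of_isOpen _ hU
  have hNF : NumberField (fld (mat_kerEps ℓ U φ)) := hil_numberField _ hopen
  have he0 : 0 < e := Nat.pos_of_dvd_of_pos hel (Nat.sub_pos_of_lt hp.one_lt)
  have hn1 : ∀ v ∈ mat_kerEps ℓ U φ, (t.1⁻¹)⁻¹ * v * t.1⁻¹ ∈ mat_kerEps ℓ U φ := fun v hv => by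
    simpa using hnorm t.1 t.2 v hv
  have hn2 : ∀ v ∈ mat_kerEps ℓ U φ, t.1⁻¹ * v * (t.1⁻¹)⁻¹ ∈ mat_kerEps ℓ U φ := fun v hv =>
    hnorm t.1⁻¹ (U.inv_mem t.2) v hv
  -- the order of `s`
  have hpow : ∀ k : ℕ, (mat_umAut (mat_kerEps ℓ U φ) t.1⁻¹ hn1 hn2).toRatAlgEquiv ^ k = 1 ↔ e ∣ k := by
    intro k
    rw [mat_umAut_pow_eq_one _ hclosed, mat_mem_kerEps, ← hord,
      ← mat_eps_pow_eq_one_iff ℓ hℓ U φ hlog t k]
    constructor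
    · rintro ⟨hg, h⟩
      have e1 : (⟨t.1⁻¹ ^ k, hg⟩ : U) = (t ^ k)⁻¹ := Subtype.ext (by simp)
      rw [e1, map_inv, inv_eq_one, map_pow] at h
      exact h
    · intro h
      have hg : t.1⁻¹ ^ k ∈ U := U.pow_mem (U.inv_mem t.2) k
      refine ⟨hg, ?_⟩
      have e1 : (⟨t.1⁻¹ ^ k, hg⟩ : U) = (t ^ k)⁻¹ := Subtype.ext (by simp)
      rw [e1, map_inv, inv_eq_one, map_pow]
      exact h
  have hords : orderOf (mat_umAut (mat_kerEps ℓ U φ) t.1⁻¹ hn1 hn2).toRatAlgEquiv = e :=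
    Nat.dvd_antisymm (orderOf_dvd_of_pow_eq_one ((hpow e).2 dvd_rfl))
      ((hpow _).1 (pow_orderOf_eq_one _))
  obtain ⟨C, hC⟩ := mat_kummer_eigen_bound (fld (mat_kerEps ℓ U φ)) ℓ _ e hords hel
  -- degrees
  have hdeg : Module.finrank ℚ (fld (mat_kerEps ℓ U φ)) = e * Module.finrank ℚ (fld U) := by
    rw [mat_um_finrank _ hclosed, mat_um_finrank U hUclosed, ← hrel, Subgroup.relIndex_mul_index hle]
  have hdiv : 2 * Module.finrank ℚ (fld (mat_kerEps ℓ U φ)) / e = 2 * Module.finrank ℚ (fld U) := by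
    rw [hdeg, ← mul_assoc, mul_comm 2 e, mul_assoc, Nat.mul_div_cancel_left _ he0]
  -- the index of `φ(U')`
  have hidxA : ¬ ℓ ∣ ((mat_eps ℓ U φ).ker.map φ).index := by
    rw [Subgroup.index_map]
    intro h
    rcases (Nat.Prime.dvd_mul hp).1 h with h | h
    · have h1 : ((mat_eps ℓ U φ).ker ⊔ φ.ker).index ∣ (mat_eps ℓ U φ).ker.index :=
        Subgroup.index_dvd_of_le le_sup_left
      have h2 : (mat_eps ℓ U φ).ker.index = e := by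
        have e1 : (mat_kerEps ℓ U φ).subgroupOf U = (mat_eps ℓ U φ).ker :=
          Subgroup.comap_map_eq_self_of_injective U.subtype_injective _
        rw [← hrel, Subgroup.relIndex, e1]
      have h3 : ℓ ∣ ℓ - 1 := h.trans (h1.trans (h2 ▸ hel))
      have h4 := Nat.le_of_dvd (Nat.sub_pos_of_lt hp.one_lt) h3
      have := hp.one_lt
      omega
    · exact hidx h
  apply mat_count_exponent ℓ hp.two_le C
  intro n
  have hN : 0 < ℓ ^ n := pow_pos hp.pos n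
  obtain ⟨w, hw, hw1⟩ := mat_ke_exists_rep ℓ ((mat_eps ℓ U φ t : ℤ_[ℓ]ˣ) : ℤ_[ℓ]) n
  -- exponent functions
  let E : (J → Fin (ℓ ^ n)) → ℕ → ℕ := fun x q => if h : q ∈ J then (x ⟨q, h⟩).1 else 0
  have ha0 : ∀ x, (∏ q ∈ J, q ^ E x q) ≠ 0 := fun x =>
    Finset.prod_ne_zero_iff.2 fun q hq => pow_ne_zero _ (hJ q hq).1.ne_zero
  have hfam : ∀ x : J → Fin (ℓ ^ n), ∃ (α : Qs) (δ : Ω),
      α ^ ℓ ^ n = ((∏ q ∈ J, q ^ E x q : ℕ) : Qs) ∧ δ ≠ 0 ∧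
      ∀ h : U, mat_eps ℓ U φ h = 1 → h.1 δ * D.ι α = δ * D.ι (φ h α) := by
    intro x
    obtain ⟨α, hα⟩ := solv_exists_root hQs hN ((∏ q ∈ J, q ^ E x q : ℕ) : Qs)
    obtain ⟨δ, hδ0, hδ⟩ := mat_kummer_h90 hΩ hQs D ℓ hℓ U hU φ hφ hlog n α
      ((∏ q ∈ J, q ^ E x q : ℕ) : ℚ) (Nat.cast_ne_zero.2 (ha0 x)) (by rw [hα, map_natCast])
    exact ⟨α, δ, hα, hδ0, hδ⟩
  choose α δ hα hδ0 hδ using hfam
  have hα' : ∀ x, α x ^ ℓ ^ n = algebraMap ℚ Qs ((∏ q ∈ J, q ^ E x q : ℕ) : ℚ) := fun x => by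
    rw [hα, map_natCast]
  have hα0 : ∀ x, α x ≠ 0 := by
    intro x h0
    have := hα x
    rw [h0, zero_pow hN.ne'] at this
    exact ha0 x (Nat.cast_eq_zero.1 this.symm)
  have hmem : ∀ x, δ x ^ ℓ ^ n ∈ fld (mat_kerEps ℓ U φ) := fun x =>
    mat_um_pow_mem D ℓ U φ (ℓ ^ n) (α x) _ (hα0 x) (hα' x) (δ x) (hδ x)
  let d : (J → Fin (ℓ ^ n)) → (fld (mat_kerEps ℓ U φ))ˣ := fun x =>
    Units.mk0 ⟨δ x ^ ℓ ^ n, hmem x⟩ (fun h => pow_ne_zero _ (hδ0 x) (congrArg Subtype.val h))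
  have hdval : ∀ x, (((d x : (fld (mat_kerEps ℓ U φ))ˣ) : fld (mat_kerEps ℓ U φ)) : Ω)
      = δ x ^ ℓ ^ n := fun x => rfl
  -- inequivalence
  have hkey : ∀ x x', (∃ y : (fld (mat_kerEps ℓ U φ))ˣ,
      ((d x : (fld (mat_kerEps ℓ U φ))ˣ) : fld (mat_kerEps ℓ U φ))
        = d x' * (y : fld (mat_kerEps ℓ U φ)) ^ (ℓ ^ n)) → x = x' := by
    rintro x x' ⟨y, hy⟩
    have hy' : δ x ^ ℓ ^ n = δ x' ^ ℓ ^ n * ((y : fld (mat_kerEps ℓ U φ)) : Ω) ^ ℓ ^ n :=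
      congrArg Subtype.val hy
    obtain ⟨b, hb⟩ := mat_um_ineq hΩ hQs D ℓ U φ hidxA n (α x) (α x') _ _
      (Nat.cast_ne_zero.2 (ha0 x)) (Nat.cast_ne_zero.2 (ha0 x')) (hα' x) (hα' x') (δ x) (δ x')
      (hδ0 x) (hδ0 x') (hδ x) (hδ x') ((y : fld (mat_kerEps ℓ U φ)) : Ω)
      (fun h => y.ne_zero (Subtype.ext h))
      (fun h hh => (IntermediateField.mem_fixedField_iff _ _).1 (y : fld (mat_kerEps ℓ U φ)).2 _
        ((mat_mem_kerEps ℓ U φ).2 ⟨h.2, hh⟩)) hy'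
    have hb' : b ^ ℓ ^ n * ∏ q ∈ J, (q : ℚ) ^ E x' q = ∏ q ∈ J, (q : ℚ) ^ E x q := by
      have h0 : ((∏ q ∈ J, q ^ E x' q : ℕ) : ℚ) ≠ 0 := Nat.cast_ne_zero.2 (ha0 x')
      rw [hb]
      push_cast at h0 ⊢
      field_simp
    have h1 := mat_prod_primes_pow J (fun q hq => (hJ q hq).1) (ℓ ^ n) (E x) (E x') b hb'
    funext q
    apply Fin.ext
    have h2 := h1 q.1 q.2
    rw [ZMod.natCast_eq_natCast_iff'] at h2
    have e1 : E x q.1 = (x q).1 := by simp [E]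
    have e2 : E x' q.1 = (x' q).1 := by simp [E]
    rw [e1, e2, Nat.mod_eq_of_lt (x q).2, Nat.mod_eq_of_lt (x' q).2] at h2
    exact h2
  have hinj : Function.Injective d := fun x x' h => hkey x x' ⟨1, by rw [h]; simp⟩
  have hbound := hC n w (Finset.univ.image d) (by rw [← hw1]; exact hord)
    (by
      rw [← hw, ← map_pow, ← Units.val_pow_eq_pow_val,
        (mat_eps_pow_eq_one_iff ℓ hℓ U φ hlog t e).2 (by rw [hord]), Units.val_one, map_one])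
    (by
      intro d' hd'
      obtain ⟨x, -, rfl⟩ := Finset.mem_image.1 hd'
      constructor
      · intro u hu
        have := u.isMaximal
        obtain ⟨P, hP, hPu⟩ := hil_exists_above (mat_kerEps ℓ U φ) u.asIdeal
        have hPl : ¬ Over P ℓ := by
          intro hov
          apply hu
          rw [← hPu]
          show algebraMap (𝓞 (fld (mat_kerEps ℓ U φ))) (𝓞 Ω) (ℓ : 𝓞 (fld (mat_kerEps ℓ U φ))) ∈ P
          rw [map_natCast]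
          exact hov
        refine mat_val_of_inertia_fixes (mat_kerEps ℓ U φ) hopen (ℓ ^ n) _ (d x).ne_zero (δ x) rfl u P
          hP hPu (fun g hg => mat_kummer_unram hΩ hQs D ℓ hℓ U hU φ hφ hlog n (α x) _ (ha0 x) (hα x)
            ?_ (δ x) (hδ0 x) (hδ x) P hP hPl g hg)
        intro q hq hqa
        obtain ⟨r, hr, hqr⟩ := (Prime.dvd_finsetProd_iff hq.prime _).1 hqa
        have h1 : q ∣ r := hq.dvd_of_dvd_pow hqr
        rw [(Nat.prime_dvd_prime_iff_eq hq (hJ r hr).1).1 h1]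
        exact (hJ r hr).2.2
      · obtain ⟨y, hy0, hyfix, hyeq⟩ := mat_kummer_eigen hΩ hQs D ℓ U φ n (α x) _
          (Nat.cast_ne_zero.2 (ha0 x)) (hα' x) (δ x) (hδ0 x) (hδ x) t w hw
        have hyK : y ∈ fld (mat_kerEps ℓ U φ) := by
          rw [IntermediateField.mem_fixedField_iff]
          intro v hv
          obtain ⟨hvU, hve⟩ := (mat_mem_kerEps ℓ U φ).1 hv
          exact hyfix ⟨v, hvU⟩ hve
        refine ⟨Units.mk0 ⟨y, hyK⟩ (fun h => hy0 (congrArg Subtype.val h)), ?_⟩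
        apply Subtype.ext
        exact hyeq)
    (by
      intro d₁ hd₁ d₂ hd₂ hy
      obtain ⟨x, -, rfl⟩ := Finset.mem_image.1 hd₁
      obtain ⟨x', -, rfl⟩ := Finset.mem_image.1 hd₂
      rw [hkey x x' hy])
  rw [Finset.card_image_of_injective _ hinj, Finset.card_univ, Fintype.card_fun, Fintype.card_fin,
    Fintype.card_coe, ← pow_mul] at hbound
  refine hbound.trans (le_of_eq ?_)
  rw [← hdiv]
  congr! 5
  congr 1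
  exact (subsingleton_rat_module _).elim _ _

end Claimed.Agent.R239
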