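/-
Row 239 / MATCH (owner helper92).  Prop 5.5, Section 6 and the final step for a general target `E₂/F₂`.
OUTPUT: `mat_main` (= `main_open` + `engine_unique` of `Iface.lean`; consumed by END).
-/
import Claimed.Agent.R239.MATCH.Kummer
import Claimed.Agent.R239.MATCH.Iso
import Claimed.Agent.R239.GEN.Glue
import Claimed.Agent.R239.Solv
import Claimed.Agent.R239.MATCH.FinalAux

set_option autoImplicit false

namespace Claimed.Agent.R239

open NumberField Claims.C0403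
open scoped Pointwise

variable {Ω : Type} [Field Ω] [Algebra ℚ Ω] [IsGalois ℚ Ω]
variable {Qs : Type} [Field Qs] [Algebra ℚ Qs] [IsGalois ℚ Qs]

/-- E3 = Prop 5.5 (same residue characteristic).
Sketch: else the set of exceptional `q ≡ 1 (4)` is infinite; pick `n = 2[K:ℚ]+1` of them outside `bad` of E1 (`mat_finite_fibers`); `PP_j` = the finite
set of E1, `q_j ∉ PP_j` (exceptional).  `SPL.spl_power_separation` (`m = m₀`, `d = [K:ℚ]`, avoid the `q_j`) gives `ℓ ∈ 𝓛`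
(`ℓ % m₀ = 1 % m₀` ⇒ `m₀ ∣ ℓ - 1`).  If `mat_Act ℓ p q_j` then `p ∈ PP_j`, and `mat_active_norm` gives `p^f = q_j^e` in `ZMod ℓ`,
`1 ≤ f ≤ [K:ℚ]`: contradiction.  So all `q_j` are missed at `ℓ`, contradicting E2 (`mat_uniform_missed`;
`φ.range.index = 2` by `S.range`, `mat_VB_spec`; `ℓ` odd). -/
theorem mat_same_char (hΩ : IsAlgClosed Ω) (hQs : SolvablyClosed Qs) (S : mat_Setup5 Ω Qs) :
    ∃ bad : Finset ℕ, ∀ q, q.Prime → q % 4 = 1 → q ∉ bad →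
      ∃ (ℓ : ℕ) (_ : Fact ℓ.Prime), mat_inL S.m₀ ℓ ∧ mat_Act ℓ S.U S.φ q q := by
  classical
  obtain ⟨bad₁, hbad₁⟩ := mat_finite_fibers hΩ hQs S
  set d := Module.finrank ℚ (fld S.U) with hd
  let Exc : Set ℕ := {q | q.Prime ∧ q % 4 = 1 ∧ q ∉ bad₁ ∧
    ¬ ∃ (ℓ : ℕ) (_ : Fact ℓ.Prime), mat_inL S.m₀ ℓ ∧ mat_Act ℓ S.U S.φ q q}
  have hfin : Exc.Finite := by
    by_contra hinf
    obtain ⟨t, htsub, htcard⟩ := (Set.not_finite.1 hinf).exists_subset_card_eq (2 * d + 1)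
    let q : Fin (2 * d + 1) → ℕ := fun j => t.orderEmbOfFin htcard j
    have hqt : ∀ j, q j ∈ t := fun j => Finset.orderEmbOfFin_mem t htcard j
    have hqE : ∀ j, q j ∈ Exc := fun j => htsub (hqt j)
    have htq : ∀ x ∈ t, ∃ j, q j = x := by
      intro x hx
      have : x ∈ Set.range (t.orderEmbOfFin htcard) := by
        rw [Finset.range_orderEmbOfFin]; exact hx
      exact this
    have hPfin : ∀ j, {p : ℕ | ∃ (ℓ : ℕ) (_ : Fact ℓ.Prime),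
        mat_inL S.m₀ ℓ ∧ mat_Act ℓ S.U S.φ p (q j)}.Finite :=
      fun j => hbad₁ (q j) (hqE j).1 (hqE j).2.1 (hqE j).2.2.1
    let PP : Fin (2 * d + 1) → Finset ℕ := fun j => (hPfin j).toFinset
    obtain ⟨ℓ, hℓp, hℓ2, hℓav, hℓm, hsep⟩ := SPL.spl_power_separation S.m₀ d S.m₀pos q
      (fun j => (hqE j).1) PP
      (fun j p hp => by
        obtain ⟨ℓ, _, -, h⟩ := (hPfin j).mem_toFinset.1 hp
        exact h.1)
      (fun j hj => (hqE j).2.2.2 ((hPfin j).mem_toFinset.1 hj)) t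
    haveI : Fact ℓ.Prime := ⟨hℓp⟩
    have hdiv : S.m₀ ∣ ℓ - 1 := (Nat.modEq_iff_dvd' hℓp.one_le).1 hℓm.symm
    have hL : mat_inL S.m₀ ℓ := ⟨hℓ2, hdiv⟩
    have hmiss : ∀ j p, ¬ mat_Act ℓ S.U S.φ p (q j) := by
      intro j p hact
      obtain ⟨f, e, hf1, hfd, hfe⟩ := mat_active_norm hΩ hQs ℓ S.U S.isOpen S.φ p (q j) hact
      exact hsep j p ((hPfin j).mem_toFinset.2 ⟨ℓ, inferInstance, hL, hact⟩) f hf1 hfd e hfe
    have hidx : ¬ ℓ ∣ S.φ.range.index := by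
      rw [S.range, (mat_VB_spec hQs).2.2.1]
      intro h
      exact hℓ2 ((Nat.prime_dvd_prime_iff_eq hℓp Nat.prime_two).1 h)
    have := mat_uniform_missed hΩ hQs ℓ hℓ2 S.U S.isOpen S.φ S.cont hidx
      (fun g => S.logs ℓ hℓ2 hdiv g) t (fun x hx => by
        obtain ⟨j, rfl⟩ := htq x hx
        exact ⟨(hqE j).1, fun h => hℓav (h ▸ hqt j), hmiss j⟩)
    omega
  refine ⟨bad₁ ∪ hfin.toFinset, fun q hq h4 hbad => ?_⟩
  by_contra hcon
  apply hbad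
  rw [Finset.mem_union]
  by_cases h1 : q ∈ bad₁
  · exact Or.inl h1
  · exact Or.inr (hfin.mem_toFinset.2 ⟨hq, h4, h1, hcon⟩)

/-- F0  From the normalised map to the data of Section 5: `U_K = β⁻¹(P_B)`, `φ = β|`, `t` any element
of `T` with `β t ∉ P_B` (surjectivity; `P_B ≠ P` by `mat_VB_spec`). -/
theorem mat_setup5_of_normalized (hQs : SolvablyClosed Qs) (T : Subgroup Gal(Ω/ℚ))
    (hT : IsOpen (T : Set Gal(Ω/ℚ))) (β : T →* Gal(Qs/ℚ)) (hβ : Continuous β)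
    (hsurj : Function.Surjective β) (m₀ : ℕ) (hm₀ : 0 < m₀)
    (logs : ∀ (ℓ : ℕ) [Fact ℓ.Prime], ℓ ≠ 2 → m₀ ∣ ℓ - 1 →
      ∀ g : T, logChi ℓ ℚ Qs (β g) = logChi ℓ ℚ Ω g.1) :
    ∃ S : mat_Setup5 Ω Qs, S.m₀ = m₀ ∧ ∃ hST : S.U ≤ T, ∀ g : S.U, S.φ g = β ⟨g.1, hST g.2⟩ := by
  obtain ⟨hVn, hVo, hVidx, -⟩ := mat_VB_spec hQs
  have hUT : ((mat_VB Qs).comap β).map T.subtype ≤ T := fun h hh => (mat_mem_lvl.1 hh).1
  -- an element outside `P_B`
  obtain ⟨c, hc⟩ : ∃ c : Gal(Qs/ℚ), c ∉ mat_VB Qs := by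
    by_contra hcon
    have : mat_VB Qs = ⊤ :=
      (Subgroup.eq_top_iff' _).2 fun c => by_contra fun h => hcon ⟨c, h⟩
    rw [this, Subgroup.index_top] at hVidx
    norm_num at hVidx
  obtain ⟨t, rfl⟩ := hsurj c
  refine ⟨{ U := ((mat_VB Qs).comap β).map T.subtype
            isOpen := mat_isOpen_lvl T hT β hβ _ hVo
            φ := β.comp (Subgroup.inclusion hUT)
            cont := hβ.comp (continuous_inclusion hUT)
            range := ?_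
            m₀ := m₀
            m₀pos := hm₀
            logs := fun ℓ _ h2 hd g => logs ℓ h2 hd _
            t := t.1
            c := β t
            c_notMem := hc
            swap := ?_ }, rfl, hUT, fun g => rfl⟩
  · ext y
    constructor
    · rintro ⟨g, rfl⟩
      exact (mat_mem_lvl.1 g.2).2
    · intro hy
      obtain ⟨s, rfl⟩ := hsurj y
      exact ⟨⟨s.1, mat_mem_lvl.2 ⟨s.2, hy⟩⟩, rfl⟩
  · intro g
    obtain ⟨hgT, hgV⟩ := mat_mem_lvl.1 g.2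
    have hmemT : t.1⁻¹ * g.1 * t.1 ∈ T := T.mul_mem (T.mul_mem (T.inv_mem t.2) hgT) t.2
    have hval : β ⟨t.1⁻¹ * g.1 * t.1, hmemT⟩ = (β t)⁻¹ * β ⟨g.1, hgT⟩ * β t := by
      rw [← map_inv, ← map_mul, ← map_mul]
      rfl
    have hV : β ⟨t.1⁻¹ * g.1 * t.1, hmemT⟩ ∈ mat_VB Qs := by
      rw [hval]
      have := hVn.conj_mem _ hgV (β t)⁻¹
      rwa [inv_inv] at this
    exact ⟨mat_mem_lvl.2 ⟨hmemT, hV⟩, hval⟩

/-- F1a  (H2) for the normalised map.  Given a normal level `V ≤ T`, let `V' = V ⊓ S.U ⊓ (level of ι i)` made normal (core); `mat_split_infinite V'` gives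
infinitely many `q` with `D(P) ≤ V'` for all `P | q`; such `q` are `≡ 1 (4)` (a Frobenius lift fixes a square root `i` of `-1`, and
`i^q ≡ i mod P`, `q` odd); drop `bad` of E3; E3 gives an active pair `(P,Q)` over `(q,q)` with a Frobenius lift `σ` for `S.U`;
`mat_frob_split` makes it a Frobenius lift for `V`, `mat_normAt_of_decomp_le` gives `normAt V P = q`. -/
theorem mat_normalized_H2 (hΩ : IsAlgClosed Ω) (hQs : SolvablyClosed Qs)
    (T : Subgroup Gal(Ω/ℚ)) (hT : IsOpen (T : Set Gal(Ω/ℚ))) (β : T →* Gal(Qs/ℚ))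
    (hβ : Continuous β) (hsurj : Function.Surjective β) (m₀ : ℕ) (hm₀ : 0 < m₀)
    (logs : ∀ (ℓ : ℕ) [Fact ℓ.Prime], ℓ ≠ 2 → m₀ ∣ ℓ - 1 →
      ∀ g : T, logChi ℓ ℚ Qs (β g) = logChi ℓ ℚ Ω g.1) : mat_H2 T β := by
  intro V hVo hVn hVT
  obtain ⟨S, -, hST, hSφ⟩ := mat_setup5_of_normalized hQs T hT β hβ hsurj m₀ hm₀ logs
  obtain ⟨bad, hbad⟩ := mat_same_char hΩ hQs S
  have hΩs : SolvablyClosed Ω := mat_solvablyClosed_of_isAlgClosed hΩ
  obtain ⟨-, hBo, -, i, hi, hii⟩ := mat_VB_spec (Qs := Ω) hΩs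
  obtain ⟨V', hV'n, hV'o, hV'le⟩ := mat_exists_normal_le (V ⊓ S.U ⊓ mat_VB Ω)
    ((hVo.inter S.isOpen).inter hBo)
  have hV'V : V' ≤ V := fun g hg => (hV'le hg).1.1
  have hV'U : V' ≤ S.U := fun g hg => (hV'le hg).1.2
  have hV'B : V' ≤ mat_VB Ω := fun g hg => (hV'le hg).2
  have hinf := (mat_split_infinite V' hV'o).sdiff ((bad ∪ {2} : Finset ℕ).finite_toSet)
  refine hinf.mono ?_
  rintro q ⟨⟨hq, hsplit⟩, hqbad⟩
  have hqbad' : q ∉ bad ∧ q ≠ 2 := by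
    have : ¬ q = 2 ∧ q ∉ bad := by simpa [not_or] using hqbad
    exact ⟨this.2, this.1⟩
  have : CharZero Ω := algebraRat.charZero Ω
  obtain ⟨P₀, hP₀, hP₀q⟩ := mat_fin_exists_over (E := Ω) q hq
  have h4 : q % 4 = 1 := mat_fin_mod_four P₀ hP₀ q hq hqbad'.2 hP₀q i hii fun g hg =>
    (IntermediateField.mem_fixedField_iff _ _).1 hi g (hV'B (hsplit P₀ hP₀ hP₀q hg))
  obtain ⟨ℓ, _, -, -, -, P, Q, hPq, hQq, hact⟩ := hbad q hq h4 hqbad'.1
  obtain ⟨σ, hσ, hφσ, -⟩ := hact.wit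
  have hP := hact.Pmax
  have hD : decomp ℚ P ≤ V' := hsplit P hP hPq
  have hσ' : IsFrob V' P σ.1 := mat_frob_split S.U V' hV'o hV'U P hP q hq hPq hD σ.1 hσ
  have hN' : normAt V' P = q := mat_normAt_of_decomp_le V' hV'o P hP q hq hPq hD
  have hN : normAt V P = q := mat_normAt_of_decomp_le V hVo P hP q hq hPq (hD.trans hV'V)
  have hσV : IsFrob V P σ.1 := ⟨hV'V hσ'.1, fun y => by rw [hN, ← hN']; exact hσ'.2 y⟩
  refine ⟨hq, P, Q, σ.1, hσV, hP, hact.Qmax, hPq, hQq, hN, ?_⟩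
  have := hSφ σ
  rw [this] at hφσ
  exact hφσ

/-- F1 = Prop 6.1.  (H1) = `logs` at one odd `r` with `m₀ ∣ r - 1` (`Nat.exists_prime_gt_modEq_one`); (H2) = F1a; `mat_engine_group`. -/
theorem mat_identify_normalized (hΩ : IsAlgClosed Ω) (hQs : SolvablyClosed Qs)
    (D : mat_StdRes Ω ℚ Qs)
    (T : Subgroup Gal(Ω/ℚ)) (hT : IsOpen (T : Set Gal(Ω/ℚ))) (β : T →* Gal(Qs/ℚ))
    (hβ : Continuous β) (hsurj : Function.Surjective β) (m₀ : ℕ) (hm₀ : 0 < m₀)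
    (logs : ∀ (ℓ : ℕ) [Fact ℓ.Prime], ℓ ≠ 2 → m₀ ∣ ℓ - 1 →
      ∀ g : T, logChi ℓ ℚ Qs (β g) = logChi ℓ ℚ Ω g.1) :
    ∃ γ : Gal(Ω/ℚ), ∀ t : T, ∃ ht : γ⁻¹ * t.1 * γ ∈ D.S₂, D.ρ ⟨_, ht⟩ = β t := by
  obtain ⟨r, hr, hr2, hrm⟩ := Nat.exists_prime_gt_modEq_one 2 hm₀.ne'
  have : Fact r.Prime := ⟨hr⟩
  have hdiv : m₀ ∣ r - 1 := (Nat.modEq_iff_dvd' hr.one_le).1 hrm.symm
  exact mat_engine_group hΩ hQs D T hT β hβ r hr2.ne' (fun g => logs r hr2.ne' hdiv g)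
    (mat_normalized_H2 hΩ hQs T hT β hβ hsurj m₀ hm₀ logs)

/-- [GLUE]  the hypothesis bundle of GEN from `Iface` (owner: helper123 / helper28). -/
theorem mat_genAll (hΩ : IsAlgClosed Ω) (hQs : SolvablyClosed Qs) (ℓ : ℕ) [Fact ℓ.Prime]
    (hℓ : ℓ ≠ 2) : GenAll ℓ Ω Qs :=
  gen_all (mat_solvablyClosed_of_isAlgClosed hΩ) hQs hℓ

/-- F2 = Thm 6.2.  Sketch: `U` = normal core of `T₀`, `α = α₀|_U` (open range: `α₀(U)` has finite index in the open `α₀(T₀)` and is compact).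
`gen_main` (with `mat_genAll`, `hrig = mat_iso_rigidity`, square roots from `hQs`) gives `β` on `T = genT U α`;
F1 for `β` (`m₀ = (index T)!`): on `U`, `α₀ = ρ_γ := ρ(γ⁻¹·γ)`.  For `g ∈ T₀`, `u ∈ U`:
`α₀(g) α₀(u) α₀(g)⁻¹ = α₀(gug⁻¹) = ρ_γ(g) α₀(u) ρ_γ(g)⁻¹`, so `ρ_γ(g)⁻¹ α₀(g)` centralises `α₀(U)`;
`mat_centralizer`.  (`D.S₂ = ⊤` by `D.mem`.) -/
theorem mat_prosolvable_rigidity (hΩ : IsAlgClosed Ω) (hQs : SolvablyClosed Qs)
    (D : mat_StdRes Ω ℚ Qs)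
    (T₀ : Subgroup Gal(Ω/ℚ)) (hT₀ : IsOpen (T₀ : Set Gal(Ω/ℚ))) (α₀ : T₀ →* Gal(Qs/ℚ))
    (hα : Continuous α₀) (hαo : IsOpen (α₀.range : Set Gal(Qs/ℚ))) :
    ∃ γ : Gal(Ω/ℚ), ∀ t : T₀, ∃ ht : γ⁻¹ * t.1 * γ ∈ D.S₂, D.ρ ⟨_, ht⟩ = α₀ t := by
  obtain ⟨U, hUn, hUo, hUT⟩ := mat_exists_normal_le T₀ hT₀
  let α : U →* Gal(Qs/ℚ) := α₀.comp (Subgroup.inclusion hUT)
  have hαc : Continuous α := hα.comp (continuous_inclusion hUT)
  have hT₀c : CompactSpace T₀ :=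
    isCompact_iff_compactSpace.mp (T₀.isClosed_of_isOpen hT₀).isCompact
  have hrange : (U.subgroupOf T₀).map α₀ = α.range := by
    ext y
    constructor
    · rintro ⟨t, ht, rfl⟩
      exact ⟨⟨t.1, ht⟩, rfl⟩
    · rintro ⟨u, rfl⟩
      exact ⟨⟨u.1, hUT u.2⟩, u.2, rfl⟩
  have hαo' : IsOpen (α.range : Set Gal(Qs/ℚ)) := by
    rw [← hrange]
    refine gen_isOpen_map α₀ hα (by rw [← MonoidHom.coe_range]; exact hαo) _ ?_
    exact hUo.preimage continuous_subtype_val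
  have hαo'' : IsOpen (Set.range α) := by rw [← MonoidHom.coe_range]; exact hαo'
  obtain ⟨β, hβc, hβα, hβs, hβl⟩ := gen_main (fun ℓ _ h => mat_genAll hΩ hQs ℓ h)
    (fun a => solv_exists_root hQs two_pos a) U hUo α hαc hαo''
    (fun θ hθ => mat_iso_rigidity hQs α.range α.range hαo' θ hθ)
  have hTo : IsOpen ((genT U α : Subgroup Gal(Ω/ℚ)) : Set Gal(Ω/ℚ)) :=
    Subgroup.isOpen_mono (gen_U_le_T U α) hUo
  obtain ⟨γ, hγ⟩ := mat_identify_normalized hΩ hQs D (genT U α) hTo β hβc hβs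
    (Nat.factorial (genT U α).index) (Nat.factorial_pos _) (fun ℓ _ h2 hd g => hβl ℓ h2 hd g)
  refine ⟨γ, fun t => ⟨mat_fin_S₂_top D _, ?_⟩⟩
  -- `ρ_γ`
  let R : Gal(Ω/ℚ) → Gal(Qs/ℚ) := fun g => D.ρ ⟨γ⁻¹ * g * γ, mat_fin_S₂_top D _⟩
  have hRmul : ∀ g h, R (g * h) = R g * R h := by
    intro g h
    show D.ρ _ = D.ρ _ * D.ρ _
    rw [← map_mul]
    refine congrArg D.ρ (Subtype.ext ?_)
    show γ⁻¹ * (g * h) * γ = (γ⁻¹ * g * γ) * (γ⁻¹ * h * γ)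
    group
  have hRinv : ∀ g, R g⁻¹ = (R g)⁻¹ := by
    intro g
    show D.ρ _ = (D.ρ _)⁻¹
    rw [← map_inv]
    refine congrArg D.ρ (Subtype.ext ?_)
    show γ⁻¹ * g⁻¹ * γ = (γ⁻¹ * g * γ)⁻¹
    group
  have hRU : ∀ u : U, R u.1 = α u := by
    intro u
    obtain ⟨ht, h⟩ := hγ ⟨u.1, gen_U_le_T U α u.2⟩
    rw [hβα u] at h
    exact h
  show R t.1 = α₀ t
  have hcent : (R t.1)⁻¹ * α₀ t = 1 := by
    refine mat_centralizer hQs α.range hαo' _ ?_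
    rintro _ ⟨u, rfl⟩
    have hconj : t.1 * u.1 * t.1⁻¹ ∈ U := hUn.conj_mem u.1 u.2 t.1
    have h1 : α ⟨_, hconj⟩ = α₀ t * α u * (α₀ t)⁻¹ := by
      show α₀ _ = α₀ t * α₀ _ * (α₀ t)⁻¹
      rw [← map_inv, ← map_mul, ← map_mul]
      rfl
    have h2 : α ⟨_, hconj⟩ = R t.1 * α u * (R t.1)⁻¹ := by
      rw [← hRU, ← hRU, ← hRinv, ← hRmul, ← hRmul]
    have h3 : α₀ t * α u * (α₀ t)⁻¹ = R t.1 * α u * (R t.1)⁻¹ := h1.symm.trans h2
    calc (R t.1)⁻¹ * α₀ t * α u = (R t.1)⁻¹ * (α₀ t * α u * (α₀ t)⁻¹) * α₀ t := by group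
      _ = (R t.1)⁻¹ * (R t.1 * α u * (R t.1)⁻¹) * α₀ t := by rw [h3]
      _ = α u * ((R t.1)⁻¹ * α₀ t) := by group
  exact (inv_mul_eq_one.1 hcent)

variable {F₂ E₂ : Type} [Field F₂] [NumberField F₂] [Field E₂] [Algebra F₂ E₂] [IsGalois F₂ E₂]

/-- [Lemma 2.1; Mathlib only]  a solvably closed field of characteristic `0` contains a solvably
closed subfield which is Galois over `ℚ`, namely `solvableByRad ℚ E`.
Sketch: `E` contains `μ_n` (`X^n - 1` has commutative Galois group) and then all `n`-th roots of its elements (`X^n - a` has commutative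
Galois group once `μ_n ⊆ E`).  `Q₀ = solvableByRad ℚ E` is closed under taking `n`-th roots in `E`.  Normal over `ℚ`: induction on `solvableByRad`
("minpoly splits in `Q₀`").  Solvably closed: let `f ∈ Q₀[X]` have commutative Galois group; it splits in `E`?? - NOT needed: argue inside a splitting field `N/Q₀`:
if `N ≠ Q₀`, it has a cyclic sub-extension of prime degree `p`, which is `Q₀(b^{1/p})` by Kummer theory (`exists_root_adjoin_eq_top_of_isCyclic`), but `X^p - b` has a root in `Q₀`. -/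
theorem mat_Qs_exists {E : Type} [Field E] [Algebra ℚ E] (hE : SolvablyClosed E) :
    ∃ Q₀ : IntermediateField ℚ E, IsGalois ℚ Q₀ ∧ SolvablyClosed Q₀ :=
  solv_Qs_exists hE

/-- Restriction `π : Gal(E₂/F₂) → Gal(Q₀/ℚ)` for `Q₀ ⊆ E₂` Galois over `ℚ`: exists, continuous, open range.
(Range = `Gal(Q₀/Q₀ ∩ F₂)`-ish: it is compact, and of finite index because it contains the image of ... ; simplest: range `⊇` fixing subgroup of the number field `Q₀ ∩ (normal closure of F₂)`; or: the range is closed and its fixed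
field is contained in `F₂ ∩ Q₀`, finite over `ℚ`.) -/
theorem mat_restrict_Q0 [Algebra ℚ E₂] (Q₀ : IntermediateField ℚ E₂) [IsGalois ℚ Q₀] :
    ∃ π : Gal(E₂/F₂) →* Gal(Q₀/ℚ), Continuous π ∧ IsOpen (π.range : Set Gal(Q₀/ℚ)) ∧
      ∀ (g : Gal(E₂/F₂)) (x : Q₀), ((π g x : Q₀) : E₂) = g (x : E₂) := by
  let π : Gal(E₂/F₂) →* Gal(Q₀/ℚ) := (AlgEquiv.restrictNormalHom Q₀).comp (mat_finToRat F₂ E₂)
  have hπ : ∀ (g : Gal(E₂/F₂)) (x : Q₀), ((π g x : Q₀) : E₂) = g (x : E₂) := fun g x =>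
    AlgEquiv.restrictNormal_commutes (mat_finToRat F₂ E₂ g) Q₀ x
  have hcont : Continuous π := by
    refine bc_continuous_of_stab π fun x => ?_
    have hset : {g : Gal(E₂/F₂) | π g x = x} =
        ((IntermediateField.adjoin F₂ {(x : E₂)}).fixingSubgroup : Set Gal(E₂/F₂)) := by
      ext g
      show π g x = x ↔ g ∈ (IntermediateField.adjoin F₂ {(x : E₂)}).fixingSubgroup
      rw [IntermediateField.mem_fixingSubgroup_iff]
      constructor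
      · intro h
        have hgx : g (x : E₂) = x := by rw [← hπ, h]
        intro y hy
        induction hy using IntermediateField.adjoin_induction with
        | mem z hz => rw [Set.mem_singleton_iff.1 hz]; exact hgx
        | algebraMap z => exact g.commutes z
        | add a b _ _ ha hb => rw [map_add, ha, hb]
        | inv a _ ha => rw [map_inv₀, ha]
        | mul a b _ _ ha hb => rw [map_mul, ha, hb]
      · intro h
        apply Subtype.ext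
        rw [hπ]
        exact h _ (IntermediateField.mem_adjoin_simple_self F₂ _)
    rw [hset]
    have : FiniteDimensional F₂ (IntermediateField.adjoin F₂ {(x : E₂)}) :=
      IntermediateField.adjoin.finiteDimensional (Algebra.IsIntegral.isIntegral _)
    exact IntermediateField.fixingSubgroup_isOpen _
  refine ⟨π, hcont, ?_, hπ⟩
  have hclosed : IsClosed (π.range : Set Gal(Q₀/ℚ)) := by
    rw [MonoidHom.coe_range]
    exact (isCompact_range hcont).isClosed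
  let H : ClosedSubgroup Gal(Q₀/ℚ) := ⟨π.range, hclosed⟩
  have hH := InfiniteGalois.fixingSubgroup_fixedField H
  have hfd : FiniteDimensional ℚ (IntermediateField.fixedField (H : Subgroup Gal(Q₀/ℚ))) := by
    let f : IntermediateField.fixedField (H : Subgroup Gal(Q₀/ℚ)) →ₗ[ℚ] E₂ :=
      AddMonoidHom.toRatLinearMap
        { toFun := fun x => ((x : Q₀) : E₂), map_zero' := rfl, map_add' := fun _ _ => rfl }
    let w : F₂ →ₗ[ℚ] E₂ := (algebraMap F₂ E₂).toAddMonoidHom.toRatLinearMap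
    have hfw : ∀ x, f x ∈ LinearMap.range w := by
      intro x
      have hx : ∀ g : Gal(E₂/F₂), g ((x : Q₀) : E₂) = ((x : Q₀) : E₂) := by
        intro g
        rw [← hπ]
        congr 1
        exact (IntermediateField.mem_fixedField_iff _ _).1 x.2 (π g) ⟨g, rfl⟩
      obtain ⟨y, hy⟩ := IntermediateField.mem_bot.1 ((InfiniteGalois.mem_bot_iff_fixed _).2 hx)
      exact ⟨y, hy⟩
    have hinj : Function.Injective (f.codRestrict (LinearMap.range w) hfw) := by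
      intro a b hab
      have h1 : ((f.codRestrict (LinearMap.range w) hfw a : LinearMap.range w) : E₂) =
          (f.codRestrict (LinearMap.range w) hfw b : LinearMap.range w) := by rw [hab]
      have h2 : ((a : Q₀) : E₂) = ((b : Q₀) : E₂) := h1
      exact Subtype.ext (Subtype.ext h2)
    exact Module.Finite.of_injective _ hinj
  have := IntermediateField.fixingSubgroup_isOpen
    (IntermediateField.fixedField (H : Subgroup Gal(Q₀/ℚ)))
  rw [hH] at this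
  exact this

/-- F3  All primes are active for an open `φ : G_F → Gal(E₂/F₂)` (general target).
Sketch: `Q₀`, `π` as above.  `D₀ : mat_StdRes Ω ℚ Q₀`.  F2 for `π ∘ φ`: `π(φ τ) = ρ₀(γ⁻¹τγ)`; `γ⁻¹τγ` is a tame generator at `γ⁻¹P` for the
level `γ⁻¹Tγ` (transport of structure, cf. `gen_tameGen_smul`), so `ρ₀(γ⁻¹τγ) ≠ 1` (`mat_rho_tame_ne_one`). -/
theorem mat_all_active (hΩ : IsAlgClosed Ω) (hE₂ : SolvablyClosed E₂)
    (T : Subgroup Gal(Ω/ℚ)) (hT : IsOpen (T : Set Gal(Ω/ℚ)))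
    (φ : T →* Gal(E₂/F₂)) (hφ : Continuous φ) (hφo : IsOpen (φ.range : Set Gal(E₂/F₂))) :
    mat_AllActive T φ := by
  intro ℓ _ hℓ P τ hP hPl hτ hφτ
  have : CharZero E₂ := charZero_of_injective_algebraMap (algebraMap F₂ E₂).injective
  letI : Algebra ℚ E₂ := DivisionRing.toRatAlgebra
  obtain ⟨Q₀, hQ₀G, hQ₀⟩ := mat_Qs_exists hE₂
  obtain ⟨π, hπc, hπo, -⟩ := mat_restrict_Q0 (F₂ := F₂) Q₀
  obtain ⟨D₀⟩ := mat_stdRes_exists (Ω := Ω) (F₂ := ℚ) (E₂ := Q₀) hΩ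
  have hrange : (π.comp φ).range = φ.range.map π := by
    rw [MonoidHom.range_eq_map, MonoidHom.range_eq_map, Subgroup.map_map]
  have hopen : IsOpen ((π.comp φ).range : Set Gal(Q₀/ℚ)) := by
    rw [hrange]
    exact gen_isOpen_map π hπc (by rw [← MonoidHom.coe_range]; exact hπo) _ hφo
  obtain ⟨γ, hγ⟩ := mat_prosolvable_rigidity hΩ hQ₀ D₀ T hT (π.comp φ) (hπc.comp hφ) hopen
  obtain ⟨ht, h1⟩ := hγ τ
  have h2 : D₀.ρ ⟨γ⁻¹ * τ.1 * γ, ht⟩ = 1 := by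
    rw [h1]
    show π (φ τ) = 1
    rw [hφτ, map_one]
  let V' : Subgroup Gal(Ω/ℚ) := T.comap (MulAut.conj γ).toMonoidHom
  have hV'o : IsOpen (V' : Set Gal(Ω/ℚ)) :=
    hT.preimage ((continuous_const.mul continuous_id).mul continuous_const)
  have hτ' : IsTameGen ℓ V' (γ⁻¹ • P) (γ⁻¹ * τ.1 * γ) := by
    have := mat_fin_tameGen_conj (V' := V') γ⁻¹ (fun g => by
      show g ∈ T ↔ γ * (γ⁻¹ * g * γ⁻¹⁻¹) * γ⁻¹ ∈ T
      have e : γ * (γ⁻¹ * g * γ⁻¹⁻¹) * γ⁻¹ = g := by group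
      rw [e]) hτ
    rwa [inv_inv] at this
  have hPl' : ¬ Over (γ⁻¹ • P) ℓ := by
    intro h
    have := gen_over_smul h γ
    rw [smul_inv_smul] at this
    exact hPl this
  exact mat_rho_tame_ne_one hΩ hQ₀ D₀ ℓ V' hV'o (fun h _ => mat_fin_S₂_top D₀ h) (γ⁻¹ • P)
    (gen_isMaximal_smul hP γ⁻¹) hPl' _ hτ' h2

/-- F4  MAIN OUTPUT of MATCH (consumed by END): source `G_F ≤ Gal(Ω/ℚ)`, general target. -/
theorem mat_main (hΩ : IsAlgClosed Ω) (hE₂ : SolvablyClosed E₂)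
    (T : Subgroup Gal(Ω/ℚ)) (hT : IsOpen (T : Set Gal(Ω/ℚ)))
    (φ : T →* Gal(E₂/F₂)) (hφ : Continuous φ) (hφo : IsOpen (φ.range : Set Gal(E₂/F₂))) :
    ∃! j : E₂ →+* Ω, ∀ (g : T) (x : E₂), g.1 (j x) = j (φ g x) := by
  have hact := mat_all_active hΩ hE₂ T hT φ hφ hφo
  haveI : Fact (Nat.Prime 3) := ⟨by norm_num⟩
  obtain ⟨j, hj⟩ := mat_engine hΩ hE₂ T hT φ hφ 3 (by norm_num)
    (fun g => mat_allactive_H1 hΩ hE₂ T hT φ hφ hact 3 (by norm_num) g)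
    (mat_allactive_H2 hΩ hE₂ T hT φ hφ hact)
  exact ⟨j, hj, fun j' hj' => mat_unique hΩ hE₂ T hT φ j' j hj' hj⟩

end Claimed.Agent.R239
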